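import Crest.Agent.R19.Defs

set_option autoImplicit false
set_option linter.unusedSectionVars false

open Finset Classical

namespace Crest.Agent.R19

namespace A1CORE

/-- reduction of the inverse modulo a divisor. -/
lemma cast_inv {Q q : ℕ} (h : q ∣ Q) {P : ℕ} (hP : Nat.Coprime P Q) :
    (ZMod.castHom h (ZMod q)) ((P : ZMod Q)⁻¹) = (P : ZMod q)⁻¹ := by
  have h1 : (P : ZMod Q) * (P : ZMod Q)⁻¹ = 1 := ZMod.coe_mul_inv_eq_one P hP
  have hPq : Nat.Coprime P q := Nat.Coprime.coprime_dvd_right h hP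
  have h2 : (P : ZMod q) * (P : ZMod q)⁻¹ = 1 := ZMod.coe_mul_inv_eq_one P hPq
  have h3 := congrArg (ZMod.castHom h (ZMod q)) h1
  rw [map_mul, map_natCast, map_one] at h3
  calc (ZMod.castHom h (ZMod q)) ((P : ZMod Q)⁻¹)
      = ((P : ZMod q) * (P : ZMod q)⁻¹) * (ZMod.castHom h (ZMod q)) ((P : ZMod Q)⁻¹) := by
        rw [h2, one_mul]
    _ = (P : ZMod q)⁻¹ * ((P : ZMod q) * (ZMod.castHom h (ZMod q)) ((P : ZMod Q)⁻¹)) := by ring
    _ = (P : ZMod q)⁻¹ := by rw [h3, mul_one]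

/-- if `a s = 0` mod `Q` then `s = 0` mod `Q / gcd(a,Q)`. -/
lemma cast_zero {Q : ℕ} (hQ : 1 ≤ Q) (a : ℤ) (s : ZMod Q) (h : ((a : ℤ) : ZMod Q) * s = 0)
    (hd : Q / Int.gcd a Q ∣ Q) :
    (ZMod.castHom hd (ZMod (Q / Int.gcd a Q))) s = 0 := by
  have : NeZero Q := ⟨by omega⟩
  set g := Int.gcd a Q with hg
  have hgpos : 0 < g := Int.gcd_pos_of_ne_zero_right _ (by exact_mod_cast (by omega : Q ≠ 0))
  obtain ⟨z, rfl⟩ : ∃ z : ℤ, s = (z : ZMod Q) := ⟨(s.val : ℤ), by simp⟩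
  have h1 : (Q : ℤ) ∣ a * z := by
    rw [← ZMod.intCast_zmod_eq_zero_iff_dvd]
    push_cast
    exact h
  rw [map_intCast, ZMod.intCast_zmod_eq_zero_iff_dvd]
  have hgQ : (g : ℤ) ∣ Q := Int.gcd_dvd_right _ _
  have hga : (g : ℤ) ∣ a := Int.gcd_dvd_left _ _
  have hgQ' : g ∣ Q := by exact_mod_cast hgQ
  have h2 : ((Q / g : ℕ) : ℤ) = (Q : ℤ) / g := by simp
  rw [h2]
  have hg0 : (g : ℤ) ≠ 0 := by exact_mod_cast hgpos.ne'
  have hcop : IsCoprime ((Q : ℤ) / g) (a / g) := by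
    rw [Int.isCoprime_iff_gcd_eq_one, Int.gcd_comm]
    exact Int.gcd_ediv_gcd_ediv_gcd hgpos
  apply hcop.dvd_of_dvd_mul_left
  obtain ⟨k, hk⟩ := h1
  refine ⟨k, ?_⟩
  have e1 : (Q : ℤ) = g * ((Q : ℤ) / g) := (Int.mul_ediv_cancel' hgQ).symm
  have e2 : a = g * (a / g) := (Int.mul_ediv_cancel' hga).symm
  apply mul_left_cancel₀ hg0
  calc (g : ℤ) * (a / g * z) = (g * (a / g)) * z := by ring
    _ = a * z := by rw [← e2]
    _ = Q * k := hk
    _ = (g * ((Q : ℤ) / g)) * k := by rw [← e1]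
    _ = g * ((Q : ℤ) / g * k) := by ring


lemma perm_S (hPC : PermCount) (S : Finset ℕ) (j : ℕ) :
    (univ.filter (fun x : (Fin j → S) × (Fin j → S) =>
      ∃ σ : Equiv.Perm (Fin j), x.2 = x.1 ∘ σ)).card ≤ j.factorial * S.card ^ j := by
  have h := hPC S j
  rw [Fintype.card_coe] at h
  convert! h

/-- The energy condition. -/
lemma energy_cond (hKM : KMod) (hPC : PermCount) {n : ℕ} (B : Base n) (Q j : ℕ) (S : Finset ℕ)
    (hQ : 1 ≤ Q) (hj2 : j ≤ 2 ^ n) (hSP : S ⊆ PZ n)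
    (hcop : ∀ P ∈ S, Nat.Coprime P Q)
    (hsize : (j : ℝ) * (2 ^ (n + 1)) ^ (2 * j) < (Q : ℝ) ^ (1 / 50 : ℝ))
    (d : Cube n × Cube n) (hd : d ∉ badQ B Q) (I : Finset (ZMod Q)) (hI : I = {0}) :
    (univ.filter (fun x : ((Fin j → S) × (Fin j → S)) × (I × I) =>
          ∑ l, ((B.dw d : ℤ) : ZMod Q) * (((x.1.1 l : ℕ) : ZMod Q))⁻¹
            - ∑ l, ((B.dw d : ℤ) : ZMod Q) * (((x.1.2 l : ℕ) : ZMod Q))⁻¹
            = (x.2.1 : ZMod Q) - (x.2.2 : ZMod Q))).card ≤ j.factorial * S.card ^ j := by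
  have hI1 : ∀ z ∈ I, z = 0 := by
    intro z hz
    rw [hI] at hz
    exact Finset.mem_singleton.1 hz
  have hgd : (Int.gcd (B.dw d) Q : ℝ) ≤ (Q : ℝ) ^ (49 / 50 : ℝ) := by
    by_contra hcon
    exact hd (by simp only [badQ, mem_filter, mem_univ, true_and]; exact not_le.1 hcon)
  set g := Int.gcd (B.dw d) Q with hg
  have hgpos : 0 < g := Int.gcd_pos_of_ne_zero_right _ (by exact_mod_cast (by omega : Q ≠ 0))
  have hgQ : g ∣ Q := by exact_mod_cast Int.gcd_dvd_right (B.dw d) (Q : ℤ)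
  have hq''Q : Q / g ∣ Q := Nat.div_dvd_of_dvd hgQ
  have hQr : (0 : ℝ) < Q := by exact_mod_cast hQ
  have hq'' : (j : ℝ) * (2 ^ (n + 1)) ^ (2 * j) < ((Q / g : ℕ) : ℝ) := by
    refine lt_of_lt_of_le hsize ?_
    have e1 : ((Q / g : ℕ) : ℝ) * g = Q := by exact_mod_cast Nat.div_mul_cancel hgQ
    have e2 : (Q : ℝ) ^ (1 / 50 : ℝ) * (Q : ℝ) ^ (49 / 50 : ℝ) = Q := by
      rw [← Real.rpow_add hQr]; norm_num
    have e3 : (0 : ℝ) < (Q : ℝ) ^ (49 / 50 : ℝ) := Real.rpow_pos_of_pos hQr _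
    by_contra hcon
    push Not at hcon
    have : (Q : ℝ) < Q := by
      calc (Q : ℝ) = ((Q / g : ℕ) : ℝ) * g := e1.symm
        _ < (Q : ℝ) ^ (1 / 50 : ℝ) * g := by
            have : (0 : ℝ) < g := by exact_mod_cast hgpos
            exact mul_lt_mul_of_pos_right hcon this
        _ ≤ (Q : ℝ) ^ (1 / 50 : ℝ) * (Q : ℝ) ^ (49 / 50 : ℝ) := by gcongr
        _ = Q := e2
    exact lt_irrefl _ this
  have hq''nat : j * (2 ^ (n + 1)) ^ (2 * j) < Q / g := by exact_mod_cast hq''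
  have hle : (univ.filter (fun x : ((Fin j → S) × (Fin j → S)) × (I × I) =>
      ∑ l, ((B.dw d : ℤ) : ZMod Q) * (((x.1.1 l : ℕ) : ZMod Q))⁻¹
            - ∑ l, ((B.dw d : ℤ) : ZMod Q) * (((x.1.2 l : ℕ) : ZMod Q))⁻¹
            = (x.2.1 : ZMod Q) - (x.2.2 : ZMod Q))).card
      ≤ (univ.filter (fun x : (Fin j → S) × (Fin j → S) =>
        ∃ σ : Equiv.Perm (Fin j), x.2 = x.1 ∘ σ)).card := by
    apply Finset.card_le_card_of_injOn (fun x => x.1)
    · intro x hx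
      simp only [coe_filter, mem_univ, true_and, Set.mem_ofPred_eq] at hx ⊢
      have hx1 : (x.2.1 : ZMod Q) = 0 := hI1 _ x.2.1.2
      have hx2 : (x.2.2 : ZMod Q) = 0 := hI1 _ x.2.2.2
      rw [hx1, hx2, sub_zero] at hx
      have hx3 : ((B.dw d : ℤ) : ZMod Q) *
          (∑ l, (((x.1.1 l : ℕ) : ZMod Q))⁻¹ - ∑ l, (((x.1.2 l : ℕ) : ZMod Q))⁻¹) = 0 := by
        rw [mul_sub, Finset.mul_sum, Finset.mul_sum]
        exact hx
      have hx4 := A1CORE.cast_zero hQ (B.dw d) _ hx3 hq''Q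
      rw [map_sub, map_sum, map_sum, sub_eq_zero] at hx4
      have hcl : ∀ l, Nat.Coprime (x.1.1 l : ℕ) Q := fun l => hcop _ (x.1.1 l).2
      have hcl' : ∀ l, Nat.Coprime (x.1.2 l : ℕ) Q := fun l => hcop _ (x.1.2 l).2
      rw [Finset.sum_congr rfl fun l _ => A1CORE.cast_inv hq''Q (hcl l),
        Finset.sum_congr rfl fun l _ => A1CORE.cast_inv hq''Q (hcl' l)] at hx4
      obtain ⟨σ, hσ⟩ := hKM n j (Q / g) hj2 hq''nat
        (fun l => ⟨(x.1.1 l : ℕ), hSP (x.1.1 l).2⟩) (fun l => ⟨(x.1.2 l : ℕ), hSP (x.1.2 l).2⟩)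
        (fun l => Nat.Coprime.coprime_dvd_right hq''Q (hcl l))
        (fun l => Nat.Coprime.coprime_dvd_right hq''Q (hcl' l)) hx4
      refine ⟨σ, ?_⟩
      funext l
      have := congrFun hσ l
      simp only [Function.comp_apply, Subtype.mk.injEq] at this
      exact Subtype.ext this
    · rintro ⟨x, y⟩ _ ⟨x', y'⟩ _ hxy
      have e1 : x = x' := hxy
      have e2 : y = y' := by
        apply Prod.ext
        · exact Subtype.ext ((hI1 _ y.1.2).trans (hI1 _ y'.1.2).symm)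
        · exact Subtype.ext ((hI1 _ y.2.2).trans (hI1 _ y'.2.2).symm)
      rw [e1, e2]
  exact hle.trans (perm_S hPC S j)

end A1CORE

theorem a1core_proof : EnergyIneq → KMod → PermCount → A1core := by
  intro hEn hKM hPC n B Q j m pb S hQ hj hj2 hjm hSP hSne hcop hbad hsize c
  have hQ0 : NeZero Q := ⟨by omega⟩
  have hSne' : Nonempty S := hSne.to_subtype
  have hScard : (0 : ℝ) < S.card := by exact_mod_cast hSne.card_pos
  have hcardD : (Fintype.card (Cube n × Cube n) : ℝ) = 4 ^ n := by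
    simp only [Fintype.card_prod, Fintype.card_pi, Fintype.card_bool, Finset.prod_const,
      Finset.card_univ, Fintype.card_fin]
    push_cast
    rw [← mul_pow]; norm_num
  have hcardS : (Fintype.card S : ℝ) = S.card := by rw [Fintype.card_coe]
  obtain ⟨I, hI⟩ : ∃ I : Finset (ZMod Q), I = {0} := ⟨{0}, rfl⟩
  have hIne : I.Nonempty := by rw [hI]; exact Finset.singleton_nonempty 0
  have hIc : I.card = 1 := by rw [hI]; exact Finset.card_singleton 0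
  have hcond : ∀ d ∉ badQ B Q, (((univ.filter (fun x : ((Fin j → S) × (Fin j → S)) × (I × I) =>
          ∑ l, ((B.dw d : ℤ) : ZMod Q) * (((x.1.1 l : ℕ) : ZMod Q))⁻¹
            - ∑ l, ((B.dw d : ℤ) : ZMod Q) * (((x.1.2 l : ℕ) : ZMod Q))⁻¹
            = (x.2.1 : ZMod Q) - (x.2.2 : ZMod Q))).card : ℕ) : ℝ)
        ≤ (j.factorial / (S.card : ℝ) ^ j) * (Fintype.card S : ℝ) ^ (2 * j) * (I.card : ℝ) := by
    intro d hd
    have h1 := A1CORE.energy_cond hKM hPC B Q j S hQ hj2 hSP hcop hsize d hd I hI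
    have h2 : (j.factorial / (S.card : ℝ) ^ j) * (Fintype.card S : ℝ) ^ (2 * j) * (I.card : ℝ)
        = ((j.factorial * S.card ^ j : ℕ) : ℝ) := by
      rw [hcardS, hIc, two_mul, pow_add]
      push_cast
      field_simp
    rw [h2]
    exact Nat.cast_le.2 h1
  have h := hEn Q (Cube n × Cube n) S (badQ B Q)
    (fun d P => ((B.dw d : ℤ) : ZMod Q) * (((P : ℕ) : ZMod Q))⁻¹) I (-c) m j
    (j.factorial / (S.card : ℝ) ^ j) pb hIne hj hjm (by rw [hcardD]; exact hbad)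
    (by positivity) hcond
  rw [hcardD, hcardS, hIc] at h
  have hfin : (univ.filter (fun x : (Fin m → Cube n × Cube n) × (Fin m → S) =>
      ∑ u, ((B.dw (x.1 u) : ℤ) : ZMod Q) * (((x.2 u : ℕ) : ZMod Q))⁻¹ = c)).card
      ≤ (univ.filter (fun x : ((Fin m → Cube n × Cube n) × (Fin m → S)) × (I × I) =>
      ∑ u, ((B.dw (x.1.1 u) : ℤ) : ZMod Q) * (((x.1.2 u : ℕ) : ZMod Q))⁻¹ + -c
        = (x.2.1 : ZMod Q) - (x.2.2 : ZMod Q))).card := by
    have h0 : (0 : ZMod Q) ∈ I := by rw [hI]; exact Finset.mem_singleton_self 0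
    apply Finset.card_le_card_of_injOn
      (fun x => (x, ((⟨0, h0⟩ : I), (⟨0, h0⟩ : I))))
    · intro x hx
      simp only [coe_filter, mem_univ, true_and, Set.mem_ofPred_eq] at hx ⊢
      rw [sub_zero, hx]
      exact add_neg_cancel _
    · intro x _ y _ hxy
      exact (Prod.mk.inj hxy).1
  refine (Nat.cast_le.2 hfin).trans (h.trans (le_of_eq ?_))
  rw [← pow_mul]
  push_cast
  ring

end Crest.Agent.R19
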