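import Crest.Agent.R19.Basics

/-! Row 19, task A1L: divisibility of `ν` by a large `q`. -/

set_option autoImplicit false

open Finset Classical

namespace Crest.Agent.R19

namespace A1L

theorem log_le_div (n : ℕ) (hn : 4000000 ≤ n) : Real.log n ≤ n / 1000 := by
  have hn' : (4000000 : ℝ) ≤ n := by exact_mod_cast hn
  have h0 : (0 : ℝ) < n := by linarith
  have h1 : Real.log n = 2 * Real.log (Real.sqrt n) := by rw [Real.log_sqrt h0.le]; ring
  have h2 : Real.log (Real.sqrt n) ≤ Real.sqrt n - 1 :=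
    Real.log_le_sub_one_of_pos (Real.sqrt_pos.mpr h0)
  have h3 : Real.sqrt n * Real.sqrt n = n := Real.mul_self_sqrt h0.le
  have h4 : 2000 ≤ Real.sqrt n := Real.le_sqrt_of_sq_le (by norm_num; exact_mod_cast hn)
  nlinarith

theorem one_le_log (n : ℕ) (hn : 4000000 ≤ n) : 1 ≤ Real.log n := by
  have hn' : (4000000 : ℝ) ≤ n := by exact_mod_cast hn
  rw [Real.le_log_iff_exp_le (by linarith)]
  have := Real.exp_one_lt_d9
  linarith

theorem eighty (Λ nr : ℝ) (hΛ : 1 ≤ Λ) (hn : nr = Real.exp Λ) (hΛn : Λ ≤ nr / 1000)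
    (hnr : 4000000 ≤ nr) :
    88 * nr * Λ ≤ Real.exp (nr * Real.log 2 - 9 / 10 * (nr + 1) * Real.log 2) := by
  have h1 : (88 : ℝ) ≤ Real.exp 5 := by
    have h2 := Real.exp_one_gt_d9
    have h3 : Real.exp 5 = Real.exp 1 ^ 5 := by
      rw [← Real.exp_nat_mul]; norm_num
    rw [h3]
    calc (88 : ℝ) ≤ 2.7182818283 ^ 5 := by norm_num
      _ ≤ _ := pow_le_pow_left₀ (by norm_num) h2.le 5
  have h2 : Λ ≤ Real.exp Λ := by have := Real.add_one_le_exp Λ; linarith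
  calc 88 * nr * Λ ≤ Real.exp 5 * Real.exp Λ * Real.exp Λ := by
        rw [hn]
        gcongr
    _ = Real.exp (5 + Λ + Λ) := by rw [Real.exp_add, Real.exp_add]
    _ ≤ _ := by
        apply Real.exp_le_exp.mpr
        have h5 := Real.log_two_gt_d9
        have h6 := Real.log_two_lt_d9
        nlinarith


theorem two_pow_exp (m : ℕ) : (2 : ℝ) ^ m = Real.exp (m * Real.log 2) := by
  rw [Real.exp_nat_mul, Real.exp_log (by norm_num)]

theorem floor_facts (lam d : ℝ) (hd : 0 < d) (hl : 0 < lam) :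
    ((⌊lam / d⌋₊ : ℕ) : ℝ) * d ≤ lam ∧ lam ≤ (((⌊lam / d⌋₊ : ℕ) : ℝ) + 1) * d := by
  constructor
  · rw [← le_div_iff₀ hd]
    exact Nat.floor_le (by positivity)
  · rw [← div_le_iff₀ hd]
    exact (Nat.lt_floor_add_one _).le

/-- term A. -/
theorem termA (t Pc ρ N L lam : ℝ) (f : ℕ) (hρ : ρ = Real.exp (-(9 / 10 * N * L)))
    (ht0 : 0 ≤ t) (hPc : 0 < Pc) (h1 : t ≤ ρ * Pc) (hf : lam ≤ ((f : ℝ) + 1) * (8 * N * L))
    (hl : 0 < lam) :
    (t / Pc) ^ (f + 1) ≤ Real.exp (-(0.0031 * lam)) := by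
  have h1 : t / Pc ≤ ρ := by
    rw [div_le_iff₀ hPc]; exact h1
  calc (t / Pc) ^ (f + 1) ≤ ρ ^ (f + 1) := pow_le_pow_left₀ (by positivity) h1 _
    _ = Real.exp (((f + 1 : ℕ) : ℝ) * (-(9 / 10 * N * L))) := by
        rw [hρ, ← Real.exp_nat_mul]
    _ ≤ _ := by
        apply Real.exp_le_exp.mpr
        push_cast
        have h2 : ((f : ℝ) + 1) * (-(9 / 10 * N * L)) = -(9 / 80) * (((f : ℝ) + 1) * (8 * N * L)) := by
          ring
        rw [h2]
        linarith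

theorem termC (j : ℕ) (D ρ N L lam : ℝ) (hρ : ρ = Real.exp (-(9 / 10 * N * L)))
    (hD : 0 < D) (h1 : (j : ℝ) ≤ ρ * D) (hj : lam ≤ (j : ℝ) * (200 * N)) (hL : 0.69314 ≤ L)
    (hl : 0 < lam) :
    (j.factorial : ℝ) / D ^ j ≤ Real.exp (-(0.0031 * lam)) := by
  have h0 : (j.factorial : ℝ) ≤ (j : ℝ) ^ j := by exact_mod_cast Nat.factorial_le_pow j
  have h2 : (j : ℝ) / D ≤ ρ := by
    rw [div_le_iff₀ hD]; exact h1
  calc (j.factorial : ℝ) / D ^ j ≤ (j : ℝ) ^ j / D ^ j := by gcongr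
    _ = ((j : ℝ) / D) ^ j := by rw [div_pow]
    _ ≤ ρ ^ j := pow_le_pow_left₀ (by positivity) h2 _
    _ = Real.exp ((j : ℝ) * (-(9 / 10 * N * L))) := by
        rw [hρ, ← Real.exp_nat_mul]
    _ ≤ _ := by
        apply Real.exp_le_exp.mpr
        have h3 : (j : ℝ) * (-(9 / 10 * N * L)) = -(9 / 2000) * (((j : ℝ) * (200 * N)) * L) := by
          ring
        rw [h3]
        have h4 : lam * L ≤ ((j : ℝ) * (200 * N)) * L := mul_le_mul_of_nonneg_right hj (by linarith)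
        have h5 : lam * 0.69314 ≤ lam * L := mul_le_mul_of_nonneg_left hL hl.le
        linarith

theorem termB (nr lam Λ μ : ℝ) (k : ℕ) (hΛ : 1 ≤ Λ) (hn : 0 < nr)
    (hμ : μ = min nr (7 * lam / (48 * Λ))) (hl : 0 < lam)
    (hlam2 : lam ≤ 15.2 * nr * Λ) (hk : 11 * Λ ≤ (k : ℝ)) :
    (Real.exp (-(1 / 40) * μ)) ^ k ≤ Real.exp (-(0.0031 * lam)) := by
  have hμ0 : 0 ≤ μ := by
    rw [hμ]
    exact le_min hn.le (by positivity)
  rw [← Real.exp_nat_mul]
  apply Real.exp_le_exp.mpr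
  have h2 : 0.124 * lam ≤ (11 * Λ) * μ := by
    rw [hμ]
    rcases le_total nr (7 * lam / (48 * Λ)) with h | h
    · rw [min_eq_left h]
      nlinarith
    · rw [min_eq_right h]
      have h3 : 11 * Λ * (7 * lam / (48 * Λ)) = 77 / 48 * lam := by
        have : Λ ≠ 0 := by linarith
        field_simp
        ring
      rw [h3]
      linarith
  have h4 : (11 * Λ) * μ ≤ (k : ℝ) * μ := mul_le_mul_of_nonneg_right hk hμ0
  have h5 : (k : ℝ) * (-(1 / 40) * μ) = -(1 / 40) * ((k : ℝ) * μ) := by ring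
  rw [h5]
  linarith

/-- the condition on `j` and `Q`. -/
theorem condj (j n : ℕ) (lam Q : ℝ) (hj : 1 ≤ j) (hQ : 0 < Q) (hlogQ : 7 / 8 * lam ≤ Real.log Q)
    (hl : 0 < lam) (hj1 : (j : ℝ) * (100 * (n + 1)) ≤ lam) (hn : 4000000 ≤ (n : ℝ)) :
    (j : ℝ) * (2 ^ (n + 1)) ^ (2 * j) < Q ^ (1 / 50 : ℝ) := by
  have hj0 : (0 : ℝ) < j := by exact_mod_cast hj
  have hL2 := Real.log_two_lt_d9
  have h1 : (j : ℝ) * (2 ^ (n + 1)) ^ (2 * j) =
      Real.exp (Real.log j + 2 * j * ((n + 1) * Real.log 2)) := by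
    rw [Real.exp_add, Real.exp_log hj0, ← pow_mul, two_pow_exp]
    push_cast
    congr 2
    ring
  rw [h1, Real.rpow_def_of_pos hQ]
  apply Real.exp_lt_exp.mpr
  have h2 : Real.log j ≤ j - 1 := Real.log_le_sub_one_of_pos hj0
  have h3 : (j : ℝ) * 1000 ≤ lam := by
    refine le_trans ?_ hj1
    apply mul_le_mul_of_nonneg_left _ hj0.le
    linarith
  have h4 : 2 * (j : ℝ) * ((n + 1) * Real.log 2) = (1 / 50) * (((j : ℝ) * (100 * (n + 1))) *
    Real.log 2) := by ring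
  have h5 : ((j : ℝ) * (100 * (n + 1))) * Real.log 2 ≤ lam * 0.6932 :=
    mul_le_mul hj1 (by linarith) (Real.log_nonneg (by norm_num)) hl.le
  rw [h4]
  linarith

/-- all parameter facts. -/
theorem params (n f j t : ℕ) (lam Λ L Pc TTr : ℝ) (hnr : (4000000 : ℝ) ≤ n)
    (hL1 : 0.6931471803 < L) (hL2 : L < 0.6931471808)
    (hΛ1 : 1 ≤ Λ) (hΛn : Λ ≤ n / 1000) (hT1 : 14 * Λ ≤ TTr)
    (hlam2 : lam ≤ 15.2 * n * Λ) (ht1 : (t : ℝ) * (n * L) ≤ lam)
    (hf1 : (f : ℝ) * (8 * (n + 1) * L) ≤ lam) (hj1 : (j : ℝ) * (100 * (n + 1)) ≤ lam) :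
    (t : ℝ) ≤ 22 * Λ ∧ (f : ℝ) ≤ 2.75 * Λ ∧ (j : ℝ) ≤ 0.152 * Λ := by
  have hn0 : (0 : ℝ) < n := by linarith
  refine ⟨?_, ?_, ?_⟩
  · have h1 : (t : ℝ) * (n * L) ≤ 15.2 * n * Λ := le_trans ht1 hlam2
    have h2 : (t : ℝ) * L ≤ 15.2 * Λ := by
      have h3 : n * ((t : ℝ) * L) ≤ n * (15.2 * Λ) := by linarith
      exact le_of_mul_le_mul_left h3 hn0
    have h4 : (t : ℝ) * 0.6931 ≤ t * L :=
      mul_le_mul_of_nonneg_left (by linarith) (Nat.cast_nonneg _)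
    linarith
  · have h0 : (n : ℝ) * Λ ≤ (n + 1) * Λ := mul_le_mul_of_nonneg_right (by linarith) (by linarith)
    have h1 : (n + 1) * ((f : ℝ) * (8 * L)) ≤ (n + 1) * (15.2 * Λ) := by linarith
    have h2 := le_of_mul_le_mul_left h1 (by linarith : (0 : ℝ) < n + 1)
    have h4 : (f : ℝ) * 0.6931 ≤ f * L :=
      mul_le_mul_of_nonneg_left (by linarith) (Nat.cast_nonneg _)
    linarith
  · have h0 : (n : ℝ) * Λ ≤ (n + 1) * Λ := mul_le_mul_of_nonneg_right (by linarith) (by linarith)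
    have h1 : (n + 1) * ((j : ℝ) * 100) ≤ (n + 1) * (15.2 * Λ) := by linarith
    have h2 := le_of_mul_le_mul_left h1 (by linarith : (0 : ℝ) < n + 1)
    linarith

theorem card_facts (nr Λ L Pc t j E ρ : ℝ) (hnr : (4000000 : ℝ) ≤ nr) (hΛ1 : 1 ≤ Λ)
    (hE : 0 < E) (hρ0 : 0 < ρ) (hρhalf : ρ ≤ 1 / 2) (hPc1 : E ≤ 4 * nr * Pc)
    (h88 : 88 * nr * Λ ≤ E * ρ) (ht0 : 0 ≤ t) (ht2 : t ≤ 22 * Λ) (hj0 : 0 ≤ j)
    (hj5 : j ≤ 0.152 * Λ) :
    0 < Pc ∧ 0 < Pc - t ∧ t ≤ ρ * Pc ∧ j ≤ ρ * (Pc - t) := by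
  have hn0 : 0 < nr := by linarith
  have hPc0 : 0 < Pc := by
    by_contra hcon
    have h1 : Pc ≤ 0 := not_lt.mp hcon
    have h2 : nr * Pc ≤ 0 := mul_nonpos_of_nonneg_of_nonpos hn0.le h1
    linarith
  have hEρ : E * ρ ≤ E * (1 / 2) := mul_le_mul_of_nonneg_left hρhalf hE.le
  have htn : nr * t ≤ nr * (22 * Λ) := mul_le_mul_of_nonneg_left ht2 hn0.le
  have ht3 : 8 * (nr * t) ≤ E := by linarith
  have hPct : E ≤ 8 * (nr * (Pc - t)) := by linarith
  have hPct0 : 0 < Pc - t := by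
    by_contra hcon
    have h1 : Pc - t ≤ 0 := not_lt.mp hcon
    have h2 : nr * (Pc - t) ≤ 0 := mul_nonpos_of_nonneg_of_nonpos hn0.le h1
    linarith
  refine ⟨hPc0, hPct0, ?_, ?_⟩
  · have h2 : 4 * (nr * t) ≤ E * ρ := by linarith
    have h3 : E * ρ ≤ (4 * nr * Pc) * ρ := mul_le_mul_of_nonneg_right hPc1 hρ0.le
    have h4 : nr * t ≤ nr * (ρ * Pc) := by linarith
    exact le_of_mul_le_mul_left h4 hn0
  · have hjn : nr * j ≤ nr * (0.152 * Λ) := mul_le_mul_of_nonneg_left hj5 hn0.le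
    have hΛn0 : 0 < nr * Λ := by positivity
    have h2 : 8 * (nr * j) ≤ E * ρ := by linarith
    have h3 : E * ρ ≤ (8 * (nr * (Pc - t))) * ρ := mul_le_mul_of_nonneg_right hPct hρ0.le
    have h4 : nr * j ≤ nr * (ρ * (Pc - t)) := by linarith
    exact le_of_mul_le_mul_left h4 hn0

theorem final (n T : ℕ) (q lam Λ a b c : ℝ) (hq : 0 < q) (hlam : lam = Real.log q)
    (hΛ1 : 1 ≤ Λ) (hΛn : Λ ≤ n / 1000) (hnr : (4000000 : ℝ) ≤ n)
    (hnexp : (n : ℝ) = Real.exp Λ) (hT : (2 : ℝ) ^ T ≤ (n : ℝ) ^ 10)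
    (hlam1 : 200 * (n + 1) * Real.log 2 ≤ lam)
    (ha0 : 0 ≤ a) (hb0 : 0 ≤ b) (hc0 : 0 ≤ c)
    (ha : a ≤ Real.exp (-(0.0031 * lam))) (hb : b ≤ Real.exp (-(0.0031 * lam)))
    (hc : c ≤ Real.exp (-(0.0031 * lam))) :
    2 ^ T * a + 4 ^ T * (b + c) ≤ q ^ (-(1 / 1000) : ℝ) := by
  have hL1 := Real.log_two_gt_d9
  have e1 : (n : ℝ) ^ 10 = Real.exp (10 * Λ) := by
    rw [hnexp, ← Real.exp_nat_mul]; norm_num
  have h2T : ((2 : ℝ)) ^ T ≤ Real.exp (20 * Λ) := by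
    refine le_trans hT ?_
    rw [e1]
    apply Real.exp_le_exp.mpr
    linarith
  have h4T : ((4 : ℝ)) ^ T ≤ Real.exp (20 * Λ) := by
    calc ((4 : ℝ)) ^ T = (2 ^ T) ^ 2 := by rw [← pow_mul, mul_comm, pow_mul]; norm_num
      _ ≤ ((n : ℝ) ^ 10) ^ 2 := pow_le_pow_left₀ (by positivity) hT 2
      _ = Real.exp (20 * Λ) := by
          rw [e1, ← Real.exp_nat_mul]
          congr 1
          push_cast
          ring
  have hfin : 3 * (Real.exp (20 * Λ) * Real.exp (-(0.0031 * lam))) ≤ q ^ (-(1 / 1000) : ℝ) := by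
    rw [Real.rpow_def_of_pos hq, ← Real.exp_add]
    have h3 : (3 : ℝ) ≤ Real.exp 2 := by have := Real.add_one_le_exp (2 : ℝ); linarith
    calc 3 * Real.exp (20 * Λ + -(0.0031 * lam)) ≤ Real.exp 2 * Real.exp (20 * Λ + -(0.0031 * lam)) :=
          mul_le_mul_of_nonneg_right h3 (Real.exp_pos _).le
      _ = Real.exp (2 + (20 * Λ + -(0.0031 * lam))) := (Real.exp_add _ _).symm
      _ ≤ _ := by
          apply Real.exp_le_exp.mpr
          rw [← hlam]
          nlinarith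
  refine le_trans ?_ hfin
  have e1 : (2 : ℝ) ^ T * a ≤ Real.exp (20 * Λ) * Real.exp (-(0.0031 * lam)) :=
    mul_le_mul h2T ha ha0 (Real.exp_pos _).le
  have e2 : (4 : ℝ) ^ T * b ≤ Real.exp (20 * Λ) * Real.exp (-(0.0031 * lam)) :=
    mul_le_mul h4T hb hb0 (Real.exp_pos _).le
  have e3 : (4 : ℝ) ^ T * c ≤ Real.exp (20 * Λ) * Real.exp (-(0.0031 * lam)) :=
    mul_le_mul h4T hc hc0 (Real.exp_pos _).le
  rw [mul_add]
  linarith

end A1L

set_option maxHeartbeats 1000000 in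
open A1L in
theorem a1large_proof : GcdLemma → PZCount → A1largeComb → A1large := by
  rintro ⟨n1, hgcd⟩ ⟨n2, hPZ⟩ hcomb
  obtain ⟨n3, hTT⟩ := TT_ge_log
  refine ⟨max (max n1 n2) (max n3 4000000), fun n hn B q hq1 hq2 => ?_⟩
  have hn1 : n1 ≤ n := le_trans (le_trans (le_max_left _ _) (le_max_left _ _)) hn
  have hn2 : n2 ≤ n := le_trans (le_trans (le_max_right _ _) (le_max_left _ _)) hn
  have hn3 : n3 ≤ n := le_trans (le_trans (le_max_left _ _) (le_max_right _ _)) hn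
  have hn4 : 4000000 ≤ n := le_trans (le_trans (le_max_right _ _) (le_max_right _ _)) hn
  have hnr : (4000000 : ℝ) ≤ n := by exact_mod_cast hn4
  have hn0 : (0 : ℝ) < n := by linarith
  have hL1 := Real.log_two_gt_d9
  have hL2 := Real.log_two_lt_d9
  have hL0 : 0 < Real.log 2 := by linarith
  have hΛ1 : 1 ≤ Real.log n := one_le_log n hn4
  have hΛn : Real.log n ≤ n / 1000 := log_le_div n hn4
  have hnexp : (n : ℝ) = Real.exp (Real.log n) := (Real.exp_log hn0).symm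
  have hT1 : 14 * Real.log n ≤ TT n := hTT n hn3
  have hqpos : 0 < q := lt_of_lt_of_le (by positivity) hq1
  have hq0 : (0 : ℝ) < q := by exact_mod_cast hqpos
  obtain ⟨lam, hlam⟩ : ∃ lam : ℝ, lam = Real.log q := ⟨_, rfl⟩
  have hlam1 : 200 * (n + 1) * Real.log 2 ≤ lam := by
    have h1 : ((2 : ℝ)) ^ (200 * (n + 1)) ≤ q := by exact_mod_cast hq1
    have h2 := Real.log_le_log (by positivity) h1
    rw [Real.log_pow, ← hlam] at h2
    push_cast at h2
    exact h2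
  have hX0 : 0 < XX B := lt_of_lt_of_le (by positivity) (XX_ge B (by omega))
  have hlam2 : lam ≤ 15.2 * n * Real.log n := by
    have h1 : (q : ℝ) ≤ 2 * XX B := by exact_mod_cast hq2
    have h2 := Real.log_le_log hq0 h1
    have h3 : (0 : ℝ) < XX B := by exact_mod_cast hX0
    rw [Real.log_mul (by norm_num) h3.ne', ← hlam] at h2
    have h4 := log_XX_le B (by omega : 200 ≤ n)
    have h5 : (4000000 : ℝ) * 1 ≤ n * Real.log n := mul_le_mul hnr hΛ1 (by norm_num) hn0.le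
    linarith
  have hlampos : 0 < lam := lt_of_lt_of_le (by positivity) hlam1
  -- the number of primes
  have ht1 : (tq n q : ℝ) * (n * Real.log 2) ≤ lam := by
    have h1 : (((2 : ℝ)) ^ n) ^ (tq n q) ≤ q := by
      exact_mod_cast pow_tq_le (n := n) (q := q) hqpos
    have h2 := Real.log_le_log (by positivity) h1
    rw [Real.log_pow, Real.log_pow, ← hlam] at h2
    exact h2
  have hdf : (0 : ℝ) < 8 * (n + 1) * Real.log 2 := by positivity
  have hdj : (0 : ℝ) < 100 * (n + 1) := by positivity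
  obtain ⟨hf1, hf2⟩ := floor_facts lam _ hdf hlampos
  obtain ⟨hj1, hj2⟩ := floor_facts lam _ hdj hlampos
  have hj3 : 1 ≤ ⌊lam / (100 * (n + 1))⌋₊ := by
    apply Nat.le_floor
    rw [le_div_iff₀ hdj]
    push_cast
    nlinarith
  generalize ⌊lam / (8 * (n + 1) * Real.log 2)⌋₊ = f at hf1 hf2
  generalize ⌊lam / (100 * (n + 1))⌋₊ = j at hj1 hj2 hj3
  have hj3' : (1 : ℝ) ≤ j := by exact_mod_cast hj3
  have hj4 : lam ≤ (j : ℝ) * (200 * (n + 1)) := by
    have h1 : ((j : ℝ) + 1) * (100 * (n + 1)) ≤ (2 * j) * (100 * (n + 1)) :=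
      mul_le_mul_of_nonneg_right (by linarith) hdj.le
    linarith
  obtain ⟨ht2, hf3, hj5⟩ := params n f j (tq n q) lam (Real.log n) (Real.log 2) 1 (TT n) hnr hL1 hL2
    hΛ1 hΛn hT1 hlam2 ht1 hf1 hj1
  have hfj : f + 2 * j ≤ TT n := by
    have h1 : (f : ℝ) + 2 * j ≤ TT n := by linarith
    exact_mod_cast h1
  have hj2n : j ≤ 2 ^ n := by
    have h1 : (j : ℝ) ≤ n := by linarith
    have h2 : j ≤ n := by exact_mod_cast h1
    exact le_trans h2 (Nat.lt_two_pow_self).le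
  -- cardinality of PZ
  have hPZn := hPZ n hn2
  have hPc1 : Real.exp (n * Real.log 2) ≤ 4 * n * ((PZ n).card : ℝ) := by
    rw [← two_pow_exp]
    exact_mod_cast hPZn
  have h88 := eighty (Real.log n) n hΛ1 hnexp hΛn hnr
  obtain ⟨ρ, hρ⟩ : ∃ ρ : ℝ, ρ = Real.exp (-(9 / 10 * ((n : ℝ) + 1) * Real.log 2)) := ⟨_, rfl⟩
  have hρ0 : 0 < ρ := by rw [hρ]; exact Real.exp_pos _
  have h88' : 88 * n * Real.log n ≤ Real.exp (n * Real.log 2) * ρ := by
    rw [hρ, ← Real.exp_add]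
    exact h88
  have hρhalf : ρ ≤ 1 / 2 := by
    have h1 : ρ ≤ Real.exp (-Real.log 2) := by
      rw [hρ]
      apply Real.exp_le_exp.mpr
      nlinarith
    rw [Real.exp_neg, Real.exp_log (by norm_num)] at h1
    linarith
  obtain ⟨hPc0, hPct0, hc1, hc2⟩ := card_facts n (Real.log n) (Real.log 2) ((PZ n).card : ℝ)
    (tq n q) j (Real.exp (n * Real.log 2)) ρ hnr hΛ1 (Real.exp_pos _) hρ0 hρhalf hPc1 h88'
    (Nat.cast_nonneg _) ht2 (Nat.cast_nonneg _) hj5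
  have htlt : tq n q < (PZ n).card := by
    have h1 : (tq n q : ℝ) < ((PZ n).card : ℝ) := by linarith
    exact_mod_cast h1
  -- pb
  obtain ⟨μ, hμ⟩ : ∃ μ : ℝ, μ = min (n : ℝ) (7 * lam / (48 * Real.log n)) := ⟨_, rfl⟩
  have hμ0 : 0 ≤ μ := by
    rw [hμ]
    exact le_min hn0.le (by positivity)
  have hpb1 : Real.exp (-(1 / 40) * μ) ≤ 1 := by
    apply Real.exp_le_one_iff.mpr
    linarith
  have hmain := hcomb n B q f j (Real.exp (-(1 / 40) * μ)) hqpos hj3 hj2n hfj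
    (Real.exp_pos _).le hpb1 htlt (by
    intro Q hQq hQ
    have hQpos : 0 < Q := Nat.pos_of_dvd_of_pos hQq hqpos
    have hQ0 : (0 : ℝ) < Q := by exact_mod_cast hQpos
    have hlogQ : 7 / 8 * lam ≤ Real.log Q := by
      have h1 : (q : ℝ) ≤ Q * ((2 : ℝ) ^ (n + 1)) ^ f := by exact_mod_cast hQ
      have h2 := Real.log_le_log hq0 h1
      rw [Real.log_mul hQ0.ne' (by positivity), Real.log_pow, Real.log_pow, ← hlam] at h2
      push_cast at h2
      have h3 : (f : ℝ) * ((n + 1) * Real.log 2) = (f : ℝ) * (8 * (n + 1) * Real.log 2) / 8 := by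
        ring
      rw [h3] at h2
      linarith
    constructor
    · have hQn : n ^ 12 ≤ Q := by
        have h1 : (n : ℝ) ^ 12 ≤ Q := by
          have h2 : (n : ℝ) ^ 12 = Real.exp (12 * Real.log n) := by
            rw [show (12 : ℝ) * Real.log n = ((12 : ℕ) : ℝ) * Real.log n by norm_num,
              Real.exp_nat_mul, ← hnexp]
          rw [h2, ← Real.exp_log hQ0]
          apply Real.exp_le_exp.mpr
          nlinarith
        exact_mod_cast h1
      refine le_trans (hgcd n hn1 B Q hQn) ?_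
      apply mul_le_mul_of_nonneg_right _ (by positivity)
      apply Real.exp_le_exp.mpr
      have h2 : μ ≤ min (n : ℝ) (Real.log Q / (6 * Real.log n)) := by
        rw [hμ]
        apply min_le_min le_rfl
        have h3 : 7 * lam / (48 * Real.log n) = (7 / 8 * lam) / (6 * Real.log n) := by
          field_simp
          ring
        rw [h3]
        gcongr
      linarith
    · exact condj j n lam Q hj3 hQ0 hlogQ hlampos hj1 hnr)
  refine le_trans hmain ?_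
  apply mul_le_mul_of_nonneg_right _ (pow_nonneg (by norm_num) _)
  apply mul_le_mul_of_nonneg_right _ (pow_nonneg (Nat.cast_nonneg _) _)
  -- the three terms
  have hA := termA (tq n q) ((PZ n).card : ℝ) ρ (n + 1) (Real.log 2) lam f hρ (Nat.cast_nonneg _)
    hPc0 hc1 hf2 hlampos
  have hTf : ((TT n - f : ℕ) : ℝ) = (TT n : ℝ) - f := by
    rw [Nat.cast_sub (by omega)]
  have hB := termB n lam (Real.log n) μ (TT n - f) hΛ1 hn0 hμ hlampos hlam2
    (by rw [hTf]; linarith)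
  have hC := termC j ((PZ n).card - tq n q : ℝ) ρ (n + 1) (Real.log 2) lam hρ hPct0 hc2 hj4
    (by linarith) hlampos
  have hT10 : (2 : ℝ) ^ TT n ≤ (n : ℝ) ^ 10 := by exact_mod_cast two_pow_TT (by omega : 1 ≤ n)
  exact final n (TT n) q lam (Real.log n) _ _ _ hq0 hlam hΛ1 hΛn hnr hnexp hT10 hlam1
    (pow_nonneg (div_nonneg (Nat.cast_nonneg _) (Nat.cast_nonneg _)) _)
    (pow_nonneg (Real.exp_pos _).le _)
    (div_nonneg (Nat.cast_nonneg _) (pow_nonneg hPct0.le _)) hA hB hC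

end Crest.Agent.R19
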