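import Crest.Agent.R19.Defs

/-!
# Row 19, task A1LC : the combinatorial bound for `q ∣ ν` via the energy method
-/

set_option autoImplicit false

open Finset Classical

namespace Crest.Agent.R19.A1LC

/-- if `M x = 0` in `ZMod q` then `x = 0` modulo `q / gcd(M,q)`. -/
lemma cast_zero_of_mul {q M : ℕ} (hq : 1 ≤ q) (x : ZMod q) (h : (M : ZMod q) * x = 0)
    (hd : q / Nat.gcd M q ∣ q) :
    ZMod.castHom hd (ZMod (q / Nat.gcd M q)) x = 0 := by
  haveI : NeZero q := ⟨by omega⟩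
  have hx : ((x.val : ℕ) : ZMod q) = x := ZMod.natCast_zmod_val x
  rw [← hx] at h ⊢
  rw [map_natCast, ZMod.natCast_eq_zero_iff]
  rw [← Nat.cast_mul, ZMod.natCast_eq_zero_iff] at h
  have hg : 0 < Nat.gcd M q := Nat.gcd_pos_of_pos_right _ (by omega)
  have hcop : Nat.Coprime (q / Nat.gcd M q) (M / Nat.gcd M q) :=
    (Nat.coprime_div_gcd_div_gcd hg).symm
  apply hcop.dvd_of_dvd_mul_left
  obtain ⟨k, hk⟩ := h
  refine ⟨k, ?_⟩
  have h1 : Nat.gcd M q * (M / Nat.gcd M q) = M := Nat.mul_div_cancel' (Nat.gcd_dvd_left M q)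
  have h2 : Nat.gcd M q * (q / Nat.gcd M q) = q := Nat.mul_div_cancel' (Nat.gcd_dvd_right M q)
  have : Nat.gcd M q * (M / Nat.gcd M q * x.val) = Nat.gcd M q * (q / Nat.gcd M q * k) := by
    rw [← mul_assoc, ← mul_assoc, h1, h2]; exact hk
  exact Nat.eq_of_mul_eq_mul_left hg this

lemma castHom_inv {q Q P : ℕ} (hd : Q ∣ q) (hP : Nat.Coprime P q) :
    ZMod.castHom hd (ZMod Q) (((P : ZMod q))⁻¹) = ((P : ZMod Q))⁻¹ := by
  have h1 : (P : ZMod q) * ((P : ZMod q))⁻¹ = 1 := ZMod.coe_mul_inv_eq_one P hP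
  have h2 : (P : ZMod Q) * ((P : ZMod Q))⁻¹ = 1 :=
    ZMod.coe_mul_inv_eq_one P (Nat.Coprime.coprime_dvd_right hd hP)
  have h3 : (P : ZMod Q) * ZMod.castHom hd (ZMod Q) (((P : ZMod q))⁻¹) = 1 := by
    have := congrArg (ZMod.castHom hd (ZMod Q)) h1
    rwa [map_mul, map_natCast, map_one] at this
  calc ZMod.castHom hd (ZMod Q) (((P : ZMod q))⁻¹)
      = ((P : ZMod Q) * ((P : ZMod Q))⁻¹) * ZMod.castHom hd (ZMod Q) (((P : ZMod q))⁻¹) := by
        rw [h2, one_mul]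
    _ = ((P : ZMod Q))⁻¹ * ((P : ZMod Q) * ZMod.castHom hd (ZMod Q) (((P : ZMod q))⁻¹)) := by ring
    _ = ((P : ZMod Q))⁻¹ := by rw [h3, mul_one]

/-- the key algebraic identity. -/
lemma nu_zmod {n q : ℕ} (B : Base n) (c : Conf n) (F : Finset (Fin (TT n)))
    (hF : ∀ u, u ∉ F → Nat.Coprime (c.1 u : ℕ) q) (hν : (q : ℤ) ∣ nu B c) :
    (∏ v ∈ F, ((c.1 v : ℕ) : ZMod q)) *
        (∑ u ∈ Fᶜ, ((B.dw (c.2 u) : ℤ) : ZMod q) * (((c.1 u : ℕ) : ZMod q))⁻¹) +
      ∑ u ∈ F, (∏ v ∈ F.erase u, ((c.1 v : ℕ) : ZMod q)) * ((B.dw (c.2 u) : ℤ) : ZMod q) = 0 := by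
  set M' : ZMod q := ∏ v ∈ Fᶜ, ((c.1 v : ℕ) : ZMod q) with hM'
  have hunit : IsUnit M' := by
    rw [hM', IsUnit.prod_iff]
    intro u hu
    rw [Finset.mem_compl] at hu
    exact (ZMod.isUnit_iff_coprime _ _).2 (hF u hu)
  have h0 : ((nu B c : ℤ) : ZMod q) = 0 := (ZMod.intCast_zmod_eq_zero_iff_dvd _ _).2 hν
  have h1 : ((nu B c : ℤ) : ZMod q) =
      ∑ u, (∏ v ∈ univ.erase u, ((c.1 v : ℕ) : ZMod q)) * ((B.dw (c.2 u) : ℤ) : ZMod q) := by
    unfold nu
    push_cast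
    rfl
  rw [h1, ← Finset.sum_add_sum_compl F] at h0
  have h2 : ∀ u ∈ F, (∏ v ∈ univ.erase u, ((c.1 v : ℕ) : ZMod q)) =
      M' * ∏ v ∈ F.erase u, ((c.1 v : ℕ) : ZMod q) := by
    intro u hu
    rw [hM', ← Finset.prod_union]
    · congr 1
      ext v
      simp only [mem_erase, mem_univ, mem_union, mem_compl]
      constructor
      · rintro ⟨h, -⟩
        by_cases hv : v ∈ F
        · exact Or.inr ⟨h, hv⟩
        · exact Or.inl hv
      · rintro (h | h)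
        · exact ⟨fun hh => h (hh ▸ hu), trivial⟩
        · exact ⟨h.1, trivial⟩
    · rw [Finset.disjoint_left]
      intro v hv hv'
      rw [mem_compl] at hv
      exact hv (mem_of_mem_erase hv')
  have h3 : ∀ u ∈ Fᶜ, (∏ v ∈ univ.erase u, ((c.1 v : ℕ) : ZMod q)) =
      M' * (∏ v ∈ F, ((c.1 v : ℕ) : ZMod q)) * (((c.1 u : ℕ) : ZMod q))⁻¹ := by
    intro u hu
    rw [mem_compl] at hu
    have hu1 : (((c.1 u : ℕ) : ZMod q)) * (((c.1 u : ℕ) : ZMod q))⁻¹ = 1 :=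
      ZMod.coe_mul_inv_eq_one _ (hF u hu)
    have h4 : M' * (∏ v ∈ F, ((c.1 v : ℕ) : ZMod q)) =
        ((c.1 u : ℕ) : ZMod q) * ∏ v ∈ univ.erase u, ((c.1 v : ℕ) : ZMod q) := by
      rw [Finset.mul_prod_erase univ (fun v => ((c.1 v : ℕ) : ZMod q)) (mem_univ u), hM', mul_comm,
        Finset.prod_mul_prod_compl]
    rw [h4]
    calc (∏ v ∈ univ.erase u, ((c.1 v : ℕ) : ZMod q))
        = (((c.1 u : ℕ) : ZMod q) * (((c.1 u : ℕ) : ZMod q))⁻¹) *
            ∏ v ∈ univ.erase u, ((c.1 v : ℕ) : ZMod q) := by rw [hu1, one_mul]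
      _ = _ := by ring
  have h6 : ∑ u ∈ F, (∏ v ∈ univ.erase u, ((c.1 v : ℕ) : ZMod q)) * ((B.dw (c.2 u) : ℤ) : ZMod q) =
      M' * ∑ u ∈ F, (∏ v ∈ F.erase u, ((c.1 v : ℕ) : ZMod q)) * ((B.dw (c.2 u) : ℤ) : ZMod q) := by
    rw [Finset.mul_sum]
    exact Finset.sum_congr rfl (fun u hu => by rw [h2 u hu]; ring)
  have h7 : ∑ u ∈ Fᶜ, (∏ v ∈ univ.erase u, ((c.1 v : ℕ) : ZMod q)) * ((B.dw (c.2 u) : ℤ) : ZMod q) =
      M' * ((∏ v ∈ F, ((c.1 v : ℕ) : ZMod q)) *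
        (∑ u ∈ Fᶜ, ((B.dw (c.2 u) : ℤ) : ZMod q) * (((c.1 u : ℕ) : ZMod q))⁻¹)) := by
    rw [Finset.mul_sum, Finset.mul_sum]
    exact Finset.sum_congr rfl (fun u hu => by rw [h3 u hu]; ring)
  rw [h6, h7] at h0
  have h5 : M' * ((∏ v ∈ F, ((c.1 v : ℕ) : ZMod q)) *
        (∑ u ∈ Fᶜ, ((B.dw (c.2 u) : ℤ) : ZMod q) * (((c.1 u : ℕ) : ZMod q))⁻¹) +
      ∑ u ∈ F, (∏ v ∈ F.erase u, ((c.1 v : ℕ) : ZMod q)) * ((B.dw (c.2 u) : ℤ) : ZMod q)) = 0 := by
    rw [← h0, mul_add, add_comm]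
  exact (hunit.mul_right_eq_zero).1 h5

lemma card_cube (n : ℕ) : Fintype.card (Cube n × Cube n) = 4 ^ n := by
  rw [Fintype.card_prod, Fintype.card_fun, Fintype.card_bool, Fintype.card_fin, ← mul_pow]
  norm_num

lemma card_sub (n q : ℕ) :
    (univ.filter (fun P : ↥(PZ n) => (P : ℕ) ∣ q)).card = tq n q := by
  unfold tq
  rw [← Finset.card_image_of_injective _ Subtype.val_injective]
  congr 1
  ext x
  simp only [mem_image, mem_filter, mem_univ, true_and, Subtype.exists, exists_and_right,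
    exists_eq_right]
  constructor
  · rintro ⟨a, h⟩; exact ⟨a, h⟩
  · rintro ⟨a, h⟩; exact ⟨a, h⟩

/-- the set of indices with `P_u ∣ q`. -/
def FF {n : ℕ} (q : ℕ) (c : Conf n) : Finset (Fin (TT n)) := univ.filter (fun u => (c.1 u : ℕ) ∣ q)

lemma mem_FF {n : ℕ} (q : ℕ) (c : Conf n) (u : Fin (TT n)) : u ∈ FF q c ↔ (c.1 u : ℕ) ∣ q := by
  unfold FF; simp

lemma prime_of (n : ℕ) (P : PZ n) : (P : ℕ).Prime := by
  have := P.2
  unfold PZ at this
  rw [mem_filter] at this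
  exact this.2

lemma le_of (n : ℕ) (P : PZ n) : (P : ℕ) ≤ 2 ^ (n + 1) := by
  have := P.2
  unfold PZ at this
  rw [mem_filter, mem_Ioc] at this
  exact this.1.2

lemma cop_of {n q : ℕ} (P : PZ n) (h : ¬ (P : ℕ) ∣ q) : Nat.Coprime (P : ℕ) q :=
  ((prime_of n P).coprime_iff_not_dvd).2 h

/-- trivial count for a given `F`. -/
lemma count_triv {n : ℕ} (q : ℕ) (F : Finset (Fin (TT n))) (A : Finset (Conf n))
    (hA : ∀ c ∈ A, FF q c = F) :
    A.card ≤ (tq n q) ^ F.card * ((PZ n).card) ^ (TT n - F.card) * 4 ^ (n * TT n) := by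
  have hsub : A ⊆ (Fintype.piFinset (fun u : Fin (TT n) => if u ∈ F then
      univ.filter (fun P : ↥(PZ n) => (P : ℕ) ∣ q) else univ)) ×ˢ univ := by
    intro c hc
    rw [mem_product, Fintype.mem_piFinset]
    refine ⟨fun u => ?_, mem_univ _⟩
    split_ifs with hu
    · rw [mem_filter]
      refine ⟨mem_univ _, ?_⟩
      rw [← hA c hc, mem_FF] at hu
      exact hu
    · exact mem_univ _
  refine (card_le_card hsub).trans (le_of_eq ?_)
  rw [card_product, Fintype.card_piFinset]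
  congr 1
  · have h1 : ∀ u : Fin (TT n), (if u ∈ F then
      univ.filter (fun P : ↥(PZ n) => (P : ℕ) ∣ q) else univ).card =
        if u ∈ F then tq n q else (PZ n).card := by
      intro u
      split_ifs
      · exact card_sub n q
      · rw [card_univ, Fintype.card_coe]
    rw [Finset.prod_congr rfl (fun u _ => h1 u), Finset.prod_ite]
    rw [Finset.prod_const, Finset.prod_const]
    congr 2
    · congr 1; ext u; simp
    · rw [Finset.filter_not, Finset.card_sdiff_of_subset (filter_subset _ _), card_univ, Fintype.card_fin]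
      congr 2; ext u; simp
  · rw [card_univ, Fintype.card_fun, card_cube, Fintype.card_fin, ← pow_mul]

/-- the fibre bound: `P_u`, `(ε_u, ε'_u)` fixed for `u ∈ F`. -/
lemma fibre_bound (hcore : A1core) {n : ℕ} (B : Base n) (q f j : ℕ) (pb : ℝ) (hq : 1 ≤ q)
    (hj : 1 ≤ j) (hjn : j ≤ 2 ^ n) (hfj : f + 2 * j ≤ TT n) (hpb : 0 ≤ pb)
    (hlt : tq n q < (PZ n).card)
    (hQ : ∀ Q : ℕ, Q ∣ q → q ≤ Q * (2 ^ (n + 1)) ^ f →
      ((badQ B Q).card : ℝ) ≤ pb * 4 ^ n ∧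
      (j : ℝ) * (2 ^ (n + 1)) ^ (2 * j) < (Q : ℝ) ^ (1 / 50 : ℝ))
    (F : Finset (Fin (TT n))) (hFf : F.card ≤ f) (A : Finset (Conf n))
    (hA : ∀ c ∈ A, FF q c = F ∧ (q : ℤ) ∣ nu B c)
    (hcon : ∀ c ∈ A, ∀ c' ∈ A, ∀ u ∈ F, c.1 u = c'.1 u ∧ c.2 u = c'.2 u) :
    (A.card : ℝ) ≤ 2 ^ (TT n - F.card) *
      (pb ^ (TT n - F.card) + j.factorial / ((PZ n).card - tq n q : ℝ) ^ j) *
      4 ^ (n * (TT n - F.card)) * ((PZ n).card - tq n q : ℝ) ^ (TT n - F.card) := by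
  have hpos : (0 : ℝ) < (PZ n).card - tq n q := by
    have : (tq n q : ℝ) < (PZ n).card := by exact_mod_cast hlt
    linarith
  rcases A.eq_empty_or_nonempty with rfl | ⟨c0, hc0⟩
  · rw [card_empty, Nat.cast_zero]
    positivity
  set m := TT n - F.card with hm
  have hcompl : (Fᶜ).card = m := by rw [card_compl, Fintype.card_fin]
  let σ : Fin m ≃ ↥(Fᶜ) := ((Fᶜ).equivFinOfCardEq hcompl).symm
  set S : Finset ℕ := (PZ n).filter (fun P => ¬ P ∣ q) with hS
  have hScard : (S.card : ℝ) = (PZ n).card - tq n q := by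
    have h1 := Finset.card_filter_add_card_filter_not (s := PZ n) (fun P => P ∣ q)
    have h2 : tq n q + S.card = (PZ n).card := h1
    rw [← h2]; push_cast; ring
  have hSpos : 0 < S.card := by
    have : (0 : ℝ) < S.card := by rw [hScard]; exact hpos
    exact_mod_cast this
  have hSne : S.Nonempty := card_pos.1 hSpos
  obtain ⟨s0, hs0⟩ := hSne
  set M : ℕ := ∏ v ∈ F, (c0.1 v : ℕ) with hM
  have hMpos : 0 < M := Finset.prod_pos (fun v _ => (prime_of n _).pos)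
  have hgpos : 0 < Nat.gcd M q := Nat.gcd_pos_of_pos_left _ hMpos
  have hd : q / Nat.gcd M q ∣ q := Nat.div_dvd_of_dvd (Nat.gcd_dvd_right M q)
  set Q : ℕ := q / Nat.gcd M q with hQdef
  have hQg : Q * Nat.gcd M q = q := Nat.div_mul_cancel (Nat.gcd_dvd_right M q)
  have hQ1 : 1 ≤ Q := Nat.pos_of_ne_zero (fun h => by rw [h, zero_mul] at hQg; omega)
  have hMle : M ≤ (2 ^ (n + 1)) ^ f := by
    calc M ≤ ∏ v ∈ F, 2 ^ (n + 1) := Finset.prod_le_prod' (fun v _ => le_of n _)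
      _ = (2 ^ (n + 1)) ^ F.card := by rw [prod_const]
      _ ≤ (2 ^ (n + 1)) ^ f := Nat.pow_le_pow_right (by positivity) hFf
  have hqQ : q ≤ Q * (2 ^ (n + 1)) ^ f := by
    calc q = Q * Nat.gcd M q := hQg.symm
      _ ≤ Q * M := Nat.mul_le_mul_left _ (Nat.gcd_le_left _ hMpos)
      _ ≤ _ := Nat.mul_le_mul_left _ hMle
  obtain ⟨hbad, hj2⟩ := hQ Q hd hqQ
  -- the class
  set φ : Conf n → Fin m → ZMod Q := fun c i =>
    ((B.dw (c.2 (σ i)) : ℤ) : ZMod Q) * (((c.1 (σ i) : ℕ) : ZMod Q))⁻¹ with hφ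
  have hnotF : ∀ c ∈ A, ∀ u, u ∉ F → ¬ (c.1 u : ℕ) ∣ q := by
    intro c hc u hu h
    rw [← mem_FF, (hA c hc).1] at h
    exact hu h
  have hsig : ∀ i, ((σ i : ↥(Fᶜ)) : Fin (TT n)) ∉ F := fun i => mem_compl.1 (σ i).2
  have hcast : ∀ c ∈ A, ZMod.castHom hd (ZMod Q)
      (∑ u ∈ Fᶜ, ((B.dw (c.2 u) : ℤ) : ZMod q) * (((c.1 u : ℕ) : ZMod q))⁻¹) = ∑ i, φ c i := by
    intro c hc
    rw [map_sum]
    rw [← Finset.sum_coe_sort, ← Equiv.sum_comp σ]
    refine Finset.sum_congr rfl (fun i _ => ?_)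
    rw [map_mul, map_intCast, castHom_inv hd (cop_of _ (hnotF c hc _ (hsig i)))]
  have hclass : ∀ c ∈ A, ∑ i, φ c i = ∑ i, φ c0 i := by
    intro c hc
    rw [← hcast c hc, ← hcast c0 hc0, ← sub_eq_zero, ← map_sub]
    apply cast_zero_of_mul hq
    have e1 := nu_zmod B c F (fun u hu => cop_of _ (hnotF c hc u hu)) (hA c hc).2
    have e2 := nu_zmod B c0 F (fun u hu => cop_of _ (hnotF c0 hc0 u hu)) (hA c0 hc0).2
    have e3 : (∏ v ∈ F, ((c.1 v : ℕ) : ZMod q)) = ∏ v ∈ F, ((c0.1 v : ℕ) : ZMod q) :=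
      Finset.prod_congr rfl (fun v hv => by rw [(hcon c hc c0 hc0 v hv).1])
    have e4 : ∑ u ∈ F, (∏ v ∈ F.erase u, ((c.1 v : ℕ) : ZMod q)) * ((B.dw (c.2 u) : ℤ) : ZMod q) =
        ∑ u ∈ F, (∏ v ∈ F.erase u, ((c0.1 v : ℕ) : ZMod q)) * ((B.dw (c0.2 u) : ℤ) : ZMod q) := by
      refine Finset.sum_congr rfl (fun u hu => ?_)
      rw [(hcon c hc c0 hc0 u hu).2]
      congr 1
      exact Finset.prod_congr rfl (fun v hv => by
        rw [(hcon c hc c0 hc0 v (mem_of_mem_erase hv)).1])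
    rw [e3, e4] at e1
    rw [hM, Nat.cast_prod]
    linear_combination e1 - e2
  have hmain := hcore n B Q j m pb S hQ1 hj hjn (by omega) (filter_subset _ _) ⟨s0, hs0⟩
    (fun P hP => by
      have hP' := hP
      rw [hS, mem_filter] at hP'
      have h1 : P.Prime := by
        have := hP'.1
        unfold PZ at this
        exact (mem_filter.1 this).2
      exact Nat.Coprime.coprime_dvd_right hd ((h1.coprime_iff_not_dvd).2 hP'.2))
    hbad hj2 (∑ i, φ c0 i)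
  rw [hScard] at hmain
  refine le_trans ?_ hmain
  rw [Nat.cast_le]
  refine Finset.card_le_card_of_injOn (fun c : Conf n => ((fun i => c.2 (σ i) : Fin m → Cube n × Cube n),
    (fun i => if h : (c.1 (σ i) : ℕ) ∈ S then ⟨_, h⟩ else ⟨s0, hs0⟩ : Fin m → ↥S))) ?_ ?_
  · intro c hc
    have hc' : c ∈ A := hc
    rw [mem_coe, mem_filter]
    refine ⟨mem_univ _, ?_⟩
    rw [← hclass c hc']
    refine Finset.sum_congr rfl (fun i _ => ?_)
    have hin : (c.1 (σ i) : ℕ) ∈ S := by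
      rw [hS, mem_filter]
      exact ⟨(c.1 (σ i)).2, hnotF c hc' _ (hsig i)⟩
    simp only [hφ, dif_pos hin]
  · intro c hc c' hc' heq
    have hcA : c ∈ A := hc
    have hcA' : c' ∈ A := hc'
    simp only [Prod.mk.injEq] at heq
    obtain ⟨h1, h2⟩ := heq
    have h12 : ∀ u, c.1 u = c'.1 u ∧ c.2 u = c'.2 u := by
      intro u
      by_cases hu : u ∈ F
      · exact hcon c hcA c' hcA' u hu
      · have hu' : u ∈ Fᶜ := mem_compl.2 hu
        obtain ⟨i, hi⟩ := σ.surjective ⟨u, hu'⟩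
        have hi' : ((σ i : ↥(Fᶜ)) : Fin (TT n)) = u := by rw [hi]
        have g1 := congrFun h1 i
        have g2 := congrFun h2 i
        rw [hi'] at g1
        have hin : ∀ c ∈ A, (c.1 (σ i) : ℕ) ∈ S := by
          intro c hc
          rw [hS, mem_filter]
          exact ⟨(c.1 (σ i)).2, hnotF c hc _ (hsig i)⟩
        rw [dif_pos (hin c hcA), dif_pos (hin c' hcA')] at g2
        have g3 : (c.1 (σ i) : ℕ) = (c'.1 (σ i) : ℕ) := Subtype.mk.inj g2
        rw [hi'] at g3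
        exact ⟨Subtype.ext g3, g1⟩
    exact Prod.ext (funext fun u => (h12 u).1) (funext fun u => (h12 u).2)

/-- the bound for `|F| ≤ f`. -/
lemma count_small (hcore : A1core) {n : ℕ} (B : Base n) (q f j : ℕ) (pb : ℝ) (hq : 1 ≤ q)
    (hj : 1 ≤ j) (hjn : j ≤ 2 ^ n) (hfj : f + 2 * j ≤ TT n) (hpb : 0 ≤ pb)
    (hlt : tq n q < (PZ n).card)
    (hQ : ∀ Q : ℕ, Q ∣ q → q ≤ Q * (2 ^ (n + 1)) ^ f →
      ((badQ B Q).card : ℝ) ≤ pb * 4 ^ n ∧
      (j : ℝ) * (2 ^ (n + 1)) ^ (2 * j) < (Q : ℝ) ^ (1 / 50 : ℝ))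
    (F : Finset (Fin (TT n))) (hFf : F.card ≤ f) (A : Finset (Conf n))
    (hA : ∀ c ∈ A, FF q c = F ∧ (q : ℤ) ∣ nu B c) :
    (A.card : ℝ) ≤ (tq n q : ℝ) ^ F.card * (4 ^ n) ^ F.card * (2 ^ (TT n - F.card) *
      (pb ^ (TT n - F.card) + j.factorial / ((PZ n).card - tq n q : ℝ) ^ j) *
      4 ^ (n * (TT n - F.card)) * ((PZ n).card - tq n q : ℝ) ^ (TT n - F.card)) := by
  set g : Conf n → (↥F → PZ n) × (↥F → Cube n × Cube n) :=
    fun c => (fun u => c.1 u, fun u => c.2 u) with hg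
  set t : Finset ((↥F → PZ n) × (↥F → Cube n × Cube n)) :=
    (Fintype.piFinset (fun _ : ↥F => univ.filter (fun P : ↥(PZ n) => (P : ℕ) ∣ q))) ×ˢ univ with ht
  have hmaps : ∀ c ∈ A, g c ∈ t := by
    intro c hc
    rw [ht, mem_product, Fintype.mem_piFinset]
    refine ⟨fun u => ?_, mem_univ _⟩
    rw [mem_filter]
    refine ⟨mem_univ _, ?_⟩
    have hu : (u : Fin (TT n)) ∈ FF q c := by rw [(hA c hc).1]; exact u.2
    exact (mem_FF q c u).1 hu
  have hcardt : (t.card : ℝ) = (tq n q : ℝ) ^ F.card * (4 ^ n) ^ F.card := by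
    rw [ht, card_product, Fintype.card_piFinset, card_univ, Fintype.card_fun, card_cube,
      Finset.prod_const, card_sub, card_univ, Fintype.card_coe]
    push_cast
    ring
  rw [Finset.card_eq_sum_card_fiberwise hmaps]
  push_cast
  refine (Finset.sum_le_card_nsmul t _ _ (fun b _ =>
    fibre_bound hcore B q f j pb hq hj hjn hfj hpb hlt hQ F hFf (A.filter (fun c => g c = b))
      (fun c hc => hA c (mem_filter.1 hc).1) ?_)).trans (le_of_eq ?_)
  · intro c hc c' hc' u hu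
    have h1 := (mem_filter.1 hc).2
    have h2 := (mem_filter.1 hc').2
    rw [← h2, hg] at h1
    simp only [Prod.mk.injEq] at h1
    exact ⟨congrFun h1.1 ⟨u, hu⟩, congrFun h1.2 ⟨u, hu⟩⟩
  · rw [nsmul_eq_mul, hcardt]

end Crest.Agent.R19.A1LC

namespace Crest.Agent.R19

open A1LC

theorem a1largeComb_proof : A1core → A1largeComb := by
  intro hcore n B q f j pb hq hj hjn hfj hpb hpb1 hlt hQ
  set T := TT n with hT
  set N : ℝ := ((PZ n).card : ℝ) with hN
  set s : ℝ := (tq n q : ℝ) with hs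
  have hs0 : 0 ≤ s := Nat.cast_nonneg _
  have hsN : s < N := by rw [hs, hN]; exact_mod_cast hlt
  have hNpos : 0 < N := lt_of_le_of_lt hs0 hsN
  set E : ℝ := j.factorial / (N - s) ^ j with hE
  have hEpos : 0 ≤ E := by
    rw [hE]
    have : 0 ≤ N - s := by linarith
    positivity
  set A : Finset (Conf n) := univ.filter (fun c : Conf n => (q : ℤ) ∣ nu B c) with hA
  have hsplit : (A.card : ℝ) = ∑ F : Finset (Fin (TT n)), ((A.filter (fun c => FF q c = F)).card : ℝ) := by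
    rw [Finset.card_eq_sum_card_fiberwise (f := fun c => FF q c) (t := univ) (fun c _ => mem_univ _)]
    push_cast
    rfl
  have hF : ∀ F : Finset (Fin (TT n)), ((A.filter (fun c => FF q c = F)).card : ℝ) ≤
      ((s / N) ^ (f + 1) + 2 ^ T * (pb ^ (T - f) + E)) * N ^ T * 4 ^ (n * T) := by
    intro F
    have hFT : F.card ≤ T := by
      calc F.card ≤ Fintype.card (Fin (TT n)) := card_le_univ F
        _ = T := by rw [Fintype.card_fin]
    by_cases hFf : F.card ≤ f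
    · have h1 := count_small hcore B q f j pb hq hj hjn hfj hpb hlt hQ F hFf
        (A.filter (fun c => FF q c = F)) (fun c hc => ⟨(mem_filter.1 hc).2,
          (mem_filter.1 (mem_filter.1 hc).1).2⟩)
      refine h1.trans ?_
      change s ^ F.card * (4 ^ n) ^ F.card * (2 ^ (T - F.card) * (pb ^ (T - F.card) + E) *
            4 ^ (n * (T - F.card)) * (N - s) ^ (T - F.card)) ≤ _
      set a := F.card with ha
      have e1 : (N - s) ^ (T - a) ≤ N ^ (T - a) :=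
        pow_le_pow_left₀ (by linarith) (by linarith) _
      have e2 : s ^ a ≤ N ^ a := pow_le_pow_left₀ hs0 hsN.le _
      have e3 : pb ^ (T - a) ≤ pb ^ (T - f) := pow_le_pow_of_le_one hpb hpb1 (by omega)
      have e4 : (2 : ℝ) ^ (T - a) ≤ 2 ^ T := pow_le_pow_right₀ (by norm_num) (by omega)
      have e5 : (4 ^ n : ℝ) ^ a * 4 ^ (n * (T - a)) = 4 ^ (n * T) := by
        rw [← pow_mul, ← pow_add, ← mul_add]; congr 2; omega
      have e6 : N ^ a * N ^ (T - a) = N ^ T := by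
        rw [← pow_add]; congr 1; omega
      calc s ^ a * (4 ^ n) ^ a * (2 ^ (T - a) * (pb ^ (T - a) + E) *
            4 ^ (n * (T - a)) * (N - s) ^ (T - a))
          = (s ^ a * (N - s) ^ (T - a)) * (2 ^ (T - a) * (pb ^ (T - a) + E)) *
              ((4 ^ n) ^ a * 4 ^ (n * (T - a))) := by ring
        _ ≤ (N ^ a * N ^ (T - a)) * (2 ^ T * (pb ^ (T - f) + E)) *
              ((4 ^ n) ^ a * 4 ^ (n * (T - a))) := by
            have : 0 ≤ N - s := by linarith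
            gcongr
        _ = (2 ^ T * (pb ^ (T - f) + E)) * N ^ T * 4 ^ (n * T) := by rw [e5, e6]; ring
        _ ≤ _ := by
            have h0 : 0 ≤ (s / N) ^ (f + 1) := by positivity
            gcongr
            linarith
    · have hFf' : f + 1 ≤ F.card := by omega
      have h1 := count_triv q F (A.filter (fun c => FF q c = F)) (fun c hc => (mem_filter.1 hc).2)
      have h2 : ((A.filter (fun c => FF q c = F)).card : ℝ) ≤
          s ^ F.card * N ^ (T - F.card) * 4 ^ (n * T) := by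
        rw [hs, hN, hT]
        exact_mod_cast h1
      refine h2.trans ?_
      set a := F.card with ha
      have e6 : N ^ a * N ^ (T - a) = N ^ T := by
        rw [← pow_add]; congr 1; omega
      have e7 : s ^ a * N ^ (T - a) = (s / N) ^ a * N ^ T := by
        rw [← e6, div_pow]
        field_simp
      have e8 : (s / N) ^ a ≤ (s / N) ^ (f + 1) :=
        pow_le_pow_of_le_one (by positivity) ((div_le_one hNpos).2 hsN.le) hFf'
      rw [e7]
      have h3 : 0 ≤ 2 ^ T * (pb ^ (T - f) + E) := by positivity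
      gcongr
      linarith
  calc (A.card : ℝ) = ∑ F : Finset (Fin (TT n)), ((A.filter (fun c => FF q c = F)).card : ℝ) := hsplit
    _ ≤ ∑ F : Finset (Fin (TT n)), ((s / N) ^ (f + 1) + 2 ^ T * (pb ^ (T - f) + E)) * N ^ T * 4 ^ (n * T) :=
        Finset.sum_le_sum (fun F _ => hF F)
    _ = 2 ^ T * (((s / N) ^ (f + 1) + 2 ^ T * (pb ^ (T - f) + E)) * N ^ T * 4 ^ (n * T)) := by
        rw [Finset.sum_const, card_univ, Fintype.card_finset, Fintype.card_fin, nsmul_eq_mul]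
        push_cast
        rfl
    _ = _ := by
        have : (4 : ℝ) ^ T = 2 ^ T * 2 ^ T := by rw [← mul_pow]; norm_num
        rw [this]; ring

end Crest.Agent.R19

-- #print axioms Crest.Agent.R19.a1largeComb_proof
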