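import Crest.Agent.R19.Defs

/-! Row 19: basic estimates. -/

set_option autoImplicit false

open Finset Classical

namespace Crest.Agent.R19

theorem mem_PZ {n P : ℕ} : P ∈ PZ n ↔ 2 ^ n < P ∧ P ≤ 2 ^ (n + 1) ∧ P.Prime := by
  unfold PZ
  rw [Finset.mem_filter, Finset.mem_Ioc]
  tauto

theorem PZ_lo {n : ℕ} (P : PZ n) : 2 ^ n < (P : ℕ) := (mem_PZ.mp P.2).1
theorem PZ_hi {n : ℕ} (P : PZ n) : (P : ℕ) ≤ 2 ^ (n + 1) := (mem_PZ.mp P.2).2.1
theorem PZ_prime {n : ℕ} (P : PZ n) : (P : ℕ).Prime := (mem_PZ.mp P.2).2.2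

variable {n : ℕ} (B : Base n)

theorem Base.y_pos (hn : 1 ≤ n) : 1 ≤ B.y := le_trans hn B.y_lo

theorem Base.p_le_two (j : Fin n) (s : Bool) : B.p j s ≤ 2 * B.y := by
  have h := B.hi j s
  have hn : 1 ≤ n := by have := j.2; omega
  have h2 : n * B.p j s ≤ n * (2 * B.y) := by nlinarith [B.y]
  exact Nat.le_of_mul_le_mul_left h2 (by omega)

theorem Base.w_lo (e : Cube n) : B.y ^ n ≤ B.w e := by
  unfold Base.w
  calc B.y ^ n = ∏ _j : Fin n, B.y := by simp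
    _ ≤ _ := Finset.prod_le_prod (fun _ _ => Nat.zero_le _) (fun j _ => B.lo j (e j))

theorem Base.w_pos (e : Cube n) : 0 < B.w e := by
  unfold Base.w
  exact Finset.prod_pos (fun j _ => (B.prime j (e j)).pos)

theorem Base.w_hi (e : Cube n) : B.w e ≤ 3 * B.y ^ n := by
  rcases Nat.eq_zero_or_pos n with hn | hn
  · subst hn
    simp [Base.w]
  · have h1 : ((B.w e : ℕ) : ℝ) ≤ 3 * (B.y : ℝ) ^ n := by
      have hn' : (0 : ℝ) < n := by exact_mod_cast hn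
      have h2 : ∀ j : Fin n, ((B.p j (e j) : ℕ) : ℝ) ≤ B.y * (1 + 1 / n) := by
        intro j
        have h3 : ((n * B.p j (e j) : ℕ) : ℝ) ≤ ((n + 1) * B.y : ℕ) := by exact_mod_cast B.hi j (e j)
        push_cast at h3
        have h4 : (B.y : ℝ) * (1 + 1 / n) = ((n + 1) * B.y) / n := by field_simp
        rw [h4, le_div_iff₀ hn']
        linarith
      have h3 : ((B.w e : ℕ) : ℝ) ≤ (B.y * (1 + 1 / n) : ℝ) ^ n := by
        unfold Base.w
        push_cast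
        calc ∏ j : Fin n, ((B.p j (e j) : ℕ) : ℝ) ≤ ∏ _j : Fin n, ((B.y : ℝ) * (1 + 1 / n)) :=
              Finset.prod_le_prod (fun _ _ => by positivity) (fun j _ => h2 j)
          _ = _ := by simp
      have h4 : (1 + 1 / (n : ℝ)) ^ n ≤ 3 := by
        have h5 : (1 + 1 / (n : ℝ)) ≤ Real.exp (1 / n) := by
          have := Real.add_one_le_exp (1 / (n : ℝ)); linarith
        calc (1 + 1 / (n : ℝ)) ^ n ≤ (Real.exp (1 / n)) ^ n :=
              pow_le_pow_left₀ (by positivity) h5 n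
          _ = Real.exp 1 := by
              rw [← Real.exp_nat_mul]; congr 1; field_simp
          _ ≤ 3 := by have := Real.exp_one_lt_d9; linarith
      calc ((B.w e : ℕ) : ℝ) ≤ (B.y * (1 + 1 / n) : ℝ) ^ n := h3
        _ = (B.y : ℝ) ^ n * (1 + 1 / (n : ℝ)) ^ n := by rw [mul_pow]
        _ ≤ (B.y : ℝ) ^ n * 3 := by gcongr
        _ = _ := by ring
    exact_mod_cast h1

theorem Base.abs_dw_le (e : Cube n × Cube n) : |B.dw e| ≤ 2 * (B.y : ℤ) ^ n := by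
  unfold Base.dw
  have h1 : ((B.y : ℤ)) ^ n ≤ B.w e.1 := by exact_mod_cast B.w_lo e.1
  have h2 : ((B.y : ℤ)) ^ n ≤ B.w e.2 := by exact_mod_cast B.w_lo e.2
  have h3 : (B.w e.1 : ℤ) ≤ 3 * (B.y : ℤ) ^ n := by exact_mod_cast B.w_hi e.1
  have h4 : (B.w e.2 : ℤ) ≤ 3 * (B.y : ℤ) ^ n := by exact_mod_cast B.w_hi e.2
  rw [abs_le]
  constructor <;> linarith

theorem prod_erase_le (P : Fin (TT n) → PZ n) (u : Fin (TT n)) :
    ∏ v ∈ univ.erase u, ((P v : ℕ)) ≤ (2 ^ (n + 1)) ^ (TT n - 1) := by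
  calc ∏ v ∈ univ.erase u, ((P v : ℕ)) ≤ ∏ _v ∈ univ.erase u, 2 ^ (n + 1) :=
        Finset.prod_le_prod (fun _ _ => Nat.zero_le _) (fun v _ => PZ_hi (P v))
    _ = _ := by simp [Finset.card_erase_of_mem]

theorem prod_erase_ge (P : Fin (TT n) → PZ n) (u : Fin (TT n)) :
    (2 ^ n) ^ (TT n - 1) ≤ ∏ v ∈ univ.erase u, ((P v : ℕ)) := by
  calc (2 ^ n) ^ (TT n - 1) = ∏ _v ∈ univ.erase u, 2 ^ n := by
        simp [Finset.card_erase_of_mem]
    _ ≤ _ := Finset.prod_le_prod (fun _ _ => Nat.zero_le _) (fun v _ => (PZ_lo (P v)).le)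

theorem abs_nu_le (c : Conf n) : |nu B c| ≤ (XX B : ℤ) := by
  unfold nu
  calc |∑ u, (∏ v ∈ univ.erase u, ((c.1 v : ℕ) : ℤ)) * B.dw (c.2 u)|
      ≤ ∑ u, |(∏ v ∈ univ.erase u, ((c.1 v : ℕ) : ℤ)) * B.dw (c.2 u)| :=
        Finset.abs_sum_le_sum_abs _ _
    _ ≤ ∑ _u : Fin (TT n), ((2 ^ (n + 1)) ^ (TT n - 1) : ℤ) * (2 * (B.y : ℤ) ^ n) := by
        refine Finset.sum_le_sum (fun u _ => ?_)
        rw [abs_mul]
        have h1 : |(∏ v ∈ univ.erase u, ((c.1 v : ℕ) : ℤ))| ≤ ((2 ^ (n + 1)) ^ (TT n - 1) : ℤ) := by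
          rw [abs_of_nonneg (by positivity)]
          exact_mod_cast prod_erase_le c.1 u
        exact mul_le_mul h1 (B.abs_dw_le _) (abs_nonneg _) (by positivity)
    _ = (XX B : ℤ) := by
        unfold XX
        simp only [Finset.sum_const, Finset.card_univ, Fintype.card_fin, nsmul_eq_mul]
        push_cast
        ring

theorem abs_nu_le_real (c : Conf n) : |(nu B c : ℝ)| ≤ (XX B : ℝ) := by
  have h := abs_nu_le B c
  have h2 : ((|nu B c| : ℤ) : ℝ) ≤ ((XX B : ℤ) : ℝ) := by exact_mod_cast h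
  simpa using h2

theorem xval_le (P : Fin (TT n) → PZ n) (e : Fin (TT n) → Cube n) : 2 * xval B P e ≤ 3 * XX B := by
  unfold xval XX
  have h : ∑ u, (∏ v ∈ univ.erase u, (P v : ℕ)) * B.w (e u) ≤
      ∑ _u : Fin (TT n), (2 ^ (n + 1)) ^ (TT n - 1) * (3 * B.y ^ n) :=
    Finset.sum_le_sum (fun u _ => Nat.mul_le_mul (prod_erase_le P u) (B.w_hi _))
  simp only [Finset.sum_const, Finset.card_univ, Fintype.card_fin, smul_eq_mul] at h
  calc 2 * ∑ u, (∏ v ∈ univ.erase u, (P v : ℕ)) * B.w (e u)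
      ≤ 2 * (TT n * ((2 ^ (n + 1)) ^ (TT n - 1) * (3 * B.y ^ n))) := by gcongr
    _ = _ := by ring

theorem two_pow_TT (hn : 1 ≤ n) : 2 ^ TT n ≤ n ^ 10 := by
  unfold TT
  calc 2 ^ (10 * Nat.log 2 n) = (2 ^ Nat.log 2 n) ^ 10 := by rw [← pow_mul, mul_comm]
    _ ≤ n ^ 10 := Nat.pow_le_pow_left (Nat.pow_log_le_self 2 (by omega)) 10

theorem TT_pos (hn : 2 ≤ n) : 10 ≤ TT n := by
  unfold TT
  have : 1 ≤ Nat.log 2 n := Nat.log_pos (by norm_num) hn
  omega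

theorem TT_le (_hn : 1 ≤ n) : TT n ≤ 10 * n := by
  unfold TT
  have := Nat.log_le_self 2 n
  omega

/-- `XX B = T 2^T (2^n)^(T-1) y^n`. -/
theorem XX_eq (hT : 1 ≤ TT n) : XX B = TT n * 2 ^ TT n * (2 ^ n) ^ (TT n - 1) * B.y ^ n := by
  unfold XX
  have h : 2 * (2 ^ (n + 1)) ^ (TT n - 1) = 2 ^ TT n * (2 ^ n) ^ (TT n - 1) := by
    obtain ⟨k, hk⟩ : ∃ k, TT n = k + 1 := ⟨TT n - 1, by omega⟩
    rw [hk]
    simp only [Nat.add_sub_cancel]
    rw [pow_succ 2 n, mul_pow, pow_succ 2 k]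
    ring
  calc 2 * TT n * (2 ^ (n + 1)) ^ (TT n - 1) * B.y ^ n
      = TT n * (2 * (2 ^ (n + 1)) ^ (TT n - 1)) * B.y ^ n := by ring
    _ = _ := by rw [h]; ring

theorem XX_ge (hn : 2 ≤ n) : n ^ n ≤ XX B := by
  have hT := TT_pos hn
  have h1 : n ^ n ≤ B.y ^ n := Nat.pow_le_pow_left B.y_lo n
  rw [XX_eq B (by omega)]
  calc n ^ n ≤ B.y ^ n := h1
    _ = 1 * B.y ^ n := by ring
    _ ≤ TT n * 2 ^ TT n * (2 ^ n) ^ (TT n - 1) * B.y ^ n := by
        apply Nat.mul_le_mul_right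
        apply Nat.one_le_iff_ne_zero.mpr
        have : 0 < TT n * 2 ^ TT n * (2 ^ n) ^ (TT n - 1) := by positivity
        omega

theorem XX_le (hn : 20 ≤ n) : XX B ≤ n ^ (15 * n + 12) := by
  have hT := TT_pos (by omega : 2 ≤ n)
  have hT2 := TT_le (by omega : 1 ≤ n)
  have hy : B.y ^ n ≤ n ^ (5 * n) := by
    calc B.y ^ n ≤ (n ^ 5) ^ n := Nat.pow_le_pow_left B.y_hi n
      _ = _ := by rw [← pow_mul]
  have h2 := two_pow_TT (by omega : 1 ≤ n)
  have h3 : (2 ^ n) ^ (TT n - 1) ≤ n ^ (10 * n) := by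
    calc (2 ^ n) ^ (TT n - 1) ≤ (2 ^ n) ^ TT n := Nat.pow_le_pow_right (by positivity) (by omega)
      _ = (2 ^ TT n) ^ n := by rw [← pow_mul, ← pow_mul, mul_comm]
      _ ≤ (n ^ 10) ^ n := Nat.pow_le_pow_left h2 n
      _ = _ := by rw [← pow_mul]
  rw [XX_eq B (by omega)]
  calc TT n * 2 ^ TT n * (2 ^ n) ^ (TT n - 1) * B.y ^ n
      ≤ (n ^ 2) * n ^ 10 * n ^ (10 * n) * n ^ (5 * n) := by
        gcongr
        calc TT n ≤ 10 * n := hT2
          _ ≤ n * n := by nlinarith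
          _ = n ^ 2 := by ring
    _ = n ^ (15 * n + 12) := by
        rw [← pow_add, ← pow_add, ← pow_add]; congr 1; ring

/-- `T ≥ 14 log n` for large `n`. -/
theorem TT_ge_log : ∃ n0 : ℕ, ∀ n ≥ n0, 14 * Real.log n ≤ TT n := by
  refine ⟨2 ^ 50, fun n hn => ?_⟩
  have hn0 : 0 < n := lt_of_lt_of_le (by positivity) hn
  have h1 : (n : ℝ) < 2 ^ (Nat.log 2 n + 1) := by
    exact_mod_cast Nat.lt_pow_succ_log_self (by norm_num) n
  have h2 : Real.log n ≤ (Nat.log 2 n + 1) * Real.log 2 := by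
    have h3 := Real.log_le_log (by exact_mod_cast hn0) h1.le
    rw [Real.log_pow] at h3
    push_cast at h3
    exact h3
  have h3 : 50 ≤ Nat.log 2 n := by
    apply Nat.le_log_of_pow_le (by norm_num) hn
  have h4 : (50 : ℝ) ≤ (Nat.log 2 n : ℝ) := by exact_mod_cast h3
  have h5 := Real.log_two_lt_d9
  unfold TT
  push_cast
  nlinarith

/-- `T ≤ 15 log n` for `n ≥ 1`. -/
theorem TT_le_log (hn : 1 ≤ n) : (TT n : ℝ) ≤ 15 * Real.log n := by
  have h1 : ((2 : ℝ)) ^ (Nat.log 2 n) ≤ n := by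
    exact_mod_cast Nat.pow_log_le_self 2 (by omega)
  have h2 : (Nat.log 2 n : ℝ) * Real.log 2 ≤ Real.log n := by
    have h3 := Real.log_le_log (by positivity) h1
    rwa [Real.log_pow] at h3
  have h5 := Real.log_two_gt_d9
  unfold TT
  push_cast
  nlinarith [(Nat.cast_nonneg (Nat.log 2 n) : (0 : ℝ) ≤ _)]

theorem log_XX_le (hn : 200 ≤ n) : Real.log (XX B) ≤ 15.1 * n * Real.log n := by
  have h1 : (XX B : ℝ) ≤ (n : ℝ) ^ (15 * n + 12) := by exact_mod_cast XX_le B (by omega)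
  have h0 : 0 < XX B := lt_of_lt_of_le (by positivity) (XX_ge B (by omega))
  have h2 := Real.log_le_log (by exact_mod_cast h0) h1
  rw [Real.log_pow] at h2
  have h3 : 0 ≤ Real.log n := Real.log_natCast_nonneg n
  have h4 : (200 : ℝ) ≤ n := by exact_mod_cast hn
  push_cast at h2
  nlinarith [mul_nonneg h3 (by linarith : (0 : ℝ) ≤ (n : ℝ) - 200)]

theorem card_conf : Fintype.card (Conf n) = (PZ n).card ^ TT n * 4 ^ (n * TT n) := by
  simp only [Conf, Fintype.card_prod, Fintype.card_fun, Fintype.card_fin, Fintype.card_coe,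
    Fintype.card_bool]
  congr 1
  rw [← mul_pow, ← pow_mul]
  norm_num

theorem card_cube2 : Fintype.card (Cube n × Cube n) = 4 ^ n := by
  simp only [Fintype.card_prod, Fintype.card_fun, Fintype.card_fin, Fintype.card_bool]
  rw [← mul_pow]
  norm_num

/-- primes of `PZ n` dividing `q ≥ 1`: `(2^n)^(tq) ≤ q`. -/
theorem pow_tq_le {q : ℕ} (hq : 1 ≤ q) : (2 ^ n) ^ tq n q ≤ q := by
  unfold tq
  calc (2 ^ n) ^ ((PZ n).filter (fun P => P ∣ q)).card
      = ∏ _P ∈ (PZ n).filter (fun P => P ∣ q), 2 ^ n := by simp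
    _ ≤ ∏ P ∈ (PZ n).filter (fun P => P ∣ q), P :=
        Finset.prod_le_prod (fun _ _ => Nat.zero_le _)
          (fun P hP => (mem_PZ.mp (Finset.mem_filter.mp hP).1).1.le)
    _ ≤ q := by
        apply Nat.le_of_dvd (by omega)
        apply Finset.prod_primes_dvd
        · intro P hP
          exact (mem_PZ.mp (Finset.mem_filter.mp hP).1).2.2.prime
        · intro P hP
          exact (Finset.mem_filter.mp hP).2

end Crest.Agent.R19
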