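import Crest.Agent.R19.Defs
import Crest.Agent.R19.Basics

set_option autoImplicit false

open Finset Classical

namespace Crest.Agent.R19

namespace A1M

open Filter Topology

lemma qbound {n : ℕ} {H : ℝ} (h1 : 1 ≤ H) (h2 : H < 2 ^ (200 * (n + 1))) :
    H ^ (1 / 1000 : ℝ) ≤ 2 * (23 / 20) ^ n := by
  have h0 : 0 < H := by linarith
  have h3 : H ^ (1 / 1000 : ℝ) ≤ ((2:ℝ) ^ (200 * (n + 1))) ^ (1 / 1000 : ℝ) :=
    Real.rpow_le_rpow h0.le h2.le (by norm_num)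
  have h4 : ((2:ℝ) ^ (200 * (n + 1))) ^ (1 / 1000 : ℝ) = ((2:ℝ) ^ (1 / 5 : ℝ)) ^ (n + 1) := by
    rw [← Real.rpow_natCast, ← Real.rpow_natCast, ← Real.rpow_mul (by norm_num),
      ← Real.rpow_mul (by norm_num)]
    congr 1
    push_cast
    ring
  have h5 : (2:ℝ) ^ (1 / 5 : ℝ) ≤ 23 / 20 := by
    have h6 : ((2:ℝ) ^ (1 / 5 : ℝ)) ^ (5:ℕ) = 2 := by
      rw [← Real.rpow_natCast, ← Real.rpow_mul (by norm_num)]
      norm_num
    by_contra hcon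
    rw [not_le] at hcon
    have h7 : (23 / 20 : ℝ) ^ 5 < ((2:ℝ) ^ (1 / 5 : ℝ)) ^ (5:ℕ) := by gcongr
    rw [h6] at h7
    norm_num at h7
  calc H ^ (1 / 1000 : ℝ) ≤ ((2:ℝ) ^ (1 / 5 : ℝ)) ^ (n + 1) := by rw [← h4]; exact h3
    _ ≤ (23 / 20) ^ (n + 1) := by gcongr
    _ ≤ 2 * (23 / 20) ^ n := by
        rw [pow_succ]
        have : (0:ℝ) < (23 / 20) ^ n := by positivity
        nlinarith

lemma ev_small (C : ℝ) (k : ℕ) : ∀ᶠ n : ℕ in atTop, C * ((n:ℝ) ^ k * (23 / 40) ^ n) ≤ 1 / 4 := by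
  have h1 := (tendsto_pow_const_mul_const_pow_of_lt_one k (r := 23 / 40) (by norm_num)
    (by norm_num)).const_mul C
  rw [mul_zero] at h1
  exact h1.eventually (ge_mem_nhds (by norm_num))

lemma ev_log (C : ℝ) : ∀ᶠ n : ℕ in atTop, C ≤ Real.log n :=
  (Real.tendsto_log_atTop.comp tendsto_natCast_atTop_atTop).eventually (eventually_ge_atTop C)

lemma pz_real {n : ℕ} (hn : 1 ≤ n) (h : 2 ^ n ≤ 4 * n * (PZ n).card) :
    (0:ℝ) < (PZ n).card ∧ (1:ℝ) / (PZ n).card ≤ 4 * n / 2 ^ n := by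
  have h1 : ((2:ℝ)) ^ n ≤ 4 * n * (PZ n).card := by exact_mod_cast h
  have h2 : (0:ℝ) < (PZ n).card := by
    have h3 : (0:ℝ) < 2 ^ n := by positivity
    have h4 : (0:ℝ) < 4 * n := by
      have : (1:ℝ) ≤ n := by exact_mod_cast hn
      linarith
    by_contra hcon
    rw [not_lt] at hcon
    nlinarith
  refine ⟨h2, ?_⟩
  rw [div_le_div_iff₀ h2 (by positivity)]
  linarith

/-- the exponential term -/
lemma exp_term {n : ℕ} {T lam L c : ℝ} (hT : 14 * L ≤ T) (hL : 10 ≤ L) (hLn : L ≤ n)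
    (hlam1 : 2000 * L ≤ lam) (hlam2 : lam ≤ 139 * (n + 1)) (hc : c = 1 / 40 * min (n : ℝ) (lam / (6 * L))) :
    Real.exp (-c * T) * Real.exp (lam / 1000) ≤ 1 / 4 := by
  rw [← Real.exp_add]
  have h1 : -c * T + lam / 1000 ≤ -2 := by
    have hTpos : 0 < T := by linarith
    have hmin : 0 ≤ min (n : ℝ) (lam / (6 * L)) := by
      apply le_min
      · linarith
      · apply div_nonneg <;> linarith
    have hcT : 14 * L * c ≤ c * T := by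
      have hc0 : 0 ≤ c := by rw [hc]; positivity
      nlinarith
    rcases min_choice (n : ℝ) (lam / (6 * L)) with h | h
    · rw [h] at hc
      have : 14 * L * c = (14 / 40) * L * n := by rw [hc]; ring
      have hn10 : (10:ℝ) ≤ n := by linarith
      nlinarith
    · rw [h] at hc
      have : 14 * L * c = (14 / 240) * lam := by
        rw [hc]
        have hL0 : L ≠ 0 := by linarith
        field_simp
        ring
      nlinarith
  calc Real.exp (-c * T + lam / 1000) ≤ Real.exp (-2) := Real.exp_le_exp.2 h1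
    _ ≤ 1 / 4 := by
        rw [Real.exp_neg]
        have h2 : (4:ℝ) ≤ Real.exp 2 := by
          have h3 : Real.exp 2 = Real.exp 1 * Real.exp 1 := by rw [← Real.exp_add]; norm_num
          have h4 := Real.exp_one_gt_d9
          rw [h3]
          nlinarith
        rw [one_div]
        exact inv_anti₀ (by norm_num) h2


lemma numeric {n : ℕ} (hn2 : 2 ≤ n) {P tr Tr Q pbT : ℝ}
    (hP0 : 0 < P) (hP : 1 / P ≤ 4 * n / 2 ^ n) (ht0 : 0 ≤ tr) (ht : tr ≤ 400)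
    (hT : Tr ≤ 10 * n) (hQ1 : 1 ≤ Q)
    (hQb : Q ^ (1 / 1000 : ℝ) ≤ 2 * (23 / 20) ^ n)
    (hQn : (n:ℝ) ^ 38 ≤ Q ^ (19 / 1000 : ℝ))
    (h4 : 32000 * ((n:ℝ) ^ 2 * (23 / 40) ^ n) ≤ 1 / 4)
    (h5 : 8 * ((n:ℝ) ^ 1 * (23 / 40) ^ n) ≤ 1 / 4)
    (hpb : pbT * Q ^ (1 / 1000 : ℝ) ≤ 1 / 4) :
    Tr * tr / P + pbT + (2 ^ n / Q ^ (1 / 50 : ℝ) + 1) / P ≤ Q ^ (-(1 / 1000) : ℝ) := by
  have hnR : (2:ℝ) ≤ n := by exact_mod_cast hn2
  have hQpos : 0 < Q ^ (1 / 1000 : ℝ) := Real.rpow_pos_of_pos (by linarith) _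
  have hneg : Q ^ (-(1 / 1000) : ℝ) = (Q ^ (1 / 1000 : ℝ))⁻¹ := Real.rpow_neg (by linarith) _
  rw [hneg, ← one_div, le_div_iff₀ hQpos]
  have hhalf : (0:ℝ) < 2 ^ n := by positivity
  have hpow : (23 / 20 : ℝ) ^ n / 2 ^ n = (23 / 40) ^ n := by
    rw [← div_pow]
    norm_num
  have ht1 : (Tr * tr / P : ℝ) * Q ^ (1 / 1000 : ℝ) ≤ 1 / 4 := by
    have e1 : (Tr * tr / P : ℝ) ≤ (10 * n * 400) * (4 * n / 2 ^ n) := by
      rw [div_eq_mul_one_div]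
      gcongr
    calc (Tr * tr / P : ℝ) * Q ^ (1 / 1000 : ℝ)
        ≤ ((10 * n * 400) * (4 * n / 2 ^ n)) * (2 * (23 / 20) ^ n) := by gcongr
      _ = 32000 * ((n:ℝ) ^ 2 * ((23 / 20) ^ n / 2 ^ n)) := by ring
      _ ≤ 1 / 4 := by rw [hpow]; exact h4
  have ht3 : ((2 ^ n / Q ^ (1 / 50 : ℝ) + 1) / P : ℝ) * Q ^ (1 / 1000 : ℝ) ≤ 1 / 2 := by
    have h50 : 0 < Q ^ (1 / 50 : ℝ) := Real.rpow_pos_of_pos (by linarith) _
    have e1 : ((2 ^ n / Q ^ (1 / 50 : ℝ) + 1) / P : ℝ)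
        ≤ 4 * n / Q ^ (1 / 50 : ℝ) + 4 * n / 2 ^ n := by
      rw [div_eq_mul_one_div]
      calc (2 ^ n / Q ^ (1 / 50 : ℝ) + 1) * (1 / P)
          ≤ (2 ^ n / Q ^ (1 / 50 : ℝ) + 1) * (4 * n / 2 ^ n) := by gcongr
        _ = 4 * n / Q ^ (1 / 50 : ℝ) + 4 * n / 2 ^ n := by field_simp
    have e2 : 4 * n / Q ^ (1 / 50 : ℝ) * Q ^ (1 / 1000 : ℝ) ≤ 1 / 4 := by
      have e3 : Q ^ (1 / 50 : ℝ) = Q ^ (19 / 1000 : ℝ) * Q ^ (1 / 1000 : ℝ) := by
        rw [← Real.rpow_add (by linarith)]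
        norm_num
      have h19 : 0 < Q ^ (19 / 1000 : ℝ) := Real.rpow_pos_of_pos (by linarith) _
      have e4 : 4 * n / Q ^ (1 / 50 : ℝ) * Q ^ (1 / 1000 : ℝ)
          = 4 * n / Q ^ (19 / 1000 : ℝ) := by
        rw [e3]
        field_simp
      rw [e4, div_le_iff₀ h19]
      have e6 : 16 * (n:ℝ) ≤ (n:ℝ) ^ 38 := by
        have : (2:ℝ) ^ 37 ≤ (n:ℝ) ^ 37 := by gcongr
        rw [pow_succ]
        norm_num at this
        nlinarith
      linarith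
    have e7 : 4 * n / (2:ℝ) ^ n * Q ^ (1 / 1000 : ℝ) ≤ 1 / 4 := by
      calc 4 * n / (2:ℝ) ^ n * Q ^ (1 / 1000 : ℝ) ≤ 4 * n / (2:ℝ) ^ n * (2 * (23 / 20) ^ n) := by
            gcongr
        _ = 8 * ((n:ℝ) ^ 1 * ((23 / 20) ^ n / 2 ^ n)) := by ring
        _ ≤ 1 / 4 := by rw [hpow]; exact h5
    calc _ ≤ (4 * n / Q ^ (1 / 50 : ℝ) + 4 * n / 2 ^ n) * Q ^ (1 / 1000 : ℝ) := by gcongr
      _ ≤ 1 / 2 := by rw [add_mul]; linarith
  rw [add_mul, add_mul]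
  linarith

lemma hQn {n q : ℕ} (hn : 2 ≤ n) (hq1 : n ^ 2000 ≤ q) : (n:ℝ) ^ 38 ≤ (q:ℝ) ^ (19 / 1000 : ℝ) := by
  have hnR : (2:ℝ) ≤ n := by exact_mod_cast hn
  have h7 : ((n:ℝ)) ^ (2000:ℝ) ≤ q := by
    have : ((n ^ 2000 : ℕ) : ℝ) ≤ q := Nat.cast_le.2 hq1
    rw [Nat.cast_pow] at this
    have h2 : ((n:ℝ)) ^ (2000:ℝ) = (n:ℝ) ^ (2000:ℕ) := by
      exact_mod_cast Real.rpow_natCast (n:ℝ) 2000
    rw [h2]
    exact this
  have h8 := Real.rpow_le_rpow (Real.rpow_nonneg (by linarith) _) h7 (by norm_num : (0:ℝ) ≤ 19 / 1000)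
  rw [← Real.rpow_mul (by linarith)] at h8
  have h9 : (2000:ℝ) * (19 / 1000) = (38:ℕ) := by norm_num
  rw [h9, Real.rpow_natCast] at h8
  exact h8

lemma lam_lo {n q : ℕ} (hn : 2 ≤ n) (hq1 : n ^ 2000 ≤ q) : 2000 * Real.log n ≤ Real.log q := by
  have hnR : (0:ℝ) < n := by
    have : (2:ℝ) ≤ n := by exact_mod_cast hn
    linarith
  have h7 : ((n:ℝ)) ^ (2000:ℕ) ≤ q := by
    have : ((n ^ 2000 : ℕ) : ℝ) ≤ q := Nat.cast_le.2 hq1
    rw [Nat.cast_pow] at this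
    exact this
  have h8 := Real.log_le_log (pow_pos hnR _) h7
  rw [Real.log_pow] at h8
  exact h8

lemma aux400 {n t : ℕ} (hn : 1 ≤ n) (h : n * t < 200 * (n + 1)) : t ≤ 400 := by
  by_contra hcon
  rw [not_le] at hcon
  have h1 : n * 401 ≤ n * t := Nat.mul_le_mul_left n hcon
  omega

lemma htq_le {n q : ℕ} (hn0 : 1 ≤ n) (hq0 : 1 ≤ q) (hq2 : q < 2 ^ (200 * (n + 1))) :
    (tq n q : ℝ) ≤ 400 := by
  have h7 := pow_tq_le (n := n) hq0
  have h8 : (2 ^ n) ^ tq n q < 2 ^ (200 * (n + 1)) := lt_of_le_of_lt h7 hq2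
  rw [← pow_mul] at h8
  have h9 : n * tq n q < 200 * (n + 1) := (Nat.pow_lt_pow_iff_right (by norm_num)).1 h8
  have h10 : tq n q ≤ 400 := aux400 hn0 h9
  exact_mod_cast h10

lemma lam_hi {n : ℕ} {q : ℝ} (hq : 0 < q) (hq2R : q < 2 ^ (200 * (n + 1))) :
    Real.log q ≤ 139 * (n + 1) := by
  have h8 := Real.log_le_log hq hq2R.le
  rw [Real.log_pow] at h8
  have h9 := Real.log_two_lt_d9
  push_cast at h8
  have h10 : (200 * ((n:ℝ) + 1)) * Real.log 2 ≤ (200 * ((n:ℝ) + 1)) * 0.695 := by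
    apply mul_le_mul_of_nonneg_left _ (by positivity)
    linarith
  linarith

end A1M

open A1M Filter Topology

theorem a1mid_proof : GcdLemma → PZCount → A1midComb → A1mid := by
  rintro ⟨n1, hG⟩ ⟨n2, hP⟩ hC
  obtain ⟨n3, hT⟩ := TT_ge_log
  obtain ⟨n4, h4⟩ := eventually_atTop.1 (ev_small 32000 2)
  obtain ⟨n5, h5⟩ := eventually_atTop.1 (ev_small 8 1)
  obtain ⟨n6, h6⟩ := eventually_atTop.1 (ev_log 10)
  refine ⟨max n1 (max n2 (max n3 (max n4 (max n5 (max n6 2))))), ?_⟩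
  intro n hn B q hq1 hq2
  simp only [ge_iff_le, max_le_iff] at hn
  obtain ⟨hn1, hn2, hn3, hn4, hn5, hn6, hn7⟩ := hn
  have hn0 : 1 ≤ n := by omega
  have hnR : (2:ℝ) ≤ n := by exact_mod_cast hn7
  have hq0 : 1 ≤ q := le_trans (Nat.one_le_pow _ _ (by omega)) hq1
  have hqR : (1:ℝ) ≤ q := by exact_mod_cast hq0
  have hq12 : n ^ 12 ≤ q := le_trans (Nat.pow_le_pow_right (by omega) (by norm_num)) hq1
  have hL10 : 10 ≤ Real.log n := h6 n hn6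
  have hLn : Real.log n ≤ n := by
    have := Real.log_le_sub_one_of_pos (show (0:ℝ) < n by linarith)
    linarith
  have hlam1 := lam_lo hn7 hq1
  have hqn := hQn hn7 hq1
  clear hq1
  have hq2R : (q:ℝ) < 2 ^ (200 * (n + 1)) := by exact_mod_cast hq2
  have hlam2 := lam_hi (by linarith) hq2R
  obtain ⟨hPZ0, hPZ⟩ := pz_real hn0 (hP n hn2)
  have hPZ1 : 1 ≤ (PZ n).card := by
    have : 0 < (PZ n).card := Nat.cast_pos.1 hPZ0
    omega
  have hbad := hG n hn1 B q hq12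
  have hmain := hC n B q _ hq0 hPZ1 hbad
  have htq : (tq n q : ℝ) ≤ 400 := htq_le hn0 hq0 hq2
  have hTT : (TT n : ℝ) ≤ 10 * n := by exact_mod_cast TT_le hn0
  have hQb := qbound hqR hq2R
  have hTlog := hT n hn3
  generalize hPg : ((PZ n).card : ℝ) = P at *
  generalize htg : (tq n q : ℝ) = tr at *
  have ht0 : 0 ≤ tr := by rw [← htg]; exact Nat.cast_nonneg _
  have hpbT : Real.exp (-(1 / 40) * min (n : ℝ) (Real.log q / (6 * Real.log n))) ^ TT n *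
      (q:ℝ) ^ (1 / 1000 : ℝ) ≤ 1 / 4 := by
    have e1 : Real.exp (-(1 / 40) * min (n : ℝ) (Real.log q / (6 * Real.log n))) ^ TT n
        = Real.exp (-(1 / 40 * min (n : ℝ) (Real.log q / (6 * Real.log n))) * TT n) := by
      rw [← Real.exp_nat_mul]
      congr 1
      ring
    have e2 : (q:ℝ) ^ (1 / 1000 : ℝ) = Real.exp (Real.log q / 1000) := by
      rw [Real.rpow_def_of_pos (by linarith)]
      congr 1
      ring
    rw [e1, e2]
    exact exp_term hTlog hL10 hLn hlam1 hlam2 rfl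
  have hnum := numeric (n := n) (P := P) (tr := tr) (Tr := (TT n : ℝ)) (Q := (q : ℝ))
    (pbT := Real.exp (-(1 / 40) * min (n : ℝ) (Real.log q / (6 * Real.log n))) ^ TT n)
    hn7 hPZ0 hPZ ht0 htq hTT hqR hQb hqn (h4 n hn4) (h5 n hn5) hpbT
  refine hmain.trans ?_
  rw [mul_assoc, mul_assoc]
  apply mul_le_mul_of_nonneg_right hnum
  positivity

end Crest.Agent.R19
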