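import Crest.Agent.R19.FibCount

/-! Row 19, task A1MC. -/

set_option autoImplicit false

open Finset Classical

namespace Crest.Agent.R19

namespace A1MC

open FibCount

theorem fiber_bound {n : ℕ} (B : Base n) (q : ℕ) (hq : 1 ≤ q)
    (d : Fin (TT n) → Cube n × Cube n) (u : Fin (TT n)) (hu : d u ∉ badQ B q)
    (P : Fin (TT n) → PZ n) :
    ((univ.filter (fun a : PZ n => (q : ℤ) ∣ nu B (Function.update P u a, d) ∧
      ∀ v, ¬ (((Function.update P u a) v : ℕ) ∣ q))).card : ℝ) ≤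
        2 ^ n / (q : ℝ) ^ (1 / 50 : ℝ) + 1 := by
  obtain ⟨R, hR⟩ := nu_update B P d u
  set M0 : ℤ := ∏ v ∈ univ.erase u, ((P v : ℕ) : ℤ) with hM0
  set w : ℤ := B.dw (d u) with hw
  set g : ℕ := Int.gcd w q with hg
  have hgpos : 0 < g := by
    rw [hg, Int.gcd_pos_iff]
    right
    exact_mod_cast (by omega : q ≠ 0)
  have hgq : g ∣ q := by
    have := Int.gcd_dvd_right w (q : ℤ)
    exact_mod_cast this
  obtain ⟨m, hm⟩ := hgq
  have hmpos : 0 < m := by
    rcases Nat.eq_zero_or_pos m with h | h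
    · subst h; omega
    · exact h
  have hg2 : (g : ℝ) ≤ (q : ℝ) ^ (49 / 50 : ℝ) := by
    have h := hu
    unfold badQ at h
    rw [Finset.mem_filter] at h
    push Not at h
    exact h (Finset.mem_univ _)
  have hq0 : (0 : ℝ) < q := by exact_mod_cast hq
  have hm2 : (q : ℝ) ^ (1 / 50 : ℝ) ≤ m := by
    have h1 : (q : ℝ) ^ (1 / 50 : ℝ) * g ≤ m * g := by
      calc (q : ℝ) ^ (1 / 50 : ℝ) * g ≤ (q : ℝ) ^ (1 / 50 : ℝ) * (q : ℝ) ^ (49 / 50 : ℝ) := by gcongr
        _ = q := by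
            rw [← Real.rpow_add hq0]
            norm_num
        _ = m * g := by
            rw [hm]; push_cast; ring
    exact le_of_mul_le_mul_right h1 (by exact_mod_cast hgpos)
  set F := (univ.filter (fun a : PZ n => (q : ℤ) ∣ nu B (Function.update P u a, d) ∧
      ∀ v, ¬ (((Function.update P u a) v : ℕ) ∣ q))) with hF
  have hcard : F.card = (F.image (fun a : PZ n => (a : ℕ))).card :=
    (Finset.card_image_of_injective _ Subtype.val_injective).symm
  rw [hcard]
  have h1 : ((F.image (fun a : PZ n => (a : ℕ))).card : ℝ) ≤ ((2 ^ n : ℕ) : ℝ) / m + 1 := by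
    refine card_le_of_modEq _ (2 ^ n) m hmpos ?_ ?_
    · intro a ha b hb hab
      obtain ⟨a', _, rfl⟩ := Finset.mem_image.mp ha
      obtain ⟨b', _, rfl⟩ := Finset.mem_image.mp hb
      have h2 := PZ_lo a'
      have h3 := PZ_hi b'
      rw [pow_succ] at h3
      omega
    · intro a ha b hb
      obtain ⟨a', ha', rfl⟩ := Finset.mem_image.mp ha
      obtain ⟨b', hb', rfl⟩ := Finset.mem_image.mp hb
      rw [hF, Finset.mem_filter] at ha' hb'
      obtain ⟨_, ha1, ha2⟩ := ha'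
      obtain ⟨_, hb1, _⟩ := hb'
      rw [hR] at ha1 hb1
      have hdiff : (q : ℤ) ∣ (((b' : ℕ) : ℤ) - ((a' : ℕ) : ℤ)) * R := by
        have := dvd_sub hb1 ha1
        have h3 : ((b' : ℕ) : ℤ) * R + M0 * w - (((a' : ℕ) : ℤ) * R + M0 * w) =
          (((b' : ℕ) : ℤ) - ((a' : ℕ) : ℤ)) * R := by ring
        rwa [h3] at this
      have hcop : IsCoprime (q : ℤ) M0 := by
        rw [hM0]
        refine IsCoprime.prod_right (fun v hv => ?_)
        have h4 := ha2 v
        rw [Function.update_of_ne (Finset.ne_of_mem_erase hv)] at h4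
        have h5 : Nat.Coprime q (P v : ℕ) :=
          Nat.Coprime.symm ((Nat.Prime.coprime_iff_not_dvd (PZ_prime (P v))).mpr h4)
        exact Nat.isCoprime_iff_coprime.mpr h5
      set g' : ℕ := Int.gcd R q with hg'
      have hg'R : (g' : ℤ) ∣ R := Int.gcd_dvd_left R (q : ℤ)
      have hg'q : (g' : ℤ) ∣ (q : ℤ) := Int.gcd_dvd_right R (q : ℤ)
      have hg'w : (g' : ℤ) ∣ w := by
        have h6 : (g' : ℤ) ∣ M0 * w := by
          have h7 : (g' : ℤ) ∣ ((a' : ℕ) : ℤ) * R + M0 * w := dvd_trans hg'q ha1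
          have h8 : (g' : ℤ) ∣ ((a' : ℕ) : ℤ) * R := dvd_mul_of_dvd_right hg'R _
          have h9 := dvd_sub h7 h8
          have h10 : ((a' : ℕ) : ℤ) * R + M0 * w - ((a' : ℕ) : ℤ) * R = M0 * w := by ring
          rwa [h10] at h9
        have h7 : IsCoprime (g' : ℤ) M0 := IsCoprime.of_isCoprime_of_dvd_left hcop hg'q
        exact h7.dvd_of_dvd_mul_left h6
      have hg'g : (g' : ℤ) ∣ (g : ℤ) := by
        rw [hg]
        exact Int.dvd_coe_gcd hg'w hg'q
      have h8 : (q : ℤ) ∣ (((b' : ℕ) : ℤ) - ((a' : ℕ) : ℤ)) * (g' : ℤ) := by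
        have h9 : (g' : ℤ) = R * Int.gcdA R q + q * Int.gcdB R q := Int.gcd_eq_gcd_ab R q
        rw [h9, mul_add]
        refine dvd_add ?_ ?_
        · rw [← mul_assoc]
          exact dvd_mul_of_dvd_left hdiff _
        · exact dvd_mul_of_dvd_right (dvd_mul_right _ _) _
      have h9 : (q : ℤ) ∣ (((b' : ℕ) : ℤ) - ((a' : ℕ) : ℤ)) * (g : ℤ) :=
        dvd_trans h8 (mul_dvd_mul_left _ hg'g)
      rw [hm] at h9
      push_cast at h9
      rw [mul_comm (g : ℤ) (m : ℤ)] at h9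
      exact Int.dvd_of_mul_dvd_mul_right (by exact_mod_cast hgpos.ne') h9
  have hqp : 0 < (q : ℝ) ^ (1 / 50 : ℝ) := Real.rpow_pos_of_pos hq0 _
  calc ((F.image (fun a : PZ n => (a : ℕ))).card : ℝ) ≤ ((2 ^ n : ℕ) : ℝ) / m + 1 := h1
    _ ≤ 2 ^ n / (q : ℝ) ^ (1 / 50 : ℝ) + 1 := by
        push_cast
        gcongr

end A1MC

open FibCount A1MC in
theorem a1midComb_proof : A1midComb := by
  intro n B q pb hq hPZ hbad
  have hne : Nonempty (PZ n) := by
    obtain ⟨x, hx⟩ := Finset.card_pos.mp (by omega : 0 < (PZ n).card)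
    exact ⟨⟨x, hx⟩⟩
  have hcα : Fintype.card (PZ n) = (PZ n).card := by simp
  have hα : (0 : ℝ) < (PZ n).card := by exact_mod_cast hPZ
  have hq0 : (0 : ℝ) < q := by exact_mod_cast hq
  have hqp : 0 < (q : ℝ) ^ (1 / 50 : ℝ) := Real.rpow_pos_of_pos hq0 _
  set T := TT n with hT
  set M : ℝ := 2 ^ n / (q : ℝ) ^ (1 / 50 : ℝ) + 1 with hM
  have hM0 : 0 ≤ M := by positivity
  -- second part
  have h2 := card_fiber (badQ B q)
    (fun c : Conf n => (q : ℤ) ∣ nu B c ∧ ∀ v, ¬ ((c.1 v : ℕ) ∣ q)) M hM0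
    (fun d u hu P => by
      have := fiber_bound B q hq d u hu P
      convert this)
  rw [hcα, Fintype.card_fin, FibCount.card_pair] at h2
  -- first part
  have h1 : ∀ u : Fin T, ((univ.filter (fun c : Conf n => ((c.1 u : ℕ) ∣ q))).card : ℝ) ≤
      ((PZ n).card : ℝ) ^ T * ((tq n q : ℝ) / (PZ n).card) * 4 ^ (n * T) := by
    intro u
    have h3 : (univ.filter (fun c : Conf n => ((c.1 u : ℕ) ∣ q))).card =
        (univ.filter (fun P : Fin T → PZ n => ((P u : ℕ) ∣ q))).card * (4 ^ (n * T)) := by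
      have h4 : (univ.filter (fun c : Conf n => ((c.1 u : ℕ) ∣ q))) =
          (univ.filter (fun P : Fin T → PZ n => ((P u : ℕ) ∣ q))) ×ˢ
            (univ : Finset (Fin T → Cube n × Cube n)) := by
        ext c
        simp
      rw [h4, Finset.card_product, Finset.card_univ, Fintype.card_fun, FibCount.card_pair,
        Fintype.card_fin, ← pow_mul]
    have h5 := card_le_of_resample (ι := Fin T) (α := PZ n) u (fun P => ((P u : ℕ) ∣ q))
      (tq n q : ℝ) (by
        intro P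
        have h6 : (univ.filter (fun a : PZ n => ((Function.update P u a u : ℕ) ∣ q))).card =
            tq n q := by
          simp only [Function.update_self]
          unfold tq
          rw [← Finset.card_image_of_injective _ (Subtype.val_injective (p := fun x => x ∈ PZ n))]
          congr 1
          ext x
          simp only [Finset.mem_image, Finset.mem_filter, Finset.mem_univ, true_and,
            Subtype.exists, exists_and_left, exists_prop, exists_eq_right_right]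
          tauto
        have h7 : ((univ.filter (fun a : PZ n => ((Function.update P u a u : ℕ) ∣ q))).card : ℝ) ≤
            (tq n q : ℝ) := le_of_eq (by exact_mod_cast h6)
        convert h7)
    rw [hcα, Fintype.card_fin] at h5
    rw [h3]
    have h10 : ((univ.filter (fun P : Fin T → PZ n => ((P u : ℕ) ∣ q))).card : ℝ) ≤
        ((PZ n).card : ℝ) ^ T * ((tq n q : ℝ) / (PZ n).card) := by convert h5
    push_cast
    gcongr
  have hcov : ((univ.filter (fun c : Conf n => (q : ℤ) ∣ nu B c)).card : ℝ) ≤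
      ∑ u : Fin T, ((univ.filter (fun c : Conf n => ((c.1 u : ℕ) ∣ q))).card : ℝ) +
      ((univ.filter (fun c : Conf n => (q : ℤ) ∣ nu B c ∧ ∀ v, ¬ ((c.1 v : ℕ) ∣ q))).card : ℝ) := by
    have hsub : (univ.filter (fun c : Conf n => (q : ℤ) ∣ nu B c)) ⊆
        (univ : Finset (Fin T)).biUnion (fun u => univ.filter (fun c : Conf n => ((c.1 u : ℕ) ∣ q))) ∪
        (univ.filter (fun c : Conf n => (q : ℤ) ∣ nu B c ∧ ∀ v, ¬ ((c.1 v : ℕ) ∣ q))) := by
      intro c hc
      rw [Finset.mem_filter] at hc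
      rw [Finset.mem_union]
      by_cases h : ∀ v, ¬ ((c.1 v : ℕ) ∣ q)
      · right
        rw [Finset.mem_filter]
        exact ⟨Finset.mem_univ _, hc.2, h⟩
      · left
        push Not at h
        obtain ⟨v, hv⟩ := h
        rw [Finset.mem_biUnion]
        exact ⟨v, Finset.mem_univ _, Finset.mem_filter.mpr ⟨Finset.mem_univ _, hv⟩⟩
    have h4 := (Finset.card_le_card hsub).trans (Finset.card_union_le _ _)
    have h5 := Finset.card_biUnion_le (s := (univ : Finset (Fin T)))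
      (t := fun u => univ.filter (fun c : Conf n => ((c.1 u : ℕ) ∣ q)))
    have h6 : (univ.filter (fun c : Conf n => (q : ℤ) ∣ nu B c)).card ≤
      ∑ u : Fin T, (univ.filter (fun c : Conf n => ((c.1 u : ℕ) ∣ q))).card +
      (univ.filter (fun c : Conf n => (q : ℤ) ∣ nu B c ∧ ∀ v, ¬ ((c.1 v : ℕ) ∣ q))).card :=
      h4.trans (Nat.add_le_add_right h5 _)
    exact_mod_cast h6
  have h7 : ∑ u : Fin T, ((univ.filter (fun c : Conf n => ((c.1 u : ℕ) ∣ q))).card : ℝ) ≤
      T * (((PZ n).card : ℝ) ^ T * ((tq n q : ℝ) / (PZ n).card) * 4 ^ (n * T)) := by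
    calc _ ≤ ∑ _u : Fin T, (((PZ n).card : ℝ) ^ T * ((tq n q : ℝ) / (PZ n).card) * 4 ^ (n * T)) :=
          Finset.sum_le_sum (fun u _ => h1 u)
      _ = _ := by
          rw [Finset.sum_const, Finset.card_univ, Fintype.card_fin, nsmul_eq_mul]
  have h8 : ((badQ B q).card : ℝ) ^ T ≤ pb ^ T * 4 ^ (n * T) := by
    calc ((badQ B q).card : ℝ) ^ T ≤ (pb * 4 ^ n) ^ T := by gcongr
      _ = pb ^ T * 4 ^ (n * T) := by rw [mul_pow, ← pow_mul]
  have h9 : ((4 ^ n : ℕ) : ℝ) ^ T = 4 ^ (n * T) := by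
    push_cast
    rw [← pow_mul]
  rw [h9] at h2
  have h2' : ((univ.filter (fun c : Conf n => (q : ℤ) ∣ nu B c ∧
      ∀ v, ¬ ((c.1 v : ℕ) ∣ q))).card : ℝ) ≤ ((PZ n).card : ℝ) ^ T * ((badQ B q).card : ℝ) ^ T +
          ((PZ n).card : ℝ) ^ T * 4 ^ (n * T) * (M / (PZ n).card) := by convert h2
  calc ((univ.filter (fun c : Conf n => (q : ℤ) ∣ nu B c)).card : ℝ) ≤ _ := hcov
    _ ≤ T * (((PZ n).card : ℝ) ^ T * ((tq n q : ℝ) / (PZ n).card) * 4 ^ (n * T)) +
        (((PZ n).card : ℝ) ^ T * ((badQ B q).card : ℝ) ^ T +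
          ((PZ n).card : ℝ) ^ T * 4 ^ (n * T) * (M / (PZ n).card)) := by
        gcongr
    _ ≤ T * (((PZ n).card : ℝ) ^ T * ((tq n q : ℝ) / (PZ n).card) * 4 ^ (n * T)) +
        (((PZ n).card : ℝ) ^ T * (pb ^ T * 4 ^ (n * T)) +
          ((PZ n).card : ℝ) ^ T * 4 ^ (n * T) * (M / (PZ n).card)) := by
        gcongr
    _ = _ := by ring

end Crest.Agent.R19
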