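import Crest.Agent.R19.Basics

set_option autoImplicit false

open Finset Classical

namespace Crest.Agent.R19

namespace A2L

theorem growth (C D : ℕ) : ∃ n2 : ℕ, ∀ n ≥ n2, D * n ^ C ≤ 2 ^ n := by
  have h := tendsto_pow_const_div_const_pow_of_one_lt C (by norm_num : (1 : ℝ) < 2)
  have h2 := (h.eventually (gt_mem_nhds (by positivity : (0 : ℝ) < 1 / (D + 1))))
  obtain ⟨n2, h3⟩ := Filter.eventually_atTop.mp h2
  refine ⟨n2, fun n hn => ?_⟩
  have h4 := h3 n hn
  have h6 : (n : ℝ) ^ C < 1 / (D + 1) * 2 ^ n := by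
    rwa [div_lt_iff₀ (by positivity)] at h4
  have h7 : (D : ℝ) * (n : ℝ) ^ C ≤ 2 ^ n := by
    have h8 : ((D : ℝ) + 1) * (n : ℝ) ^ C < 2 ^ n := by
      calc ((D : ℝ) + 1) * (n : ℝ) ^ C < (D + 1) * (1 / (D + 1) * 2 ^ n) := by gcongr
        _ = 2 ^ n := by field_simp
    have : (0 : ℝ) ≤ (n : ℝ) ^ C := by positivity
    nlinarith
  exact_mod_cast h7

/-- `log n` is small compared with `n`. -/
theorem log_small : ∃ n2 : ℕ, ∀ n ≥ n2, 20 * Real.log n + 10 ≤ n := by
  have h := Real.isLittleO_log_id_atTop.bound (by norm_num : (0 : ℝ) < 1 / 40)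
  have h2 := (tendsto_natCast_atTop_atTop (R := ℝ)).eventually h
  obtain ⟨n2, h3⟩ := Filter.eventually_atTop.mp h2
  refine ⟨n2 + 20, fun n hn => ?_⟩
  have h4 := h3 n (by omega)
  have h5 : (20 : ℝ) ≤ n := by
    have : 20 ≤ n := by omega
    exact_mod_cast this
  simp only [id, Real.norm_eq_abs] at h4
  rw [abs_of_nonneg (Real.log_natCast_nonneg n), abs_of_nonneg (by linarith)] at h4
  linarith

end A2L

open A2L in
set_option maxHeartbeats 4000000 in
theorem a2large_proof : ArchLemma → PZCount → A2largeComb → A2large := by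
  rintro hA ⟨nP, hP⟩ hC
  obtain ⟨nT, hT⟩ := TT_ge_log
  obtain ⟨nG, hG⟩ := growth 4 32
  obtain ⟨nL, hL⟩ := log_small
  refine ⟨nP + nT + nG + nL + 300, fun n hn B H hH1 hH2 => ?_⟩
  have hn300 : 300 ≤ n := by omega
  have hnr : (300 : ℝ) ≤ n := by exact_mod_cast hn300
  obtain ⟨a, ha⟩ : ∃ a, a = Real.log n := ⟨_, rfl⟩
  have ha1 : 1 ≤ a := by
    rw [ha, Real.le_log_iff_exp_le (by linarith)]
    have := Real.exp_one_lt_d9
    linarith
  have hlog := hL n (by omega)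
  rw [← ha] at hlog
  have hT14 : 14 * a ≤ TT n := by rw [ha]; exact hT n (by omega)
  have hl2 := Real.log_two_gt_d9
  have hl2' := Real.log_two_lt_d9
  have hHpos : 0 < H := lt_of_lt_of_le (by positivity) hH1
  set lam := Real.log H with hlam
  clear_value lam
  have hlam1 : 200 * ((n : ℝ) + 1) * Real.log 2 ≤ lam := by
    have h1 := Real.log_le_log (by positivity) hH1
    rw [Real.log_pow] at h1
    push_cast at h1
    linarith
  have hlam138 : 138 * ((n : ℝ) + 1) ≤ lam := by nlinarith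
  have hlam0 : 0 ≤ lam := by nlinarith
  have hlam2 : lam ≤ 15.1 * n * a := by
    have h1 := Real.log_le_log hHpos hH2
    rw [hlam, ha]
    exact h1.trans (log_XX_le B (by omega))
  have hHexp : H = Real.exp lam := by rw [hlam]; exact (Real.exp_log hHpos).symm
  have hH1' : 1 ≤ H := by
    rw [hHexp]; exact Real.one_le_exp (by nlinarith)
  have hy1 : (1 : ℝ) ≤ B.y := by exact_mod_cast B.y_pos (by omega)
  have hy0 : (0 : ℝ) < B.y := by linarith
  have hlogy : Real.log B.y ≤ 5 * a := by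
    have h1 : (B.y : ℝ) ≤ (n : ℝ) ^ 5 := by exact_mod_cast B.y_hi
    have h2 := Real.log_le_log (by linarith) h1
    rw [Real.log_pow, ← ha] at h2
    push_cast at h2
    exact h2
  -- choice of k
  set k := ⌊lam / (42 * a)⌋₊ with hk
  have hk1 : (k : ℝ) ≤ lam / (42 * a) := Nat.floor_le (div_nonneg hlam0 (by positivity))
  have hk2 : lam / (42 * a) - 1 < k := by
    have := Nat.lt_floor_add_one (lam / (42 * a))
    linarith
  clear_value k
  have hkn : k ≤ n := by
    have : (k : ℝ) ≤ n := by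
      refine hk1.trans ?_
      rw [div_le_iff₀ (by positivity)]
      nlinarith
    exact_mod_cast this
  have hka : (k : ℝ) * (42 * a) ≤ lam := by
    rwa [le_div_iff₀ (by positivity)] at hk1
  have hyk : 2 * (B.y : ℝ) ^ k ≤ H ^ (1 / 4 : ℝ) := by
    have h1 : Real.log (2 * (B.y : ℝ) ^ k) ≤ Real.log (H ^ (1 / 4 : ℝ)) := by
      rw [Real.log_mul (by norm_num) (by positivity), Real.log_pow, Real.log_rpow hHpos]
      have h2 : (k : ℝ) * Real.log B.y ≤ k * (5 * a) := by gcongr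
      nlinarith
    exact (Real.log_le_log_iff (by positivity) (by positivity)).mp h1
  have hsmall := hA n B k (H ^ (1 / 4 : ℝ)) hkn hyk
  set pb : ℝ := ((2 : ℝ) ^ k)⁻¹ with hpb
  have hsmall' : ((smallD B (H ^ (1 / 4 : ℝ))).card : ℝ) ≤ pb * 4 ^ n := by
    have h1 : ((2 : ℝ) ^ k) * ((smallD B (H ^ (1 / 4 : ℝ))).card : ℝ) ≤ 4 ^ n := by
      exact_mod_cast hsmall
    rw [hpb, inv_mul_eq_div, le_div_iff₀ (by positivity)]
    linarith
  -- choice of j
  have hpb0 : 0 < pb := by rw [hpb]; positivity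
  clear_value pb
  have hn1pos : (0 : ℝ) < (n : ℝ) + 1 := by linarith
  set j := ⌊lam / (8 * ((n : ℝ) + 1) * Real.log 2)⌋₊ with hj
  have hden : 0 < 8 * ((n : ℝ) + 1) * Real.log 2 := by positivity
  have hjx : 25 ≤ lam / (8 * ((n : ℝ) + 1) * Real.log 2) := by
    rw [le_div_iff₀ hden]
    nlinarith
  have hj1 : (j : ℝ) ≤ lam / (8 * ((n : ℝ) + 1) * Real.log 2) := Nat.floor_le (by linarith)
  have hj2 : lam / (8 * ((n : ℝ) + 1) * Real.log 2) - 1 < j := by
    have := Nat.lt_floor_add_one (lam / (8 * ((n : ℝ) + 1) * Real.log 2))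
    linarith
  have hj3 : (j : ℝ) * (8 * ((n : ℝ) + 1) * Real.log 2) ≤ lam := by
    rwa [le_div_iff₀ hden] at hj1
  have hj4 : lam ≤ (j : ℝ) * (16 * ((n : ℝ) + 1) * Real.log 2) := by
    have h1 : lam / (8 * ((n : ℝ) + 1) * Real.log 2) ≤ 2 * j := by linarith
    rw [div_le_iff₀ hden] at h1
    linarith
  have hj25 : 1 ≤ j := by
    rw [hj]; exact Nat.le_floor (by push_cast; linarith)
  clear_value j
  have hj3a : (j : ℝ) ≤ 3 * a := by
    have h1 : (j : ℝ) * (5.5 * n) ≤ 15.1 * n * a := by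
      calc (j : ℝ) * (5.5 * n) ≤ (j : ℝ) * (8 * ((n : ℝ) + 1) * Real.log 2) := by
            have : (0 : ℝ) ≤ j := by positivity
            nlinarith
        _ ≤ lam := hj3
        _ ≤ _ := hlam2
    have h2 : (n : ℝ) * ((j : ℝ) * 5.5) ≤ n * (15.1 * a) := by linarith
    have h3 := le_of_mul_le_mul_left h2 (by linarith : (0 : ℝ) < n)
    linarith
  have hjT : 2 * j ≤ TT n := by
    have : ((2 * j : ℕ) : ℝ) ≤ TT n := by
      push_cast
      linarith
    exact_mod_cast this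
  have hjn : j ≤ n := by
    have : (j : ℝ) ≤ n := by linarith
    exact_mod_cast this
  have hj2n : j ≤ 2 ^ n := hjn.trans (Nat.lt_two_pow_self).le
  have hPZ := hP n (by omega)
  have hPZ1 : 1 ≤ (PZ n).card := by
    by_contra hcon
    have : (PZ n).card = 0 := by omega
    rw [this] at hPZ
    have : 0 < 2 ^ n := by positivity
    omega
  have hPZr : (2 : ℝ) ^ n ≤ 4 * n * (PZ n).card := by exact_mod_cast hPZ
  -- T 2^T
  have h2T : (2 : ℝ) ^ TT n ≤ (n : ℝ) ^ 10 := by exact_mod_cast two_pow_TT (by omega : 1 ≤ n)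
  have hTn : (TT n : ℝ) ≤ 10 * n := by exact_mod_cast TT_le (by omega : 1 ≤ n)
  have hn13 : Real.log ((n : ℝ) ^ 13) = 13 * a := by rw [Real.log_pow, ← ha]; push_cast; ring
  have hT2T : 2 * (TT n : ℝ) * 2 ^ TT n ≤ (n : ℝ) ^ 13 := by
    calc 2 * (TT n : ℝ) * 2 ^ TT n ≤ 2 * (10 * n) * (n : ℝ) ^ 10 := by gcongr
      _ ≤ (n * n) * (n : ℝ) ^ 10 := mul_le_mul_of_nonneg_right (by nlinarith) (by positivity)
      _ = (n : ℝ) ^ 12 := by ring
      _ ≤ (n : ℝ) ^ 13 := pow_le_pow_right₀ (by linarith) (by norm_num)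
  have hn13H : (n : ℝ) ^ 13 ≤ H ^ (1 / 4 : ℝ) := by
    have h1 : Real.log ((n : ℝ) ^ 13) ≤ Real.log (H ^ (1 / 4 : ℝ)) := by
      rw [hn13, Real.log_rpow hHpos]
      linarith
    exact (Real.log_le_log_iff (by positivity) (by positivity)).mp h1
  have hcond : 2 * TT n * 2 ^ TT n * (2 ^ (n + 1)) ^ (2 * j) < 2 ^ n * H ^ (3 / 4 : ℝ) := by
    have h1 : ((2 : ℝ) ^ (n + 1)) ^ (2 * j) ≤ H ^ (1 / 4 : ℝ) := by
      have h2 : Real.log (((2 : ℝ) ^ (n + 1)) ^ (2 * j)) ≤ Real.log (H ^ (1 / 4 : ℝ)) := by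
        rw [Real.log_pow, Real.log_pow, Real.log_rpow hHpos]
        push_cast
        linarith
      exact (Real.log_le_log_iff (by positivity) (by positivity)).mp h2
    calc 2 * (TT n : ℝ) * 2 ^ TT n * (2 ^ (n + 1)) ^ (2 * j) ≤ (n : ℝ) ^ 13 * H ^ (1 / 4 : ℝ) := by
          gcongr
      _ ≤ H ^ (1 / 4 : ℝ) * H ^ (1 / 4 : ℝ) := by gcongr
      _ = H ^ (1 / 2 : ℝ) := by rw [← Real.rpow_add hHpos]; norm_num
      _ ≤ H ^ (3 / 4 : ℝ) := Real.rpow_le_rpow_of_exponent_le hH1' (by norm_num)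
      _ = 1 * H ^ (3 / 4 : ℝ) := by ring
      _ < 2 ^ n * H ^ (3 / 4 : ℝ) := by
          gcongr
          exact one_lt_pow₀ (by norm_num) (by omega)
  have hmain := hC n B H j pb hH1' hj25 hj2n hjT hPZ1 hsmall' hcond
  refine hmain.trans ?_
  have hPcpos : (1 : ℝ) ≤ ((PZ n).card : ℝ) := by exact_mod_cast hPZ1
  clear hmain hC hsmall hsmall'
  revert hPZr hPcpos
  generalize ((PZ n).card : ℝ) = Pc
  intro hPZr hPcpos
  have hPc0 : 0 < Pc := by linarith
  -- numerical estimate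
  have hpbT : pb ^ TT n ≤ Real.exp (-(lam / 32)) := by
    have h1 : pb = Real.exp (-(k * Real.log 2)) := by
      rw [hpb, Real.exp_neg, mul_comm, Real.exp_mul, Real.exp_log (by norm_num), Real.rpow_natCast]
    rw [h1, ← Real.exp_nat_mul]
    apply Real.exp_le_exp.mpr
    have h2 : lam / (42 * a) ≤ 2 * k := by
      have h3 : 2 ≤ lam / (42 * a) := by
        rw [le_div_iff₀ (by positivity)]
        nlinarith
      linarith
    rw [div_le_iff₀ (by positivity)] at h2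
    have h4 : lam / 6 ≤ TT n * k := by
      calc lam / 6 ≤ (14 * a) * k := by linarith
        _ ≤ TT n * k := by gcongr
    have h5 : (0 : ℝ) ≤ TT n * k := by positivity
    nlinarith
  have hfac : (j.factorial : ℝ) / Pc ^ j ≤ Real.exp (-(lam / 32)) := by
    have h1 : (j.factorial : ℝ) ≤ (n : ℝ) ^ j := by
      calc (j.factorial : ℝ) ≤ (j : ℝ) ^ j := by exact_mod_cast Nat.factorial_le_pow j
        _ ≤ _ := by gcongr
    have hnn : (0 : ℝ) < n := by linarith
    have h2 : (2 : ℝ) ^ n / (4 * n) ≤ Pc := by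
      rw [div_le_iff₀ (by positivity)]
      linarith
    have h3 : (n : ℝ) / Pc ≤ 4 * n ^ 2 / 2 ^ n := by
      rw [div_le_div_iff₀ hPc0 (by positivity)]
      nlinarith
    have h4 : 4 * (n : ℝ) ^ 2 / 2 ^ n ≤ Real.exp (-(((n : ℝ) + 1) * Real.log 2 / 2)) := by
      have h5 : (4 * (n : ℝ) ^ 2 / 2 ^ n) ^ 2 ≤ (Real.exp (-(((n : ℝ) + 1) * Real.log 2 / 2))) ^ 2 := by
        have h6 : (Real.exp (-(((n : ℝ) + 1) * Real.log 2 / 2))) ^ 2 = 1 / 2 ^ (n + 1) := by
          rw [← Real.exp_nat_mul]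
          have : ((2 : ℕ) : ℝ) * -(((n : ℝ) + 1) * Real.log 2 / 2) = -(((n + 1 : ℕ) : ℝ) * Real.log 2) := by
            push_cast; ring
          rw [this, Real.exp_neg, mul_comm, Real.exp_mul, Real.exp_log (by norm_num),
            Real.rpow_natCast, one_div]
        rw [h6, div_pow, div_le_div_iff₀ (by positivity) (by positivity)]
        have h7 : (32 : ℝ) * (n : ℝ) ^ 4 ≤ 2 ^ n := by exact_mod_cast hG n (by omega)
        have h8 : (0 : ℝ) < 2 ^ n := by positivity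
        calc (4 * (n : ℝ) ^ 2) ^ 2 * 2 ^ (n + 1) = (32 * (n : ℝ) ^ 4) * 2 ^ n := by ring
          _ ≤ 2 ^ n * 2 ^ n := by gcongr
          _ = 1 * (2 ^ n) ^ 2 := by ring
      exact le_of_sq_le_sq h5 (by positivity) |> fun h => h
    calc (j.factorial : ℝ) / Pc ^ j ≤ (n : ℝ) ^ j / Pc ^ j :=
          div_le_div_of_nonneg_right h1 (by positivity)
      _ = ((n : ℝ) / Pc) ^ j := by rw [div_pow]
      _ ≤ (Real.exp (-(((n : ℝ) + 1) * Real.log 2 / 2))) ^ j :=
          pow_le_pow_left₀ (by positivity) (h3.trans h4) j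
      _ = Real.exp (j * -(((n : ℝ) + 1) * Real.log 2 / 2)) := by rw [← Real.exp_nat_mul]
      _ ≤ _ := Real.exp_le_exp.mpr (by linarith)
  have htot : 2 * 2 ^ TT n * (pb ^ TT n + j.factorial / Pc ^ j) ≤
      H ^ (-(1 / 1000) : ℝ) := by
    calc 2 * (2 : ℝ) ^ TT n * (pb ^ TT n + j.factorial / Pc ^ j)
        ≤ 2 * (n : ℝ) ^ 10 * (Real.exp (-(lam / 32)) + Real.exp (-(lam / 32))) := by gcongr
      _ = (4 * (n : ℝ) ^ 10) * Real.exp (-(lam / 32)) := by ring
      _ ≤ (n : ℝ) ^ 11 * Real.exp (-(lam / 32)) := by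
          gcongr
          calc 4 * (n : ℝ) ^ 10 ≤ n * (n : ℝ) ^ 10 := by gcongr; linarith
            _ = (n : ℝ) ^ 11 := by ring
      _ = Real.exp (11 * a + -(lam / 32)) := by
          rw [Real.exp_add]
          congr 1
          rw [show (11 : ℝ) * a = ((11 : ℕ) : ℝ) * Real.log n by rw [ha]; norm_num, Real.exp_nat_mul,
            Real.exp_log (by linarith)]
      _ ≤ Real.exp (-(lam / 1000)) := Real.exp_le_exp.mpr (by nlinarith)
      _ = H ^ (-(1 / 1000) : ℝ) := by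
          rw [Real.rpow_def_of_pos hHpos, ← hlam]; congr 1; ring
  exact mul_le_mul_of_nonneg_right (mul_le_mul_of_nonneg_right htot (by positivity)) (by positivity)

end Crest.Agent.R19
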