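import Crest.Agent.R19.Basics

/-! Row 19, task A2LC: `EnergyInt → KArch → PermCount → A2largeComb`. -/

set_option autoImplicit false

open Finset Classical

namespace Crest.Agent.R19

namespace A2LC

/-- the product of all the primes of `PZ n`. -/
def L0 (n : ℕ) : ℕ := (PZ n).prod id

theorem L0_pos (n : ℕ) : 0 < L0 n :=
  Finset.prod_pos (fun _ hP => (mem_PZ.mp hP).2.2.pos)

theorem dvd_L0 {n : ℕ} (P : PZ n) : (P : ℕ) ∣ L0 n := Finset.dvd_prod_of_mem id P.2

/-- `ξ d P = dw d * (L0 / P)`. -/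
def xi {n : ℕ} (B : Base n) (d : Cube n × Cube n) (P : PZ n) : ℤ :=
  B.dw d * ((L0 n / (P : ℕ) : ℕ) : ℤ)

theorem xi_real {n : ℕ} (B : Base n) (d : Cube n × Cube n) (P : PZ n) :
    ((xi B d P : ℤ) : ℝ) = (B.dw d : ℝ) * (L0 n : ℝ) * (1 / ((P : ℕ) : ℝ)) := by
  unfold xi
  have h : (((L0 n / (P : ℕ) : ℕ) : ℤ) : ℝ) = (L0 n : ℝ) / ((P : ℕ) : ℝ) := by
    have hp : ((P : ℕ) : ℝ) ≠ 0 := by exact_mod_cast (PZ_prime P).ne_zero
    rw [Int.cast_natCast, Nat.cast_div (dvd_L0 P) hp]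
  push_cast at h ⊢
  rw [h]
  ring

/-- the key identity `L0 ν = M Σ ξ`. -/
theorem key {n : ℕ} (B : Base n) (c : Conf n) :
    (L0 n : ℝ) * (nu B c : ℝ) =
      (∏ u, ((c.1 u : ℕ) : ℝ)) * ∑ u, ((xi B (c.2 u) (c.1 u) : ℤ) : ℝ) := by
  unfold nu
  push_cast
  rw [Finset.mul_sum, Finset.mul_sum]
  refine Finset.sum_congr rfl (fun u _ => ?_)
  rw [xi_real, ← Finset.mul_prod_erase univ (fun v => ((c.1 v : ℕ) : ℝ)) (Finset.mem_univ u)]
  have hp : (((c.1 u : ℕ)) : ℝ) ≠ 0 := by exact_mod_cast (PZ_prime (c.1 u)).ne_zero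
  field_simp

end A2LC

set_option maxHeartbeats 1000000 in
open A2LC in
theorem a2largeComb_proof : EnergyInt → KArch → PermCount → A2largeComb := by
  intro hE hK hPerm n B H j pb hH hj hj2 hjT hPZ hbad hlt
  have hT1 : 1 ≤ TT n := by omega
  have hPZne : (PZ n).Nonempty := Finset.card_pos.mp (by omega)
  have : Nonempty (PZ n) := hPZne.to_subtype
  have hn : 1 ≤ n := by
    rcases Nat.eq_zero_or_pos n with h | h
    · subst h; simp [TT] at hT1
    · exact h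
  have hy : (1 : ℝ) ≤ B.y := by exact_mod_cast B.y_pos hn
  have hH0 : (0 : ℝ) < H := by linarith
  have hL : (0 : ℝ) < L0 n := by exact_mod_cast L0_pos n
  set ε : ℝ := (XX B : ℝ) / (H * (2 ^ n) ^ TT n) with hε
  have hε0 : 0 ≤ ε := by positivity
  set h : ℕ := ⌊ε * L0 n⌋₊ with hh
  have hh1 : (h : ℝ) ≤ ε * L0 n := Nat.floor_le (by positivity)
  have hXX : (XX B : ℝ) = TT n * 2 ^ TT n * (2 ^ n) ^ (TT n - 1) * (B.y : ℝ) ^ n := by
    rw [XX_eq B hT1]; push_cast; ring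
  have hεeq : ε = TT n * 2 ^ TT n * (B.y : ℝ) ^ n / (H * 2 ^ n) := by
    rw [hε, hXX]
    obtain ⟨k, hk⟩ : ∃ k, TT n = k + 1 := ⟨TT n - 1, by omega⟩
    rw [hk]
    simp only [Nat.add_sub_cancel]
    rw [pow_succ ((2 : ℝ) ^ n) k]
    field_simp
  have hHq : H ^ (1 / 4 : ℝ) * H ^ (3 / 4 : ℝ) = H := by
    rw [← Real.rpow_add hH0]; norm_num
  have hq0 : 0 < H ^ (1 / 4 : ℝ) := Real.rpow_pos_of_pos hH0 _
  have hq1 : 0 < H ^ (3 / 4 : ℝ) := Real.rpow_pos_of_pos hH0 _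
  have hmain := hE (Cube n × Cube n) (PZ n) (smallD B (H ^ (1 / 4 : ℝ))) (xi B) h (TT n) j
    (j.factorial / ((PZ n).card : ℝ) ^ j) pb hj hjT (by
      rw [card_cube2]; push_cast; exact hbad) (by positivity) ?_
  · -- conclusion
    have hcard : ((univ.filter (fun c : Conf n => H * |(nu B c : ℝ)| ≤ XX B)).card : ℝ) ≤
        ((univ.filter (fun x : (Fin (TT n) → Cube n × Cube n) × (Fin (TT n) → PZ n) =>
          |∑ u, xi B (x.1 u) (x.2 u)| ≤ (h : ℤ))).card : ℝ) := by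
      have : (univ.filter (fun c : Conf n => H * |(nu B c : ℝ)| ≤ XX B)).card ≤
        (univ.filter (fun x : (Fin (TT n) → Cube n × Cube n) × (Fin (TT n) → PZ n) =>
          |∑ u, xi B (x.1 u) (x.2 u)| ≤ (h : ℤ))).card := by
        refine Finset.card_le_card_of_injOn (fun c => (c.2, c.1)) ?_ ?_
        · intro c hc
          simp only [Finset.coe_filter, Finset.mem_univ, true_and, Set.mem_ofPred_eq] at hc ⊢
          have hM : ((2 : ℝ) ^ n) ^ TT n ≤ ∏ u, ((c.1 u : ℕ) : ℝ) := by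
            calc ((2 : ℝ) ^ n) ^ TT n = ∏ _u : Fin (TT n), (2 : ℝ) ^ n := by simp
              _ ≤ _ := Finset.prod_le_prod (fun _ _ => by positivity)
                  (fun v _ => by exact_mod_cast (PZ_lo (c.1 v)).le)
          have hM0 : (0 : ℝ) < ∏ u, ((c.1 u : ℕ) : ℝ) := lt_of_lt_of_le (by positivity) hM
          have hk := key B c
          have hk2 : (L0 n : ℝ) * |(nu B c : ℝ)| =
              (∏ u, ((c.1 u : ℕ) : ℝ)) * |∑ u, ((xi B (c.2 u) (c.1 u) : ℤ) : ℝ)| := by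
            rw [← abs_of_pos hM0, ← abs_mul, ← hk, abs_mul, abs_of_pos hL]
          have h3 : |∑ u, ((xi B (c.2 u) (c.1 u) : ℤ) : ℝ)| ≤ ε * L0 n := by
            have h4 : (∏ u, ((c.1 u : ℕ) : ℝ)) * |∑ u, ((xi B (c.2 u) (c.1 u) : ℤ) : ℝ)| ≤
                (L0 n : ℝ) * (XX B / H) := by
              rw [← hk2]
              apply mul_le_mul_of_nonneg_left _ hL.le
              rw [le_div_iff₀ hH0]; linarith
            have h5 : ((2 : ℝ) ^ n) ^ TT n * |∑ u, ((xi B (c.2 u) (c.1 u) : ℤ) : ℝ)| ≤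
                (L0 n : ℝ) * (XX B / H) :=
              le_trans (mul_le_mul_of_nonneg_right hM (abs_nonneg _)) h4
            have h6 : ε * L0 n = ((L0 n : ℝ) * (XX B / H)) / ((2 : ℝ) ^ n) ^ TT n := by
              rw [hε]; field_simp
            rw [h6, le_div_iff₀ (by positivity)]
            linarith
          have h7 : |∑ u, xi B (c.2 u) (c.1 u)| = ((∑ u, xi B (c.2 u) (c.1 u)).natAbs : ℤ) :=
            Int.abs_eq_natAbs _
          rw [h7]
          have h8 : (∑ u, xi B (c.2 u) (c.1 u)).natAbs ≤ h := by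
            rw [hh]
            apply Nat.le_floor
            have h9 : (((∑ u, xi B (c.2 u) (c.1 u)).natAbs : ℕ) : ℝ) =
                |∑ u, ((xi B (c.2 u) (c.1 u) : ℤ) : ℝ)| := by
              rw [Nat.cast_natAbs]
              push_cast
              rfl
            rw [h9]; exact h3
          exact_mod_cast h8
        · intro a _ b _ hab
          simp only [Prod.mk.injEq] at hab
          exact Prod.ext hab.2 hab.1
      exact_mod_cast this
    refine le_trans hcard (le_trans hmain ?_)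
    apply le_of_eq
    have hc1 : (Fintype.card (Cube n × Cube n) : ℝ) = 4 ^ n := by rw [card_cube2]; push_cast; rfl
    rw [hc1, Fintype.card_coe, ← pow_mul]
    ring
  · -- energy condition
    intro d hd
    have hgood : (B.y : ℝ) ^ n ≤ H ^ (1 / 4 : ℝ) * |(B.dw d : ℝ)| := by
      simp only [smallD, Finset.mem_filter, Finset.mem_univ, true_and, not_lt] at hd
      exact hd
    have hyn : (0 : ℝ) < (B.y : ℝ) ^ n := by positivity
    have hdw : 0 < |(B.dw d : ℝ)| := by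
      by_contra hcon
      have : |(B.dw d : ℝ)| = 0 := le_antisymm (not_lt.mp hcon) (abs_nonneg _)
      rw [this, mul_zero] at hgood
      linarith
    have hsub : ∀ x : (Fin j → PZ n) × (Fin j → PZ n),
        |∑ l, xi B d (x.1 l) - ∑ l, xi B d (x.2 l)| ≤ 2 * (h : ℤ) →
          ∃ σ : Equiv.Perm (Fin j), x.2 = x.1 ∘ σ := by
      intro x hx
      apply hK n j hj2 x.1 x.2
      set δ := |∑ l, (1 : ℝ) / ((x.1 l : ℕ) : ℝ) - ∑ l, (1 : ℝ) / ((x.2 l : ℕ) : ℝ)| with hδ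
      have hδ0 : 0 ≤ δ := abs_nonneg _
      have h1 : |(B.dw d : ℝ)| * (L0 n : ℝ) * δ ≤ 2 * h := by
        have h2 : ((|∑ l, xi B d (x.1 l) - ∑ l, xi B d (x.2 l)| : ℤ) : ℝ) ≤ 2 * (h : ℝ) := by
          exact_mod_cast hx
        push_cast at h2
        simp only [xi_real] at h2
        rw [← Finset.mul_sum, ← Finset.mul_sum, ← mul_sub, abs_mul, abs_mul, abs_of_pos hL] at h2
        exact h2
      have h2 : |(B.dw d : ℝ)| * δ ≤ 2 * ε := by
        have h3 : (L0 n : ℝ) * (|(B.dw d : ℝ)| * δ) ≤ (L0 n : ℝ) * (2 * ε) := by nlinarith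
        exact le_of_mul_le_mul_left h3 hL
      have h3 : (B.y : ℝ) ^ n * δ ≤ H ^ (1 / 4 : ℝ) * (2 * ε) := by
        calc (B.y : ℝ) ^ n * δ ≤ (H ^ (1 / 4 : ℝ) * |(B.dw d : ℝ)|) * δ :=
              mul_le_mul_of_nonneg_right hgood hδ0
          _ = H ^ (1 / 4 : ℝ) * (|(B.dw d : ℝ)| * δ) := by ring
          _ ≤ _ := mul_le_mul_of_nonneg_left h2 hq0.le
      have h4 : H ^ (1 / 4 : ℝ) * (2 * ε) * (2 ^ n * H ^ (3 / 4 : ℝ)) =
          (B.y : ℝ) ^ n * (2 * TT n * 2 ^ TT n) := by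
        rw [hεeq]
        have : H ^ (1 / 4 : ℝ) * (2 * (TT n * 2 ^ TT n * (B.y : ℝ) ^ n / (H * 2 ^ n))) *
            (2 ^ n * H ^ (3 / 4 : ℝ)) =
            (H ^ (1 / 4 : ℝ) * H ^ (3 / 4 : ℝ)) * ((B.y : ℝ) ^ n * (2 * TT n * 2 ^ TT n)) / H := by
          field_simp
        rw [this, hHq]
        field_simp
      have h5 : δ * (2 ^ n * H ^ (3 / 4 : ℝ)) ≤ 2 * TT n * 2 ^ TT n := by
        have h6 : (B.y : ℝ) ^ n * (δ * (2 ^ n * H ^ (3 / 4 : ℝ))) ≤
            (B.y : ℝ) ^ n * (2 * TT n * 2 ^ TT n) := by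
          rw [← h4, ← mul_assoc]
          exact mul_le_mul_of_nonneg_right h3 (by positivity)
        exact le_of_mul_le_mul_left h6 hyn
      have h7 : δ * (2 ^ n * H ^ (3 / 4 : ℝ)) * (2 ^ (n + 1)) ^ (2 * j) <
          2 ^ n * H ^ (3 / 4 : ℝ) :=
        lt_of_le_of_lt (mul_le_mul_of_nonneg_right h5 (by positivity)) hlt
      have h8 : (2 ^ n * H ^ (3 / 4 : ℝ)) * (δ * (2 ^ (n + 1)) ^ (2 * j)) <
          (2 ^ n * H ^ (3 / 4 : ℝ)) * 1 := by
        rw [mul_one]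
        calc (2 ^ n * H ^ (3 / 4 : ℝ)) * (δ * (2 ^ (n + 1)) ^ (2 * j))
            = δ * (2 ^ n * H ^ (3 / 4 : ℝ)) * (2 ^ (n + 1)) ^ (2 * j) := by ring
          _ < _ := h7
      exact lt_of_mul_lt_mul_left h8 (by positivity)
    have hP : (univ.filter (fun x : (Fin j → PZ n) × (Fin j → PZ n) =>
        ∃ σ : Equiv.Perm (Fin j), x.2 = x.1 ∘ σ)).card ≤ j.factorial * (PZ n).card ^ j := by
      have h0 := hPerm (PZ n) j
      rw [Fintype.card_coe] at h0
      convert h0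
    have h1 : ((univ.filter (fun x : (Fin j → PZ n) × (Fin j → PZ n) =>
        |∑ l, xi B d (x.1 l) - ∑ l, xi B d (x.2 l)| ≤ 2 * (h : ℤ))).card : ℝ) ≤
        (j.factorial : ℝ) * ((PZ n).card : ℝ) ^ j := by
      have h2 : (univ.filter (fun x : (Fin j → PZ n) × (Fin j → PZ n) =>
        |∑ l, xi B d (x.1 l) - ∑ l, xi B d (x.2 l)| ≤ 2 * (h : ℤ))).card ≤
          j.factorial * (PZ n).card ^ j := by
        refine le_trans (Finset.card_le_card ?_) hP
        intro x hx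
        rw [Finset.mem_filter] at hx ⊢
        exact ⟨Finset.mem_univ _, hsub x hx.2⟩
      exact_mod_cast h2
    refine le_trans h1 (le_of_eq ?_)
    rw [Fintype.card_coe]
    have hp0 : (0 : ℝ) < (PZ n).card := by exact_mod_cast (by omega : 0 < (PZ n).card)
    have : ((PZ n).card : ℝ) ^ (2 * j) = ((PZ n).card : ℝ) ^ j * ((PZ n).card : ℝ) ^ j := by
      rw [← pow_add]; congr 1; ring
    rw [this]
    field_simp

end Crest.Agent.R19
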