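import Crest.Agent.R19.Defs
import Crest.Agent.R19.Basics
import Crest.Agent.R19.A1M

set_option autoImplicit false

open Finset Classical

namespace Crest.Agent.R19

namespace A2M

open Filter Topology

lemma numeric {n : ℕ} (hn2 : 2 ≤ n) {P Tr Q pbT D : ℝ}
    (hP0 : 0 < P) (hP : 1 / P ≤ 4 * n / 2 ^ n)
    (hT0 : 0 ≤ Tr) (hT : Tr ≤ 10 * n) (hD0 : 0 ≤ D) (hD : D ≤ (n:ℝ) ^ 10) (hQ1 : 1 ≤ Q)
    (hQb : Q ^ (1 / 1000 : ℝ) ≤ 2 * (23 / 20) ^ n)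
    (hQn : (n:ℝ) ^ 38 ≤ Q ^ (19 / 1000 : ℝ))
    (h5 : 8 * ((n:ℝ) ^ 1 * (23 / 40) ^ n) ≤ 1 / 4)
    (hpb : pbT * Q ^ (1 / 1000 : ℝ) ≤ 1 / 4) :
    pbT + (8 * Tr * D * 2 ^ n / Q ^ (3 / 4 : ℝ) + 1) / P ≤ Q ^ (-(1 / 1000) : ℝ) := by
  have hnR : (2:ℝ) ≤ n := by exact_mod_cast hn2
  have hQpos : 0 < Q ^ (1 / 1000 : ℝ) := Real.rpow_pos_of_pos (by linarith) _
  have hneg : Q ^ (-(1 / 1000) : ℝ) = (Q ^ (1 / 1000 : ℝ))⁻¹ := Real.rpow_neg (by linarith) _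
  rw [hneg, ← one_div, le_div_iff₀ hQpos]
  have hhalf : (0:ℝ) < 2 ^ n := by positivity
  have hpow : (23 / 20 : ℝ) ^ n / 2 ^ n = (23 / 40) ^ n := by
    rw [← div_pow]
    norm_num
  have ht3 : ((8 * Tr * D * 2 ^ n / Q ^ (3 / 4 : ℝ) + 1) / P : ℝ) * Q ^ (1 / 1000 : ℝ) ≤ 1 / 2 := by
    have h34 : 0 < Q ^ (3 / 4 : ℝ) := Real.rpow_pos_of_pos (by linarith) _
    have e1 : ((8 * Tr * D * 2 ^ n / Q ^ (3 / 4 : ℝ) + 1) / P : ℝ)
        ≤ 32 * n * Tr * D / Q ^ (3 / 4 : ℝ) + 4 * n / 2 ^ n := by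
      rw [div_eq_mul_one_div]
      calc (8 * Tr * D * 2 ^ n / Q ^ (3 / 4 : ℝ) + 1) * (1 / P)
          ≤ (8 * Tr * D * 2 ^ n / Q ^ (3 / 4 : ℝ) + 1) * (4 * n / 2 ^ n) := by gcongr
        _ = 32 * n * Tr * D / Q ^ (3 / 4 : ℝ) + 4 * n / 2 ^ n := by
            field_simp
            ring
    have e2 : 32 * n * Tr * D / Q ^ (3 / 4 : ℝ) * Q ^ (1 / 1000 : ℝ) ≤ 1 / 4 := by
      have e3 : Q ^ (3 / 4 : ℝ) = Q ^ (749 / 1000 : ℝ) * Q ^ (1 / 1000 : ℝ) := by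
        rw [← Real.rpow_add (by linarith)]
        norm_num
      have h19 : 0 < Q ^ (749 / 1000 : ℝ) := Real.rpow_pos_of_pos (by linarith) _
      have e4 : 32 * n * Tr * D / Q ^ (3 / 4 : ℝ) * Q ^ (1 / 1000 : ℝ)
          = 32 * n * Tr * D / Q ^ (749 / 1000 : ℝ) := by
        rw [e3]
        field_simp
      rw [e4, div_le_iff₀ h19]
      have e5 : (n:ℝ) ^ 38 ≤ Q ^ (749 / 1000 : ℝ) :=
        hQn.trans (Real.rpow_le_rpow_of_exponent_le hQ1 (by norm_num))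
      have e6 : 32 * n * Tr * D ≤ 320 * (n:ℝ) ^ 12 := by
        calc 32 * n * Tr * D ≤ 32 * n * (10 * n) * (n:ℝ) ^ 10 := by gcongr
          _ = 320 * (n:ℝ) ^ 12 := by ring
      have e7 : 1280 * (n:ℝ) ^ 12 ≤ (n:ℝ) ^ 38 := by
        have : (2:ℝ) ^ 26 ≤ (n:ℝ) ^ 26 := by gcongr
        have h12 : (0:ℝ) < (n:ℝ) ^ 12 := by positivity
        have e8 : (n:ℝ) ^ 38 = (n:ℝ) ^ 26 * (n:ℝ) ^ 12 := by ring
        rw [e8]
        norm_num at this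
        nlinarith
      linarith
    have e7 : 4 * n / (2:ℝ) ^ n * Q ^ (1 / 1000 : ℝ) ≤ 1 / 4 := by
      calc 4 * n / (2:ℝ) ^ n * Q ^ (1 / 1000 : ℝ) ≤ 4 * n / (2:ℝ) ^ n * (2 * (23 / 20) ^ n) := by
            gcongr
        _ = 8 * ((n:ℝ) ^ 1 * ((23 / 20) ^ n / 2 ^ n)) := by ring
        _ ≤ 1 / 4 := by rw [hpow]; exact h5
    calc _ ≤ (32 * n * Tr * D / Q ^ (3 / 4 : ℝ) + 4 * n / 2 ^ n) * Q ^ (1 / 1000 : ℝ) := by gcongr
      _ ≤ 1 / 2 := by rw [add_mul]; linarith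
  rw [add_mul]
  linarith

lemma hQn {n : ℕ} {q : ℝ} (hn : 2 ≤ n) (hq1 : (n:ℝ) ^ 2000 ≤ q) :
    (n:ℝ) ^ 38 ≤ q ^ (19 / 1000 : ℝ) := by
  have hnR : (2:ℝ) ≤ n := by exact_mod_cast hn
  have h7 : ((n:ℝ)) ^ (2000:ℝ) ≤ q := by
    have h2 : ((n:ℝ)) ^ (2000:ℝ) = (n:ℝ) ^ (2000:ℕ) := by
      exact_mod_cast Real.rpow_natCast (n:ℝ) 2000
    rw [h2]
    exact hq1
  have h8 := Real.rpow_le_rpow (Real.rpow_nonneg (by linarith) _) h7 (by norm_num : (0:ℝ) ≤ 19 / 1000)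
  rw [← Real.rpow_mul (by linarith)] at h8
  have h9 : (2000:ℝ) * (19 / 1000) = (38:ℕ) := by norm_num
  rw [h9, Real.rpow_natCast] at h8
  exact h8

lemma lam_lo {n : ℕ} {q : ℝ} (hn : 2 ≤ n) (hq1 : (n:ℝ) ^ 2000 ≤ q) :
    2000 * Real.log n ≤ Real.log q := by
  have hnR : (0:ℝ) < n := by
    have : (2:ℝ) ≤ n := by exact_mod_cast hn
    linarith
  have h8 := Real.log_le_log (pow_pos hnR _) hq1
  rw [Real.log_pow] at h8
  exact h8

lemma one_le_pow2000 {n : ℕ} {q : ℝ} (hn : 2 ≤ n) (hq1 : (n:ℝ) ^ 2000 ≤ q) : 1 ≤ q := by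
  have hnR : (1:ℝ) ≤ n := by
    have : (2:ℝ) ≤ n := by exact_mod_cast hn
    linarith
  exact (one_le_pow₀ hnR).trans hq1

/-- choice of `k` -/
lemma kbound {n y : ℕ} {H L lam : ℝ} (hn : 2 ≤ n) (hy0 : n ≤ y) (hy : y ≤ n ^ 5)
    (hL : L = Real.log n) (hL10 : 10 ≤ L)
    (hH : 1 ≤ H) (hlam : lam = Real.log H) (hlam1 : 2000 * L ≤ lam) :
    ∃ k : ℕ, k ≤ n ∧ 2 * (y:ℝ) ^ k ≤ H ^ (1 / 4 : ℝ) ∧
      1 / 40 * min (n : ℝ) (lam / (6 * L)) ≤ k * Real.log 2 := by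
  have hnR : (2:ℝ) ≤ n := by exact_mod_cast hn
  have hL0 : 0 < L := by linarith
  have hyR : (0:ℝ) < y := by
    have : (n:ℝ) ≤ y := by exact_mod_cast hy0
    linarith
  have hlam0 : 0 < lam := by linarith
  refine ⟨min n ⌊lam / (25 * L)⌋₊, min_le_left _ _, ?_, ?_⟩
  · rw [← Real.log_le_log_iff (by positivity) (Real.rpow_pos_of_pos (by linarith) _)]
    rw [Real.log_mul (by norm_num) (by positivity), Real.log_pow, Real.log_rpow (by linarith),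
      ← hlam]
    have h1 : Real.log y ≤ 5 * L := by
      have : (y:ℝ) ≤ (n:ℝ) ^ 5 := by exact_mod_cast hy
      have h2 := Real.log_le_log hyR this
      rw [Real.log_pow, ← hL] at h2
      exact_mod_cast h2
    have h2 : ((min n ⌊lam / (25 * L)⌋₊ : ℕ) : ℝ) ≤ lam / (25 * L) := by
      refine le_trans ?_ (Nat.floor_le (by positivity))
      exact_mod_cast min_le_right _ _
    have h3 : ((min n ⌊lam / (25 * L)⌋₊ : ℕ) : ℝ) * Real.log y ≤ lam / 5 := by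
      calc ((min n ⌊lam / (25 * L)⌋₊ : ℕ) : ℝ) * Real.log y ≤ (lam / (25 * L)) * (5 * L) := by
            apply mul_le_mul h2 h1 _ (by positivity)
            apply Real.log_nonneg
            have : (n:ℝ) ≤ y := by exact_mod_cast hy0
            linarith
        _ = lam / 5 := by field_simp; ring
    have h4 := Real.log_two_lt_d9
    nlinarith
  · have hlog2 := Real.log_two_gt_d9
    rw [Nat.cast_min]
    have h2 : lam / (30 * L) ≤ (⌊lam / (25 * L)⌋₊ : ℝ) := by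
      have h3 := Nat.lt_floor_add_one (lam / (25 * L))
      have h4 : lam / (30 * L) + 1 ≤ lam / (25 * L) := by
        have e : lam / (25 * L) - lam / (30 * L) = lam / (150 * L) := by field_simp; ring
        have : 1 ≤ lam / (150 * L) := by
          rw [le_div_iff₀ (by positivity)]
          linarith
        linarith
      linarith
    have hmin : min (n:ℝ) (lam / (30 * L)) ≤ min (n:ℝ) (⌊lam / (25 * L)⌋₊ : ℝ) :=
      min_le_min_left _ h2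
    have h5 : 1 / 40 * min (n : ℝ) (lam / (6 * L)) ≤ (1 / 2) * min (n:ℝ) (lam / (30 * L)) := by
      rcases min_choice (n:ℝ) (lam / (30 * L)) with h | h
      · rw [h]
        have := min_le_left (n:ℝ) (lam / (6 * L))
        linarith
      · rw [h]
        have h6 := min_le_right (n:ℝ) (lam / (6 * L))
        have e : lam / (6 * L) = 5 * (lam / (30 * L)) := by field_simp; ring
        have : 0 < lam / (30 * L) := by positivity
        rw [e] at h6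
        have h7 : min (n : ℝ) (lam / (6 * L)) ≤ 5 * (lam / (30 * L)) := by rw [e]; exact h6
        linarith
    have h6 : 0 ≤ min (n:ℝ) (⌊lam / (25 * L)⌋₊ : ℝ) := by positivity
    nlinarith

end A2M

open A2M Filter Topology

theorem a2mid_proof : ArchLemma → PZCount → A2midComb → A2mid := by
  rintro hA ⟨n2, hP⟩ hC
  obtain ⟨n3, hT⟩ := TT_ge_log
  obtain ⟨n5, h5⟩ := eventually_atTop.1 (A1M.ev_small 8 1)
  obtain ⟨n6, h6⟩ := eventually_atTop.1 (A1M.ev_log 10)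
  refine ⟨max n2 (max n3 (max n5 (max n6 2))), ?_⟩
  intro n hn B H hq1 hq2
  simp only [ge_iff_le, max_le_iff] at hn
  obtain ⟨hn2, hn3, hn5, hn6, hn7⟩ := hn
  have hn0 : 1 ≤ n := by omega
  have hnR : (2:ℝ) ≤ n := by exact_mod_cast hn7
  have hqR : (1:ℝ) ≤ H := one_le_pow2000 hn7 hq1
  have hL10 : 10 ≤ Real.log n := h6 n hn6
  have hLn : Real.log n ≤ n := by
    have := Real.log_le_sub_one_of_pos (show (0:ℝ) < n by linarith)
    linarith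
  have hlam1 := A2M.lam_lo hn7 hq1
  have hqn := A2M.hQn hn7 hq1
  clear hq1
  have hlam2 := A1M.lam_hi (by linarith) hq2
  have hQb := A1M.qbound hqR hq2
  clear hq2
  obtain ⟨hPZ0, hPZ⟩ := A1M.pz_real hn0 (hP n hn2)
  have hPZ1 : 1 ≤ (PZ n).card := by
    have : 0 < (PZ n).card := Nat.cast_pos.1 hPZ0
    omega
  obtain ⟨k, hkn, hk1, hk2⟩ := kbound hn7 B.y_lo B.y_hi rfl hL10 hqR rfl hlam1
  have hsm := hA n B k (H ^ (1 / 4 : ℝ)) hkn hk1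
  have hsmR : ((smallD B (H ^ (1 / 4 : ℝ))).card : ℝ) ≤ (1 / 2 ^ k) * 4 ^ n := by
    have h7 : (2:ℝ) ^ k * ((smallD B (H ^ (1 / 4 : ℝ))).card : ℝ) ≤ 4 ^ n := by exact_mod_cast hsm
    rw [div_mul_eq_mul_div, one_mul, le_div_iff₀ (by positivity)]
    linarith
  have hTT : (TT n : ℝ) ≤ 10 * n := by exact_mod_cast TT_le hn0
  have hDD : ((2:ℝ)) ^ TT n ≤ (n:ℝ) ^ 10 := by exact_mod_cast two_pow_TT hn0
  have hTlog := hT n hn3
  have hTT0 : (0:ℝ) ≤ (TT n : ℝ) := Nat.cast_nonneg _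
  have h4T : 4 * (TT n : ℝ) * 2 ^ TT n * H ^ (1 / 4 : ℝ) ≤ H := by
    have hDD0 : (0:ℝ) ≤ (2:ℝ) ^ TT n := by positivity
    generalize (2:ℝ) ^ TT n = D at hDD hDD0 ⊢
    generalize (TT n : ℝ) = Tr at hTT hTT0 ⊢
    have e1 : H = H ^ (3 / 4 : ℝ) * H ^ (1 / 4 : ℝ) := by
      rw [← Real.rpow_add (by linarith)]
      norm_num
    have h14 : 0 < H ^ (1 / 4 : ℝ) := Real.rpow_pos_of_pos (by linarith) _
    have e2 : 4 * Tr * D ≤ H ^ (3 / 4 : ℝ) := by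
      have e5 : (n:ℝ) ^ 38 ≤ H ^ (3 / 4 : ℝ) :=
        hqn.trans (Real.rpow_le_rpow_of_exponent_le hqR (by norm_num))
      have e6 : 4 * Tr * D ≤ 40 * (n:ℝ) ^ 11 := by
        calc 4 * Tr * D ≤ 4 * (10 * n) * (n:ℝ) ^ 10 := by gcongr
          _ = 40 * (n:ℝ) ^ 11 := by ring
      have e7 : 40 * (n:ℝ) ^ 11 ≤ (n:ℝ) ^ 38 := by
        have : (2:ℝ) ^ 27 ≤ (n:ℝ) ^ 27 := by gcongr
        have h12 : (0:ℝ) < (n:ℝ) ^ 11 := by positivity
        have e8 : (n:ℝ) ^ 38 = (n:ℝ) ^ 27 * (n:ℝ) ^ 11 := by ring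
        rw [e8]
        norm_num at this
        nlinarith
      linarith
    calc 4 * Tr * D * H ^ (1 / 4 : ℝ) ≤ H ^ (3 / 4 : ℝ) * H ^ (1 / 4 : ℝ) := by gcongr
      _ = H := e1.symm
  have hmain := hC n B H (1 / 2 ^ k) hqR hPZ1 h4T hsmR
  generalize hPg : ((PZ n).card : ℝ) = P at *
  have hpbT : (1 / (2:ℝ) ^ k) ^ TT n * H ^ (1 / 1000 : ℝ) ≤ 1 / 4 := by
    have e1 : (1 / (2:ℝ) ^ k) ^ TT n ≤
        Real.exp (-(1 / 40 * min (n : ℝ) (Real.log H / (6 * Real.log n))) * TT n) := by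
      have e3 : (1 / (2:ℝ) ^ k) = Real.exp (-(k * Real.log 2)) := by
        rw [Real.exp_neg, mul_comm, Real.exp_mul, Real.exp_log (by norm_num), Real.rpow_natCast,
          one_div]
      rw [e3, ← Real.exp_nat_mul]
      apply Real.exp_le_exp.2
      generalize (TT n : ℝ) = Tr at hTT0 ⊢
      nlinarith
    have e2 : H ^ (1 / 1000 : ℝ) = Real.exp (Real.log H / 1000) := by
      rw [Real.rpow_def_of_pos (by linarith)]
      congr 1
      ring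
    have e4 := A1M.exp_term hTlog hL10 hLn hlam1 hlam2 rfl
    rw [e2]
    exact (mul_le_mul_of_nonneg_right e1 (Real.exp_pos _).le).trans e4
  have hnum := A2M.numeric (n := n) (P := P) (Tr := (TT n : ℝ)) (Q := H) (D := (2:ℝ) ^ TT n)
    (pbT := (1 / (2:ℝ) ^ k) ^ TT n)
    hn7 hPZ0 hPZ hTT0 hTT (by positivity) hDD hqR hQb hqn (h5 n hn5) hpbT
  refine hmain.trans ?_
  have hP0' : 0 ≤ P := hPZ0.le
  exact mul_le_mul_of_nonneg_right (mul_le_mul_of_nonneg_right hnum (by positivity)) (by positivity)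

end Crest.Agent.R19
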