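import Crest.Agent.R19.FibCount

/-! Row 19, task A2MC. -/

set_option autoImplicit false

open Finset Classical

namespace Crest.Agent.R19

namespace A2MC

open FibCount

theorem fiber_bound {n : ℕ} (B : Base n) (H : ℝ) (hH : 1 ≤ H)
    (hH2 : 4 * TT n * 2 ^ TT n * H ^ (1 / 4 : ℝ) ≤ H)
    (d : Fin (TT n) → Cube n × Cube n) (u : Fin (TT n)) (hu : d u ∉ smallD B (H ^ (1 / 4 : ℝ)))
    (P : Fin (TT n) → PZ n) :
    ((univ.filter (fun a : PZ n => H * |(nu B (Function.update P u a, d) : ℝ)| ≤ XX B)).card : ℝ) ≤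
        8 * TT n * 2 ^ TT n * 2 ^ n / H ^ (3 / 4 : ℝ) + 1 := by
  obtain ⟨R, hR⟩ := nu_update B P d u
  set M0 : ℤ := ∏ v ∈ univ.erase u, ((P v : ℕ) : ℤ) with hM0
  set w : ℤ := B.dw (d u) with hw
  have hT1 : 1 ≤ TT n := by have := u.2; omega
  have hn1 : 1 ≤ n := by
    by_contra h
    have : n = 0 := by omega
    subst this
    simp [TT] at hT1
  have hy : (0 : ℝ) < B.y := by exact_mod_cast B.y_pos hn1
  have hH0 : (0 : ℝ) < H := by linarith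
  set h4 : ℝ := H ^ (1 / 4 : ℝ) with hh4
  have hh4pos : 0 < h4 := Real.rpow_pos_of_pos hH0 _
  have hwlo : (B.y : ℝ) ^ n ≤ h4 * |(w : ℝ)| := by
    have h := hu
    unfold smallD at h
    rw [Finset.mem_filter] at h
    push Not at h
    exact h (Finset.mem_univ _)
  set W0 : ℝ := (2 ^ n : ℝ) ^ (TT n - 1) * (B.y : ℝ) ^ n with hW0
  have hW0pos : 0 < W0 := by positivity
  have hM0lo : (2 ^ n : ℝ) ^ (TT n - 1) ≤ |(M0 : ℝ)| := by
    have h1 : (2 ^ n : ℝ) ^ (TT n - 1) ≤ (M0 : ℝ) := by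
      rw [hM0]
      push_cast
      have h2 : (univ.erase u : Finset (Fin (TT n))).card = TT n - 1 := by
        rw [Finset.card_erase_of_mem (Finset.mem_univ u), Finset.card_univ, Fintype.card_fin]
      rw [← h2, ← Finset.prod_const]
      refine Finset.prod_le_prod (fun _ _ => by positivity) (fun v _ => ?_)
      exact_mod_cast (PZ_lo (P v)).le
    exact h1.trans (le_abs_self _)
  have hMw : W0 ≤ h4 * |(M0 : ℝ) * w| := by
    rw [abs_mul, hW0]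
    calc (2 ^ n : ℝ) ^ (TT n - 1) * (B.y : ℝ) ^ n ≤ |(M0 : ℝ)| * (h4 * |(w : ℝ)|) := by gcongr
      _ = _ := by ring
  have hX : (XX B : ℝ) = TT n * 2 ^ TT n * W0 := by
    unfold XX
    push_cast
    rw [hW0, pow_succ (2 : ℝ) n, mul_pow]
    have : (2 : ℝ) ^ TT n = 2 ^ (TT n - 1) * 2 := by
      rw [← pow_succ]; congr 1; omega
    rw [this]
    ring
  have hXH : 4 * (XX B : ℝ) * h4 ≤ H * W0 := by
    rw [hX]
    calc 4 * (TT n * 2 ^ TT n * W0) * h4 = (4 * TT n * 2 ^ TT n * h4) * W0 := by ring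
      _ ≤ H * W0 := by gcongr
  -- lower bound for |R| given a solution
  set F := (univ.filter (fun a : PZ n => H * |(nu B (Function.update P u a, d) : ℝ)| ≤ XX B)) with hF
  have hmemF : ∀ a ∈ F, H * |((a : ℕ) : ℝ) * (R : ℝ) + (M0 : ℝ) * w| ≤ XX B := by
    intro a ha
    rw [hF, Finset.mem_filter] at ha
    have h1 := ha.2
    rw [hR] at h1
    push_cast at h1
    exact h1
  have hRlo : ∀ a ∈ F, 3 * W0 ≤ 8 * 2 ^ n * h4 * |(R : ℝ)| := by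
    intro a ha
    have h1 := hmemF a ha
    have h2 : |(M0 : ℝ) * w| ≤ |((a : ℕ) : ℝ) * (R : ℝ) + (M0 : ℝ) * w| + ((a : ℕ) : ℝ) * |(R : ℝ)| := by
      have h3 : (M0 : ℝ) * w = (((a : ℕ) : ℝ) * (R : ℝ) + (M0 : ℝ) * w) - ((a : ℕ) : ℝ) * (R : ℝ) := by
        ring
      calc |(M0 : ℝ) * w| = |(((a : ℕ) : ℝ) * (R : ℝ) + (M0 : ℝ) * w) - ((a : ℕ) : ℝ) * (R : ℝ)| := by
            rw [← h3]
        _ ≤ _ := abs_sub _ _
        _ = _ := by rw [abs_mul ((a : ℕ) : ℝ), abs_of_nonneg (by positivity : (0 : ℝ) ≤ ((a : ℕ) : ℝ))]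
    have ha2 : ((a : ℕ) : ℝ) ≤ 2 * 2 ^ n := by
      have := PZ_hi a
      have h5 : ((a : ℕ) : ℝ) ≤ ((2 ^ (n + 1) : ℕ) : ℝ) := by exact_mod_cast this
      push_cast at h5
      rw [pow_succ] at h5
      linarith
    -- H W0 ≤ H h4 |M0 w| ≤ h4 (X + H a |R|)
    have h6 : H * W0 ≤ h4 * (XX B : ℝ) + H * (h4 * (2 * 2 ^ n * |(R : ℝ)|)) := by
      calc H * W0 ≤ H * (h4 * |(M0 : ℝ) * w|) := by gcongr
        _ ≤ H * (h4 * (|((a : ℕ) : ℝ) * (R : ℝ) + (M0 : ℝ) * w| + ((a : ℕ) : ℝ) * |(R : ℝ)|)) := by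
            gcongr
        _ = h4 * (H * |((a : ℕ) : ℝ) * (R : ℝ) + (M0 : ℝ) * w|) + H * (h4 * (((a : ℕ) : ℝ) * |(R : ℝ)|)) := by
            ring
        _ ≤ _ := by gcongr
    have h7 : 3 * (H * W0) ≤ H * (8 * 2 ^ n * h4 * |(R : ℝ)|) := by nlinarith
    have h8 : H * (3 * W0) ≤ H * (8 * 2 ^ n * h4 * |(R : ℝ)|) := by linarith
    exact le_of_mul_le_mul_left h8 hH0
  have hcard : F.card = (F.image (fun a : PZ n => (a : ℕ))).card :=
    (Finset.card_image_of_injective _ Subtype.val_injective).symm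
  rw [hcard]
  refine card_le_of_diff _ _ (by positivity) ?_
  intro a ha b hb
  obtain ⟨a', ha', rfl⟩ := Finset.mem_image.mp ha
  obtain ⟨b', hb', rfl⟩ := Finset.mem_image.mp hb
  have h1 := hmemF a' ha'
  have h2 := hmemF b' hb'
  have h3 := hRlo a' ha'
  have h5 : H * (|((a' : ℕ) : ℝ) - ((b' : ℕ) : ℝ)| * |(R : ℝ)|) ≤ 2 * XX B := by
    rw [← abs_mul]
    have h6 : (((a' : ℕ) : ℝ) - ((b' : ℕ) : ℝ)) * (R : ℝ) =
        (((a' : ℕ) : ℝ) * (R : ℝ) + (M0 : ℝ) * w) - (((b' : ℕ) : ℝ) * (R : ℝ) + (M0 : ℝ) * w) := by ring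
    rw [h6]
    calc H * |(((a' : ℕ) : ℝ) * (R : ℝ) + (M0 : ℝ) * w) - (((b' : ℕ) : ℝ) * (R : ℝ) + (M0 : ℝ) * w)|
        ≤ H * (|((a' : ℕ) : ℝ) * (R : ℝ) + (M0 : ℝ) * w| + |((b' : ℕ) : ℝ) * (R : ℝ) + (M0 : ℝ) * w|) := by
          gcongr
          exact abs_sub _ _
      _ ≤ _ := by linarith
  set D := |((a' : ℕ) : ℝ) - ((b' : ℕ) : ℝ)| with hD
  have hD0 : 0 ≤ D := abs_nonneg _
  have hDle : ((a' : ℕ) : ℝ) - ((b' : ℕ) : ℝ) ≤ D := le_abs_self _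
  refine hDle.trans ?_
  -- 3 W0 D H ≤ 8 2^n h4 |R| D H ≤ 8 2^n h4 2 X = 16 2^n h4 T 2^T W0
  have h6 : 3 * W0 * (D * H) ≤ 16 * 2 ^ n * h4 * (TT n * 2 ^ TT n * W0) := by
    calc 3 * W0 * (D * H) ≤ (8 * 2 ^ n * h4 * |(R : ℝ)|) * (D * H) := by gcongr
      _ = 8 * 2 ^ n * h4 * (H * (D * |(R : ℝ)|)) := by ring
      _ ≤ 8 * 2 ^ n * h4 * (2 * XX B) := by gcongr
      _ = _ := by rw [hX]; ring
  have h7 : 3 * (D * H) ≤ 16 * 2 ^ n * h4 * (TT n * 2 ^ TT n) := by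
    have h8 : (3 * (D * H)) * W0 ≤ (16 * 2 ^ n * h4 * (TT n * 2 ^ TT n)) * W0 := by linarith
    exact le_of_mul_le_mul_right h8 hW0pos
  have hsplit : h4 * H ^ (3 / 4 : ℝ) = H := by
    rw [hh4, ← Real.rpow_add hH0]
    norm_num
  have h34 : 0 < H ^ (3 / 4 : ℝ) := Real.rpow_pos_of_pos hH0 _
  rw [le_div_iff₀ h34]
  have h9 : 3 * (D * H ^ (3 / 4 : ℝ)) ≤ 16 * 2 ^ n * (TT n * 2 ^ TT n) := by
    have h10 : (3 * (D * H ^ (3 / 4 : ℝ))) * h4 ≤ (16 * 2 ^ n * (TT n * 2 ^ TT n)) * h4 := by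
      calc (3 * (D * H ^ (3 / 4 : ℝ))) * h4 = 3 * (D * (h4 * H ^ (3 / 4 : ℝ))) := by ring
        _ = 3 * (D * H) := by rw [hsplit]
        _ ≤ _ := h7
        _ = _ := by ring
    exact le_of_mul_le_mul_right h10 hh4pos
  have h11 : 0 ≤ (2 : ℝ) ^ n * (TT n * 2 ^ TT n) := by positivity
  nlinarith

end A2MC

open FibCount A2MC in
theorem a2midComb_proof : A2midComb := by
  intro n B H pb hH hPZ hH2 hbad
  have hne : Nonempty (PZ n) := by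
    obtain ⟨x, hx⟩ := Finset.card_pos.mp (by omega : 0 < (PZ n).card)
    exact ⟨⟨x, hx⟩⟩
  have hcα : Fintype.card (PZ n) = (PZ n).card := by simp
  have hα : (0 : ℝ) < (PZ n).card := by exact_mod_cast hPZ
  have hH0 : (0 : ℝ) < H := by linarith
  have h34 : 0 < H ^ (3 / 4 : ℝ) := Real.rpow_pos_of_pos hH0 _
  set T := TT n with hT
  set M : ℝ := 8 * T * 2 ^ T * 2 ^ n / H ^ (3 / 4 : ℝ) + 1 with hM
  have hM0 : 0 ≤ M := by positivity
  have h2 := card_fiber (smallD B (H ^ (1 / 4 : ℝ)))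
    (fun c : Conf n => H * |(nu B c : ℝ)| ≤ XX B) M hM0
    (fun d u hu P => by
      have := fiber_bound B H hH hH2 d u hu P
      convert this)
  rw [hcα, Fintype.card_fin, FibCount.card_pair] at h2
  have h8 : ((smallD B (H ^ (1 / 4 : ℝ))).card : ℝ) ^ T ≤ pb ^ T * 4 ^ (n * T) := by
    calc ((smallD B (H ^ (1 / 4 : ℝ))).card : ℝ) ^ T ≤ (pb * 4 ^ n) ^ T := by gcongr
      _ = pb ^ T * 4 ^ (n * T) := by rw [mul_pow, ← pow_mul]
  have h9 : ((4 ^ n : ℕ) : ℝ) ^ T = 4 ^ (n * T) := by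
    push_cast
    rw [← pow_mul]
  rw [h9] at h2
  have h2' : ((univ.filter (fun c : Conf n => H * |(nu B c : ℝ)| ≤ XX B)).card : ℝ) ≤
      ((PZ n).card : ℝ) ^ T * ((smallD B (H ^ (1 / 4 : ℝ))).card : ℝ) ^ T +
          ((PZ n).card : ℝ) ^ T * 4 ^ (n * T) * (M / (PZ n).card) := by convert h2
  calc ((univ.filter (fun c : Conf n => H * |(nu B c : ℝ)| ≤ XX B)).card : ℝ) ≤ _ := h2'
    _ ≤ ((PZ n).card : ℝ) ^ T * (pb ^ T * 4 ^ (n * T)) +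
          ((PZ n).card : ℝ) ^ T * 4 ^ (n * T) * (M / (PZ n).card) := by
        gcongr
    _ = _ := by ring

end Crest.Agent.R19
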