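import Crest.Agent.R19.Basics

/-!
# Row 19, task ARCH : the differences `w ε - w ε'` are rarely small
-/

set_option autoImplicit false

open Finset Classical

namespace Crest.Agent.R19.ARCH

lemma prod_ne {n : ℕ} (B : Base n) (J : Finset (Fin n)) (e1 e2 : Cube n) (j : Fin n) (hj : j ∈ J)
    (hne : e1 j ≠ e2 j) : ∏ i ∈ J, B.p i (e1 i) ≠ ∏ i ∈ J, B.p i (e2 i) := by
  intro h
  have h1 : B.p j (e1 j) ∣ ∏ i ∈ J, B.p i (e2 i) := by
    rw [← h]; exact Finset.dvd_prod_of_mem (fun i => B.p i (e1 i)) hj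
  obtain ⟨i, hi, hdvd⟩ := ((B.prime j (e1 j)).prime.dvd_finset_prod_iff _).1 h1
  have h2 : B.p j (e1 j) = B.p i (e2 i) :=
    (Nat.prime_dvd_prime_iff_eq (B.prime _ _) (B.prime _ _)).1 hdvd
  obtain ⟨h3, h4⟩ := B.inj _ _ _ _ h2
  subst h3
  exact hne h4

/-- if two points agree off `J` and are different, `w` differs by at least `y^(n-|J|)`. -/
lemma diff_ge {n : ℕ} (B : Base n) (J : Finset (Fin n)) (e1 e2 : Cube n)
    (hoff : ∀ j, j ∉ J → e1 j = e2 j) (hne : e1 ≠ e2) :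
    (B.y : ℝ) ^ (n - J.card) ≤ |(B.w e1 : ℝ) - (B.w e2 : ℝ)| := by
  obtain ⟨j, hj⟩ : ∃ j, e1 j ≠ e2 j := by
    by_contra hcon
    push Not at hcon
    exact hne (funext hcon)
  have hjJ : j ∈ J := by
    by_contra h
    exact hj (hoff j h)
  set a1 := ∏ i ∈ J, B.p i (e1 i) with ha1
  set a2 := ∏ i ∈ J, B.p i (e2 i) with ha2
  have hane : a1 ≠ a2 := prod_ne B J e1 e2 j hjJ hj
  set c := ∏ i ∈ Jᶜ, B.p i (e1 i) with hc
  have hc2 : ∏ i ∈ Jᶜ, B.p i (e2 i) = c :=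
    Finset.prod_congr rfl (fun i hi => by rw [hoff i (mem_compl.1 hi)])
  have hw1 : B.w e1 = a1 * c := by
    unfold Base.w; rw [ha1, hc, Finset.prod_mul_prod_compl]
  have hw2 : B.w e2 = a2 * c := by
    unfold Base.w; rw [ha2, ← hc2, Finset.prod_mul_prod_compl]
  have hclo : B.y ^ (n - J.card) ≤ c := by
    calc B.y ^ (n - J.card) = ∏ _i ∈ Jᶜ, B.y := by
          rw [prod_const, card_compl, Fintype.card_fin]
      _ ≤ c := Finset.prod_le_prod' (fun i _ => B.lo _ _)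
  have hclo' : (B.y : ℝ) ^ (n - J.card) ≤ (c : ℝ) := by exact_mod_cast hclo
  have h1 : (1 : ℝ) ≤ |(a1 : ℝ) - (a2 : ℝ)| := by
    have h2 : (1 : ℤ) ≤ |(a1 : ℤ) - (a2 : ℤ)| := by
      apply Int.one_le_abs
      intro h
      apply hane
      omega
    have h3 : ((1 : ℤ) : ℝ) ≤ ((|(a1 : ℤ) - (a2 : ℤ)| : ℤ) : ℝ) := by exact_mod_cast h2
    push_cast at h3
    exact h3
  rw [hw1, hw2]
  push_cast
  rw [← sub_mul, abs_mul, abs_of_nonneg (Nat.cast_nonneg c : (0 : ℝ) ≤ c)]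
  calc (B.y : ℝ) ^ (n - J.card) ≤ 1 * c := by rw [one_mul]; exact hclo'
    _ ≤ |(a1 : ℝ) - (a2 : ℝ)| * c := by gcongr

end Crest.Agent.R19.ARCH

namespace Crest.Agent.R19

open ARCH

theorem archLemma_proof : ArchLemma := by
  intro n B k η hk hη
  obtain ⟨J, -, hJ⟩ := Finset.exists_subset_card_eq
    (show k ≤ (univ : Finset (Fin n)).card by rw [card_univ, Fintype.card_fin]; exact hk)
  rcases Nat.eq_zero_or_pos n with hn | hn
  · subst hn
    have hk0 : k = 0 := by omega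
    subst hk0
    rw [pow_zero, one_mul, ← card_cube2 (n := 0)]
    exact card_le_univ _
  have hy : 1 ≤ B.y := B.y_pos hn
  have hy' : (1 : ℝ) ≤ B.y := by exact_mod_cast hy
  have hηpos : 0 < η := lt_of_lt_of_le (by positivity) hη
  have hcard : (smallD B η).card ≤ 2 ^ n * 2 ^ (n - k) := by
    have h1 : (smallD B η).card ≤ (univ : Finset (Cube n × (↥(Jᶜ) → Bool))).card := by
      refine Finset.card_le_card_of_injOn (fun e => (e.2, fun j => e.1 j)) (fun _ _ => mem_univ _) ?_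
      rintro ⟨a, b⟩ ha ⟨a', b'⟩ ha' heq
      simp only [Prod.mk.injEq] at heq
      obtain ⟨hb, hoff⟩ := heq
      subst hb
      have hoff' : ∀ j, j ∉ J → a j = a' j := fun j hj => congrFun hoff ⟨j, mem_compl.2 hj⟩
      by_contra hne
      have hne' : a ≠ a' := fun h => hne (by rw [h])
      have h2 := diff_ge B J a a' hoff' hne'
      rw [hJ] at h2
      have h3 : η * |((B.dw (a, b) : ℤ) : ℝ)| < (B.y : ℝ) ^ n := (mem_filter.1 (mem_coe.1 ha)).2
      have h4 : η * |((B.dw (a', b) : ℤ) : ℝ)| < (B.y : ℝ) ^ n := (mem_filter.1 (mem_coe.1 ha')).2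
      unfold Base.dw at h3 h4
      push_cast at h3 h4
      have h5 : |(B.w a : ℝ) - (B.w a' : ℝ)| ≤ |(B.w a : ℝ) - B.w b| + |(B.w a' : ℝ) - B.w b| := by
        have := abs_sub_le (B.w a : ℝ) (B.w b : ℝ) (B.w a' : ℝ)
        rwa [abs_sub_comm (B.w b : ℝ) (B.w a' : ℝ)] at this
      have h6 : η * (B.y : ℝ) ^ (n - k) < 2 * (B.y : ℝ) ^ n := by
        calc η * (B.y : ℝ) ^ (n - k) ≤ η * (|(B.w a : ℝ) - B.w b| + |(B.w a' : ℝ) - B.w b|) := by
              gcongr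
              exact h2.trans h5
          _ < 2 * (B.y : ℝ) ^ n := by linarith
      have h7 : 2 * (B.y : ℝ) ^ n = 2 * (B.y : ℝ) ^ k * (B.y : ℝ) ^ (n - k) := by
        rw [mul_assoc, ← pow_add, Nat.add_sub_cancel' hk]
      have h8 : 2 * (B.y : ℝ) ^ k * (B.y : ℝ) ^ (n - k) ≤ η * (B.y : ℝ) ^ (n - k) := by gcongr
      linarith
    refine h1.trans (le_of_eq ?_)
    rw [card_univ, Fintype.card_prod, Fintype.card_fun, Fintype.card_fun, Fintype.card_bool,
      Fintype.card_fin, Fintype.card_coe, card_compl, Fintype.card_fin, hJ]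
  calc 2 ^ k * (smallD B η).card ≤ 2 ^ k * (2 ^ n * 2 ^ (n - k)) := Nat.mul_le_mul_left _ hcard
    _ = 2 ^ n * 2 ^ (k + (n - k)) := by rw [pow_add]; ring
    _ = 4 ^ n := by
        rw [Nat.add_sub_cancel' hk, ← mul_pow]
        norm_num

end Crest.Agent.R19
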