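import Crest.Agent.R19.Defs

set_option autoImplicit false

open Finset Classical

namespace Crest.Agent.R19

namespace POSW

theorem ex_add (x y : ℝ) : ex (x + y) = ex x * ex y := by
  unfold ex
  rw [← Complex.exp_add]
  congr 1
  push_cast
  ring

theorem ex_int (k : ℤ) : ex (k : ℝ) = 1 := by
  unfold ex
  have h : (2 * (Real.pi : ℂ) * ((k : ℝ) : ℂ) * Complex.I) = (k : ℂ) * (2 * Real.pi * Complex.I) := by
    push_cast; ring
  rw [h]
  exact Complex.exp_int_mul_two_pi_mul_I k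

theorem norm_ex (x : ℝ) : ‖ex x‖ = 1 := by
  unfold ex
  have h : (2 * (Real.pi : ℂ) * (x : ℂ) * Complex.I) = ((2 * Real.pi * x : ℝ) : ℂ) * Complex.I := by
    push_cast; ring
  rw [h]
  exact Complex.norm_exp_ofReal_mul_I _

theorem ex_sub_one (x : ℝ) : ‖ex x - 1‖ ≤ 2 * Real.pi * |x| := by
  unfold ex
  have h : (2 * (Real.pi : ℂ) * (x : ℂ) * Complex.I) = Complex.I * ((2 * Real.pi * x : ℝ) : ℂ) := by
    push_cast; ring
  rw [h]
  have h1 := Real.norm_exp_I_mul_ofReal_sub_one_le (x := 2 * Real.pi * x)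
  refine le_trans h1 (le_of_eq ?_)
  rw [Real.norm_eq_abs, abs_mul, abs_of_pos (by positivity : (0 : ℝ) < 2 * Real.pi)]

theorem ex_sub (x y : ℝ) : ‖ex x - ex y‖ ≤ 2 * Real.pi * |x - y| := by
  have h : ex x - ex y = ex y * (ex (x - y) - 1) := by
    rw [mul_sub, ← ex_add]
    congr 2
    · ring
    · ring
  rw [h, norm_mul, norm_ex, one_mul]
  exact ex_sub_one _

theorem ex_nsmul (x : ℝ) (t : ℕ) : ex (t * x) = ex x ^ t := by
  unfold ex
  rw [← Complex.exp_nat_mul]
  congr 1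
  push_cast
  ring

theorem ex_eq_one {x : ℝ} (h : ex x = 1) : ∃ k : ℤ, x = k := by
  unfold ex at h
  rw [Complex.exp_eq_one_iff] at h
  obtain ⟨k, hk⟩ := h
  refine ⟨k, ?_⟩
  have h1 : (x : ℂ) = k := by
    have h2 : (2 * (Real.pi : ℂ) * Complex.I) ≠ 0 := by
      simp [Real.pi_ne_zero]
    have h3 : (x : ℂ) * (2 * (Real.pi : ℂ) * Complex.I) = k * (2 * (Real.pi : ℂ) * Complex.I) := by
      rw [← hk]; ring
    exact mul_right_cancel₀ h2 h3
  exact_mod_cast h1

/-- orthogonality -/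
theorem orth (R : ℕ) (hR : 0 < R) (k : ℤ) :
    ∑ t ∈ Finset.range R, ex ((t : ℝ) / R * k) = if (R : ℤ) ∣ k then (R : ℂ) else 0 := by
  have hR' : (R : ℝ) ≠ 0 := by positivity
  have h1 : ∀ t ∈ Finset.range R, ex ((t : ℝ) / R * k) = ex ((k : ℝ) / R) ^ t := by
    intro t _
    rw [← ex_nsmul]
    congr 1
    ring
  rw [Finset.sum_congr rfl h1]
  split_ifs with hd
  · obtain ⟨m, rfl⟩ := hd
    have h2 : (((R : ℤ) * m : ℤ) : ℝ) / R = (m : ℤ) := by
      push_cast
      field_simp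
    rw [h2, ex_int]
    simp
  · have hne : ex ((k : ℝ) / R) ≠ 1 := by
      intro h
      obtain ⟨m, hm⟩ := ex_eq_one h
      apply hd
      refine ⟨m, ?_⟩
      rw [div_eq_iff hR'] at hm
      have : (k : ℝ) = ((R : ℤ) * m : ℤ) := by push_cast; rw [hm]; ring
      exact_mod_cast this
    have h2 : ex ((k : ℝ) / R) ^ R = 1 := by
      rw [← ex_nsmul]
      have : (R : ℝ) * ((k : ℝ) / R) = (k : ℤ) := by field_simp
      rw [this, ex_int]
    rw [geom_sum_eq hne, h2]
    simp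

theorem card_interval (S : Finset ℕ) (x ρ : ℝ) (hρ : 0 ≤ ρ)
    (hS : ∀ t ∈ S, x ≤ (t : ℝ) ∧ (t : ℝ) ≤ x + ρ) : (S.card : ℝ) ≤ ρ + 1 := by
  have h1 : S.map Nat.castEmbedding ⊆ Finset.Icc (⌈x⌉ : ℤ) ⌊x + ρ⌋ := by
    intro z hz
    rw [Finset.mem_map] at hz
    obtain ⟨t, ht, rfl⟩ := hz
    have h := hS t ht
    rw [Finset.mem_Icc]
    constructor
    · rw [Int.ceil_le]
      simp only [Nat.castEmbedding_apply, Int.cast_natCast]
      linarith
    · rw [Int.le_floor]
      simp only [Nat.castEmbedding_apply, Int.cast_natCast]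
      linarith
  have h2 := Finset.card_le_card h1
  rw [Finset.card_map, Int.card_Icc] at h2
  have h3 : ((⌊x + ρ⌋ + 1 - ⌈x⌉).toNat : ℝ) ≤ ρ + 1 := by
    have h4 : ((⌊x + ρ⌋ + 1 - ⌈x⌉ : ℤ) : ℝ) ≤ ρ + 1 := by
      push_cast
      have h5 := Int.floor_le (x + ρ)
      have h6 := Int.le_ceil x
      linarith
    rcases le_total 0 (⌊x + ρ⌋ + 1 - ⌈x⌉) with h7 | h7
    · have h8 : (((⌊x + ρ⌋ + 1 - ⌈x⌉).toNat : ℤ) : ℝ) =
          ((⌊x + ρ⌋ + 1 - ⌈x⌉ : ℤ) : ℝ) := by
        rw [Int.toNat_of_nonneg h7]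
      rw [Int.cast_natCast] at h8
      rw [h8]
      exact h4
    · rw [Int.toNat_of_nonpos h7]
      simp
      linarith
  calc (S.card : ℝ) ≤ ((⌊x + ρ⌋ + 1 - ⌈x⌉).toNat : ℝ) := by exact_mod_cast h2
    _ ≤ _ := h3

end POSW

open POSW in
theorem posWindow_proof : PosWindow := by
  intro Ω _ _ y R0 R l κ hκ hκ4 hy hRl hκR hcond hsum
  have hRpos : 0 < R := by omega
  have hR : (0 : ℝ) < R := by exact_mod_cast hRpos
  obtain ⟨ω0⟩ := (inferInstance : Nonempty Ω)
  have hR0pos : 0 < R0 := lt_of_le_of_lt (Nat.zero_le _) (hy ω0)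
  have hR0 : (0 : ℝ) < R0 := by exact_mod_cast hR0pos
  set c : ℕ := Fintype.card Ω with hc
  have hcpos : 0 < c := Fintype.card_pos
  have hc' : (0 : ℝ) < c := by exact_mod_cast hcpos
  -- counts
  set N : ℕ → ℕ := fun m => (univ.filter (fun ω => y ω = m)).card with hN
  have hNsum : ∑ m ∈ Finset.range R0, N m = c := by
    have h := Finset.card_eq_sum_card_fiberwise (s := (univ : Finset Ω)) (t := Finset.range R0)
      (f := y) (fun ω _ => by simpa using hy ω)
    rw [hc, ← Finset.card_univ, h]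
  obtain ⟨m₀, hm₀, hm₀N⟩ : ∃ m ∈ Finset.range R0, c ≤ R0 * N m := by
    by_contra hcon
    push Not at hcon
    have h1 : ∑ m ∈ Finset.range R0, R0 * N m < ∑ m ∈ Finset.range R0, c := by
      apply Finset.sum_lt_sum_of_nonempty
      · exact ⟨0, Finset.mem_range.mpr hR0pos⟩
      · intro m hm
        exact hcon m hm
    rw [← Finset.mul_sum, hNsum, Finset.sum_const, Finset.card_range, smul_eq_mul] at h1
    exact lt_irrefl _ h1
  rw [Finset.mem_range] at hm₀
  refine ⟨m₀, hm₀, ?_⟩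
  intro m hm1 hm2
  by_contra hne
  push Not at hne
  have hmR : m < R := by omega
  -- Fourier sum
  set S : ℕ → ℂ := fun t => ∑ ω, ex ((t : ℝ) / R * y ω) with hS
  have hSnorm : ∀ t, ‖S t‖ ≤ c := by
    intro t
    calc ‖S t‖ ≤ ∑ ω : Ω, ‖ex ((t : ℝ) / R * y ω)‖ := norm_sum_le _ _
      _ = c := by simp [norm_ex, hc]
  have hinv : ∀ a : ℕ, a < R → ∑ t ∈ Finset.range R, ex (-((t : ℝ) / R * a)) * S t = R * N a := by
    intro a ha
    have h1 : ∀ t ∈ Finset.range R, ex (-((t : ℝ) / R * a)) * S t =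
        ∑ ω, ex ((t : ℝ) / R * (((y ω : ℤ) - a : ℤ) : ℝ)) := by
      intro t _
      rw [hS]
      simp only
      rw [Finset.mul_sum]
      apply Finset.sum_congr rfl
      intro ω _
      rw [← ex_add]
      congr 1
      push_cast
      ring
    rw [Finset.sum_congr rfl h1, Finset.sum_comm]
    have h2 : ∀ ω ∈ (univ : Finset Ω), ∑ t ∈ Finset.range R, ex ((t : ℝ) / R * (((y ω : ℤ) - a : ℤ) : ℝ)) =
        if y ω = a then (R : ℂ) else 0 := by
      intro ω _
      rw [orth R hRpos]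
      have h3 : ((R : ℤ) ∣ ((y ω : ℤ) - a)) ↔ y ω = a := by
        constructor
        · intro hd
          have hyR : (y ω : ℤ) < R := by
            have := hy ω
            have : y ω < R := by omega
            exact_mod_cast this
          have haR : (a : ℤ) < R := by exact_mod_cast ha
          have h4 : ((y ω : ℤ) - a) = 0 := by
            apply Int.eq_zero_of_abs_lt_dvd hd
            rw [abs_lt]
            constructor <;> omega
          omega
        · intro h; subst h; simp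
      simp only [h3]
    rw [Finset.sum_congr rfl h2, ← Finset.sum_filter, Finset.sum_const, nsmul_eq_mul, mul_comm]
  have hNm : N m = 0 := by
    rw [hN]
    simp only
    rw [Finset.card_eq_zero, Finset.filter_eq_empty_iff]
    intro ω _
    exact hne ω
  have hdiff : ((R : ℂ) * N m₀) = ∑ t ∈ Finset.range R,
      (ex (-((t : ℝ) / R * m₀)) - ex (-((t : ℝ) / R * m))) * S t := by
    have h1 := hinv m₀ (by omega)
    have h2 := hinv m hmR
    rw [hNm] at h2
    simp only [sub_mul, Finset.sum_sub_distrib]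
    rw [h1, h2]
    simp
  -- split
  set Mi := (Finset.range R).filter (fun t : ℕ => ¬ ∃ k : ℤ, |(t : ℝ) / R - k| ≤ κ) with hMi
  set Ma := (Finset.range R).filter (fun t : ℕ => ∃ k : ℤ, |(t : ℝ) / R - k| ≤ κ) with hMa
  have hsplit : ∀ f : ℕ → ℝ, ∑ t ∈ Finset.range R, f t = ∑ t ∈ Ma, f t + ∑ t ∈ Mi, f t := by
    intro f
    rw [hMa, hMi, Finset.sum_filter_add_sum_filter_not]
  have hMacard : (Ma.card : ℝ) ≤ 4 * κ * R := by
    have hsub : Ma ⊆ (Ma.filter (fun t : ℕ => (0 : ℝ) ≤ (t : ℝ) ∧ (t : ℝ) ≤ 0 + κ * R)) ∪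
        (Ma.filter (fun t : ℕ => (R : ℝ) - κ * R ≤ (t : ℝ) ∧ (t : ℝ) ≤ (R - κ * R) + κ * R)) := by
      intro t ht
      have ht' := ht
      rw [hMa, Finset.mem_filter, Finset.mem_range] at ht'
      obtain ⟨htR, k, hk⟩ := ht'
      have ht0 : 0 ≤ (t : ℝ) / R := by positivity
      have htR' : (t : ℝ) < R := by exact_mod_cast htR
      have ht1 : (t : ℝ) / R < 1 := by
        rw [div_lt_one hR]; exact htR'
      rw [abs_le] at hk
      have hk0 : (-1 : ℤ) < k := by
        have : (-1 : ℝ) < k := by linarith [hk.2]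
        exact_mod_cast this
      have hk1 : k < 2 := by
        have : (k : ℝ) < 2 := by linarith [hk.1]
        exact_mod_cast this
      have hk2 : k = 0 ∨ k = 1 := by omega
      rcases hk2 with rfl | rfl
      · refine Finset.mem_union.mpr (Or.inl (Finset.mem_filter.mpr ⟨ht, by positivity, ?_⟩))
        have h1 := hk.2
        simp only [Int.cast_zero, sub_zero] at h1
        rw [div_le_iff₀ hR] at h1
        linarith
      · refine Finset.mem_union.mpr (Or.inr (Finset.mem_filter.mpr ⟨ht, ?_, ?_⟩))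
        · have h1 := hk.1
          simp only [Int.cast_one] at h1
          have h2 : 1 - κ ≤ (t : ℝ) / R := by linarith
          rw [le_div_iff₀ hR] at h2
          linarith
        · linarith
    have h1 := Finset.card_le_card hsub
    have h2 : (Ma.card : ℝ) ≤ (κ * R + 1) + (κ * R + 1) := by
      calc (Ma.card : ℝ) ≤ ((((Ma.filter (fun t : ℕ => (0 : ℝ) ≤ (t : ℝ) ∧ (t : ℝ) ≤ 0 + κ * R)) ∪
        (Ma.filter (fun t : ℕ => (R : ℝ) - κ * R ≤ (t : ℝ) ∧ (t : ℝ) ≤ (R - κ * R) + κ * R))).card : ℕ) : ℝ) := by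
            exact_mod_cast h1
        _ ≤ ((Ma.filter (fun t : ℕ => (0 : ℝ) ≤ (t : ℝ) ∧ (t : ℝ) ≤ 0 + κ * R)).card : ℝ) +
          ((Ma.filter (fun t : ℕ => (R : ℝ) - κ * R ≤ (t : ℝ) ∧ (t : ℝ) ≤ (R - κ * R) + κ * R)).card : ℝ) := by
            exact_mod_cast Finset.card_union_le _ _
        _ ≤ _ := by
            apply add_le_add
            · apply card_interval _ 0 (κ * R) (by positivity)
              intro t ht
              exact (Finset.mem_filter.mp ht).2
            · apply card_interval _ (R - κ * R) (κ * R) (by positivity)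
              intro t ht
              exact (Finset.mem_filter.mp ht).2
    linarith
  have hMabound : ∑ t ∈ Ma, ‖(ex (-((t : ℝ) / R * m₀)) - ex (-((t : ℝ) / R * m))) * S t‖ ≤
      (4 * κ * R) * (2 * Real.pi * (κ * l) * c) := by
    calc ∑ t ∈ Ma, ‖(ex (-((t : ℝ) / R * m₀)) - ex (-((t : ℝ) / R * m))) * S t‖
        ≤ ∑ t ∈ Ma, (2 * Real.pi * (κ * l) * c) := by
          apply Finset.sum_le_sum
          intro t ht
          rw [hMa, Finset.mem_filter] at ht
          obtain ⟨_, k, hk⟩ := ht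
          rw [norm_mul]
          apply mul_le_mul _ (hSnorm t) (norm_nonneg _) (by positivity)
          have e1 : ∀ a : ℕ, ex (-((t : ℝ) / R * a)) = ex (-(((t : ℝ) / R - k) * a)) := by
            intro a
            have : (-((t : ℝ) / R * a)) = (-(((t : ℝ) / R - k) * a)) + ((-(k * (a : ℤ)) : ℤ) : ℝ) := by
              push_cast; ring
            rw [this, ex_add, ex_int, mul_one]
          rw [e1 m₀, e1 m]
          refine le_trans (ex_sub _ _) ?_
          have h3 : |(-(((t : ℝ) / R - k) * m₀)) - (-(((t : ℝ) / R - k) * m))| ≤ κ * l := by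
            have h4 : (-(((t : ℝ) / R - k) * m₀)) - (-(((t : ℝ) / R - k) * m)) =
                ((t : ℝ) / R - k) * ((m : ℝ) - m₀) := by ring
            rw [h4, abs_mul]
            apply mul_le_mul hk _ (abs_nonneg _) hκ.le
            have h5 : (m₀ : ℝ) ≤ m := by exact_mod_cast hm1
            have h6 : (m : ℝ) ≤ m₀ + l := by exact_mod_cast hm2
            rw [abs_le]
            constructor <;> linarith
          have h7 : (0 : ℝ) ≤ 2 * Real.pi := by positivity
          exact mul_le_mul_of_nonneg_left h3 h7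
      _ = Ma.card * (2 * Real.pi * (κ * l) * c) := by
          rw [Finset.sum_const, nsmul_eq_mul]
      _ ≤ _ := by
          apply mul_le_mul_of_nonneg_right hMacard (by positivity)
  have hMibound : ∑ t ∈ Mi, ‖(ex (-((t : ℝ) / R * m₀)) - ex (-((t : ℝ) / R * m))) * S t‖ ≤
      2 * c * (R / (8 * R0)) := by
    have h1 : ∑ t ∈ Mi, ‖(ex (-((t : ℝ) / R * m₀)) - ex (-((t : ℝ) / R * m))) * S t‖ ≤
        ∑ t ∈ Mi, 2 * c * ‖S t / (c : ℂ)‖ := by
      apply Finset.sum_le_sum
      intro t _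
      rw [norm_mul, norm_div, Complex.norm_natCast]
      have h2 : ‖ex (-((t : ℝ) / R * m₀)) - ex (-((t : ℝ) / R * m))‖ ≤ 2 := by
        refine le_trans (norm_sub_le _ _) ?_
        rw [norm_ex, norm_ex]; norm_num
      have h3 : 2 * (c : ℝ) * (‖S t‖ / c) = 2 * ‖S t‖ := by field_simp
      rw [h3]
      exact mul_le_mul_of_nonneg_right h2 (norm_nonneg _)
    refine le_trans h1 ?_
    rw [← Finset.mul_sum]
    apply mul_le_mul_of_nonneg_left _ (by positivity)
    rw [le_div_iff₀ (by positivity)]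
    calc (∑ t ∈ Mi, ‖S t / (c : ℂ)‖) * (8 * R0) = 8 * R0 * ∑ t ∈ Mi, ‖S t / (c : ℂ)‖ := by ring
      _ ≤ R := hsum
  have htotal : (R : ℝ) * N m₀ ≤ (4 * κ * R) * (2 * Real.pi * (κ * l) * c) + 2 * c * (R / (8 * R0)) := by
    have h1 : ‖((R : ℂ) * N m₀)‖ = (R : ℝ) * N m₀ := by
      rw [norm_mul, Complex.norm_natCast, Complex.norm_natCast]
    rw [← h1, hdiff]
    refine le_trans (norm_sum_le _ _) ?_
    rw [hsplit]
    exact add_le_add hMabound hMibound
  have hm₀N' : (c : ℝ) ≤ R0 * N m₀ := by exact_mod_cast hm₀N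
  -- contradiction
  have h1 : (R : ℝ) * c ≤ R0 * ((4 * κ * R) * (2 * Real.pi * (κ * l) * c) + 2 * c * (R / (8 * R0))) := by
    calc (R : ℝ) * c ≤ R * (R0 * N m₀) := mul_le_mul_of_nonneg_left hm₀N' hR.le
      _ = R0 * (R * N m₀) := by ring
      _ ≤ _ := mul_le_mul_of_nonneg_left htotal hR0.le
  have h2 : R0 * ((4 * κ * R) * (2 * Real.pi * (κ * l) * c) + 2 * c * (R / (8 * R0))) =
      (R * c) * ((8 * Real.pi / 40) * (40 * κ ^ 2 * l * R0) + 1 / 4) := by
    field_simp
    ring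
  rw [h2] at h1
  have h3 : (8 * Real.pi / 40) * (40 * κ ^ 2 * l * R0) + 1 / 4 < 1 := by
    have h4 : (8 * Real.pi / 40) * (40 * κ ^ 2 * l * R0) ≤ (8 * Real.pi / 40) * 1 :=
      mul_le_mul_of_nonneg_left hcond (by positivity)
    have h5 := Real.pi_lt_d2
    linarith
  have h4 : (0 : ℝ) < R * c := by positivity
  have h5 : (R * c : ℝ) * ((8 * Real.pi / 40) * (40 * κ ^ 2 * l * R0) + 1 / 4) < (R * c) * 1 :=
    mul_lt_mul_of_pos_left h3 h4
  linarith

end Crest.Agent.R19
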