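import Crest.Agent.R19.Defs
import Crest.Agent.R19.POSW

set_option autoImplicit false

open Finset Classical

namespace Crest.Agent.R19

namespace AVG

open POSW

theorem ex_zero : ex 0 = 1 := by
  have := ex_int 0
  simpa using this

theorem ex_sum {ι : Type} (s : Finset ι) (f : ι → ℝ) : ex (∑ i ∈ s, f i) = ∏ i ∈ s, ex (f i) := by
  induction s using Finset.induction_on with
  | empty => simp [ex_zero]
  | insert a s ha ih => rw [Finset.sum_insert ha, Finset.prod_insert ha, ex_add, ih]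

/-- factorisation of the joint average -/
theorem factor {n : ℕ} (B : Base n) (r nz : ℕ) (P : Fin r → (Fin (TT n) → PZ n)) (D : Fin r → ℕ)
    (θ : ℝ) :
    (∑ ω : (Fin r → Fin (TT n) → Cube n) × Fin (2 ^ nz),
        ex (θ * ((∑ i, D i * xval B (P i) (ω.1 i) + (ω.2 : ℕ) : ℕ) : ℝ))) /
          (Fintype.card ((Fin r → Fin (TT n) → Cube n) × Fin (2 ^ nz)) : ℂ) =
    (∏ i, xhat B (P i) (D i * θ)) * ((∑ z : Fin (2 ^ nz), ex (θ * ((z : ℕ) : ℝ))) / 2 ^ nz) := by
  have h1 : ∑ ω : (Fin r → Fin (TT n) → Cube n) × Fin (2 ^ nz),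
        ex (θ * ((∑ i, D i * xval B (P i) (ω.1 i) + (ω.2 : ℕ) : ℕ) : ℝ)) =
      (∏ i, ∑ e : Fin (TT n) → Cube n, ex (D i * θ * xval B (P i) e)) *
        (∑ z : Fin (2 ^ nz), ex (θ * ((z : ℕ) : ℝ))) := by
    rw [Fintype.sum_prod_type, Finset.prod_univ_sum, Fintype.piFinset_univ, Finset.sum_mul]
    apply Finset.sum_congr rfl
    intro e _
    rw [Finset.mul_sum]
    apply Finset.sum_congr rfl
    intro z _
    rw [← ex_sum, ← ex_add]
    congr 1
    push_cast
    rw [mul_add, Finset.mul_sum]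
    congr 1
    apply Finset.sum_congr rfl
    intro i _
    ring
  rw [h1]
  have h2 : (Fintype.card ((Fin r → Fin (TT n) → Cube n) × Fin (2 ^ nz)) : ℂ) =
      ((2 : ℂ) ^ (n * TT n)) ^ r * 2 ^ nz := by
    rw [Fintype.card_prod]
    simp only [Fintype.card_fun, Fintype.card_fin, Fintype.card_bool]
    push_cast
    rw [pow_mul]
  rw [h2]
  unfold xhat
  rw [Finset.prod_div_distrib, Finset.prod_const, Finset.card_univ, Fintype.card_fin]
  rw [div_mul_div_comm]

/-- the index type of one copy. -/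
abbrev Idx (n X3 : ℕ) : Type := (Fin (TT n) → PZ n) × (Finset.Ico X3 (2 * X3))

end AVG

open AVG POSW in
theorem avgSigma_proof : AvgSigma := by
  intro n B r nz X3 Θ hPZ hX3 hr
  have : Nonempty (PZ n) := by
    have : (PZ n).Nonempty := Finset.card_pos.mp (by omega)
    exact this.to_subtype
  have : Nonempty (Finset.Ico X3 (2 * X3)) :=
    ⟨⟨X3, Finset.mem_Ico.mpr ⟨le_refl _, by omega⟩⟩⟩
  have : Nonempty (Idx n X3) := inferInstance
  have hcardA : (Fintype.card (Idx n X3) : ℝ) = ((PZ n).card : ℝ) ^ TT n * X3 := by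
    rw [Fintype.card_prod, Fintype.card_fun, Fintype.card_coe, Fintype.card_coe, Nat.card_Ico,
      Fintype.card_fin]
    push_cast
    congr 2
    have : 2 * X3 - X3 = X3 := by omega
    rw [this]
  have hApos : (0 : ℝ) < Fintype.card (Idx n X3) := by exact_mod_cast Fintype.card_pos
  let g : ℝ → Idx n X3 → ℝ := fun θ a => ‖xhat B a.1 ((a.2 : ℕ) * θ)‖
  let zh : ℝ → ℝ := fun θ => ‖(∑ z : Fin (2 ^ nz), ex (θ * ((z : ℕ) : ℝ))) / 2 ^ nz‖
  let V : ℝ → ℝ := fun θ => (∑ P : Fin (TT n) → PZ n, ∑ D ∈ Finset.Ico X3 (2 * X3),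
    ‖xhat B P (D * θ)‖ ^ 2)
  have hV : ∀ θ, ∑ a : Idx n X3, g θ a ^ 2 = V θ := by
    intro θ
    simp only [g, V]
    rw [Fintype.sum_prod_type]
    apply Finset.sum_congr rfl
    intro P _
    exact Finset.sum_coe_sort (Finset.Ico X3 (2 * X3)) (fun D => ‖xhat B P (D * θ)‖ ^ 2)
  let F : (Fin r → Idx n X3) → ℝ := fun x => ∑ θ ∈ Θ, zh θ * ∏ i, g θ (x i)
  let C : ℝ := ∑ θ ∈ Θ, zh θ * (V θ / (Fintype.card (Idx n X3) : ℝ)) ^ (r / 2)
  have hkey : ∑ x : Fin r → Idx n X3, F x ≤ ∑ x : Fin r → Idx n X3, C := by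
    simp only [F, C]
    rw [Finset.sum_comm, Finset.sum_const, nsmul_eq_mul, Finset.mul_sum]
    apply Finset.sum_le_sum
    intro θ _
    rw [← Finset.mul_sum]
    have h1 : ∑ x : Fin r → Idx n X3, ∏ i, g θ (x i) = (∑ a : Idx n X3, g θ a) ^ r := by
      have := Finset.prod_univ_sum (fun _ : Fin r => (univ : Finset (Idx n X3))) (fun _ a => g θ a)
      rw [Fintype.piFinset_univ] at this
      rw [← this, Finset.prod_const, Finset.card_univ, Fintype.card_fin]
    rw [h1]
    have h2 : (∑ a : Idx n X3, g θ a) ^ r ≤ (Fintype.card (Idx n X3) : ℝ) ^ r * (V θ / (Fintype.card (Idx n X3) : ℝ)) ^ (r / 2) := by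
      obtain ⟨k, hk⟩ := hr
      have hk2 : r / 2 = k := by omega
      rw [hk2, hk, ← two_mul, pow_mul, pow_mul, ← mul_pow]
      apply pow_le_pow_left₀ (by positivity)
      have h3 : (∑ a : Idx n X3, g θ a) ^ 2 ≤ (Fintype.card (Idx n X3) : ℝ) * ∑ a : Idx n X3, g θ a ^ 2 := by
        have := sq_sum_le_card_mul_sum_sq (s := (univ : Finset (Idx n X3))) (f := g θ)
        simpa using this
      rw [hV] at h3
      have h4 : (Fintype.card (Idx n X3) : ℝ) ^ 2 * (V θ / (Fintype.card (Idx n X3) : ℝ)) =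
          (Fintype.card (Idx n X3) : ℝ) * V θ := by
        field_simp
      rw [h4]
      exact h3
    have h3 : (univ : Finset (Fin r → Idx n X3)).card = Fintype.card (Idx n X3) ^ r := by
      rw [Finset.card_univ, Fintype.card_fun, Fintype.card_fin]
    rw [h3]
    push_cast
    calc zh θ * (∑ a : Idx n X3, g θ a) ^ r ≤ zh θ * ((Fintype.card (Idx n X3) : ℝ) ^ r *
        (V θ / (Fintype.card (Idx n X3) : ℝ)) ^ (r / 2)) := by
          apply mul_le_mul_of_nonneg_left h2 (norm_nonneg _)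
      _ = _ := by ring
  obtain ⟨x, _, hx⟩ := Finset.exists_le_of_sum_le (s := (univ : Finset (Fin r → Idx n X3)))
    (Finset.univ_nonempty) hkey
  refine ⟨fun i => (x i).1, fun i => ((x i).2 : ℕ), ?_, ?_⟩
  · intro i
    have := (x i).2.2
    rw [Finset.mem_Ico] at this
    exact this
  · simp only [F, C] at hx
    calc _ = ∑ θ ∈ Θ, zh θ * ∏ i, g θ (x i) := by
          apply Finset.sum_congr rfl
          intro θ _
          rw [factor, norm_mul, norm_prod, mul_comm]
      _ ≤ _ := hx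
      _ = _ := by
          apply Finset.sum_congr rfl
          intro θ _
          rw [hcardA]

end Crest.Agent.R19
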