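import Crest.Agent.R19.Defs

/-! Row 19, task BASE. -/

set_option autoImplicit false

open Finset Classical

namespace Crest.Agent.R19

theorem baseExists_proof : PrimeCount → BaseExists := by
  rintro ⟨x0, hx0⟩
  refine ⟨x0 + 32, fun n hn => ?_⟩
  have hn32 : 32 ≤ n := by omega
  have hnx : x0 ≤ n ^ 4 := by
    calc x0 ≤ n := by omega
      _ = n ^ 1 := (pow_one n).symm
      _ ≤ n ^ 4 := Nat.pow_le_pow_right (by omega) (by norm_num)
  have h1 := hx0 (n ^ 4) hnx
  set W : ℕ → Finset ℕ := fun i =>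
    (Finset.Ioc (n ^ 4 + i * n ^ 3) (n ^ 4 + (i + 1) * n ^ 3)).filter Nat.Prime with hW
  have hn3 : 0 < n ^ 3 := by positivity
  have hlog : Nat.log 2 (n ^ 4) ≤ 4 * Nat.log 2 n + 4 := by
    have h2 : n < 2 ^ (Nat.log 2 n + 1) := Nat.lt_pow_succ_log_self (by norm_num) n
    have h3 : n ^ 4 < 2 ^ (4 * Nat.log 2 n + 4) := by
      calc n ^ 4 < (2 ^ (Nat.log 2 n + 1)) ^ 4 := Nat.pow_lt_pow_left h2 (by norm_num)
        _ = _ := by rw [← pow_mul]; congr 1; ring
    exact (Nat.log_lt_of_lt_pow (by positivity) h3).le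
  have hlogn : Nat.log 2 n + 1 < n := by
    have h2 : 2 ^ (Nat.log 2 n) ≤ n := Nat.pow_log_le_self 2 (by omega)
    have h3 : 5 ≤ Nat.log 2 n := (Nat.le_log_iff_pow_le (by norm_num) (by omega)).mpr (by omega)
    have h4 : ∀ k, 5 ≤ k → k + 1 < 2 ^ k := by
      intro k hk
      induction k, hk using Nat.le_induction with
      | base => norm_num
      | succ k hk ih => rw [pow_succ]; omega
    have := h4 _ h3
    omega
  -- pigeonhole
  have hex : ∃ i < n, 2 * n ≤ (W i).card := by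
    by_contra hcon
    push Not at hcon
    have hsub : (Finset.Ioc (n ^ 4) (2 * n ^ 4)).filter Nat.Prime ⊆
        (Finset.range n).biUnion W := by
      intro p hp
      rw [Finset.mem_filter, Finset.mem_Ioc] at hp
      obtain ⟨⟨hp1, hp2⟩, hp3⟩ := hp
      rw [Finset.mem_biUnion]
      -- i = (p - n^4 - 1) / n^3
      set i := (p - n ^ 4 - 1) / n ^ 3 with hi
      have hi1 : n ^ 3 * i + (p - n ^ 4 - 1) % n ^ 3 = p - n ^ 4 - 1 := Nat.div_add_mod _ _
      have hi2 : (p - n ^ 4 - 1) % n ^ 3 < n ^ 3 := Nat.mod_lt _ hn3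
      have h44 : n * n ^ 3 = n ^ 4 := by ring
      have hin : i < n := by
        rw [hi, Nat.div_lt_iff_lt_mul hn3, h44]
        omega
      refine ⟨i, Finset.mem_range.mpr hin, ?_⟩
      clear_value i
      rw [hW]
      simp only [Finset.mem_filter, Finset.mem_Ioc]
      have e1 : i * n ^ 3 = n ^ 3 * i := by ring
      have e2 : (i + 1) * n ^ 3 = n ^ 3 * i + n ^ 3 := by ring
      rw [e1, e2]
      generalize n ^ 3 * i = z at *
      generalize (p - n ^ 4 - 1) % n ^ 3 = r at *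
      refine ⟨⟨by omega, by omega⟩, hp3⟩
    have hc := (Finset.card_le_card hsub).trans Finset.card_biUnion_le
    have hc2 : ∑ i ∈ Finset.range n, (W i).card ≤ n * (2 * n) := by
      calc ∑ i ∈ Finset.range n, (W i).card ≤ ∑ _i ∈ Finset.range n, (2 * n) :=
            Finset.sum_le_sum (fun i hi => (hcon i (Finset.mem_range.mp hi)).le)
        _ = _ := by rw [Finset.sum_const, Finset.card_range, smul_eq_mul]
    have hc3 := hc.trans hc2
    have h2 : n ^ 4 ≤ 4 * (4 * n) * (n * (2 * n)) := by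
      calc n ^ 4 ≤ 4 * Nat.log 2 (n ^ 4) *
            ((Finset.Ioc (n ^ 4) (2 * n ^ 4)).filter Nat.Prime).card := h1
        _ ≤ _ := by
            apply Nat.mul_le_mul _ hc3
            omega
    have h3 : n ^ 4 = n * n ^ 3 := by ring
    have h4 : 4 * (4 * n) * (n * (2 * n)) = 32 * n ^ 3 := by ring
    rw [h3, h4] at h2
    have h5 := Nat.le_of_mul_le_mul_right h2 hn3
    have h6 : n = 32 := by omega
    subst h6
    have h7 : Nat.log 2 (32 ^ 4) = 20 := by
      rw [show (32 : ℕ) ^ 4 = 2 ^ 20 by norm_num, Nat.log_pow (by norm_num)]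
    rw [h7] at h1
    have h8 : 4 * 20 * ((Finset.Ioc (32 ^ 4) (2 * 32 ^ 4)).filter Nat.Prime).card ≤
        4 * 20 * (32 * (2 * 32)) := Nat.mul_le_mul_left _ hc3
    omega
  obtain ⟨i, hi, hcard⟩ := hex
  have hemb : Nonempty ((Fin n × Bool) ↪ (W i)) := by
    apply Function.Embedding.nonempty_of_card_le
    rw [Fintype.card_prod, Fintype.card_fin, Fintype.card_bool, Fintype.card_coe]
    omega
  obtain ⟨f⟩ := hemb
  have hmem : ∀ x : Fin n × Bool, n ^ 4 + i * n ^ 3 < (f x : ℕ) ∧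
      (f x : ℕ) ≤ n ^ 4 + (i + 1) * n ^ 3 ∧ (f x : ℕ).Prime := by
    intro x
    have h2 : (f x : ℕ) ∈ (Finset.Ioc (n ^ 4 + i * n ^ 3) (n ^ 4 + (i + 1) * n ^ 3)).filter Nat.Prime :=
      (f x).2
    rw [Finset.mem_filter, Finset.mem_Ioc] at h2
    exact ⟨h2.1.1, h2.1.2, h2.2⟩
  have hn4 : n ^ 4 = n * n ^ 3 := by ring
  have hi3 : i * n ^ 3 ≤ n * n ^ 3 := Nat.mul_le_mul_right _ hi.le
  refine ⟨{ y := n ^ 4 + i * n ^ 3
            p := fun j s => (f (j, s) : ℕ)
            prime := fun j s => (hmem (j, s)).2.2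
            inj := ?_
            lo := fun j s => (hmem (j, s)).1.le
            hi := ?_
            y_lo := ?_
            y_hi := ?_ }⟩
  · intro j s j' s' h
    have h2 : f (j, s) = f (j', s') := Subtype.ext h
    have h3 := f.injective h2
    exact ⟨(Prod.ext_iff.mp h3).1, (Prod.ext_iff.mp h3).2⟩
  · intro j s
    have h2 := (hmem (j, s)).2.1
    calc n * (f (j, s) : ℕ) ≤ n * (n ^ 4 + (i + 1) * n ^ 3) := Nat.mul_le_mul_left _ h2
      _ = n * (n ^ 4 + i * n ^ 3) + n ^ 4 := by ring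
      _ ≤ (n + 1) * (n ^ 4 + i * n ^ 3) := by
          rw [add_mul, one_mul]
          omega
  · calc n = n ^ 1 := (pow_one n).symm
      _ ≤ n ^ 4 := Nat.pow_le_pow_right (by omega) (by norm_num)
      _ ≤ _ := Nat.le_add_right _ _
  · calc n ^ 4 + i * n ^ 3 ≤ n ^ 4 + n ^ 4 := by omega
      _ = 2 * n ^ 4 := by ring
      _ ≤ n * n ^ 4 := Nat.mul_le_mul_right _ (by omega)
      _ = n ^ 5 := by ring

end Crest.Agent.R19
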