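import Crest.Agent.R19.Basics

/-!
# Row 19, task BB : the minor arc bound
-/

set_option autoImplicit false

open Finset Classical

namespace Crest.Agent.R19

theorem minorArc_proof : A1mid → A1large → A2mid → A2large → MinorComb → EventDichotomy →
    MinorArc := by
  intro hA1m hA1l hA2m hA2l hMC hED
  obtain ⟨n1, h1⟩ := hA1m
  obtain ⟨n2, h2⟩ := hA1l
  obtain ⟨n3, h3⟩ := hA2m
  obtain ⟨n4, h4⟩ := hA2l
  refine ⟨n1 + n2 + n3 + n4 + 16, fun n hn B H θ hH0 hHX hMaj => ?_⟩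
  have hn16 : (16 : ℝ) ≤ (n : ℝ) := by exact_mod_cast (by omega : 16 ≤ n)
  have hn1 : (1 : ℝ) ≤ (n : ℝ) := by linarith
  set X : ℕ := XX B with hX
  have hXpos : 1 ≤ X := by
    have h5 := XX_ge B (by omega : 2 ≤ n)
    have : 0 < n ^ n := Nat.pow_pos (by omega)
    omega
  have hXpos' : (0 : ℝ) < X := by exact_mod_cast hXpos
  have hH16 : (16 : ℝ) ≤ H := by
    calc (16 : ℝ) ≤ n := hn16
      _ = (n : ℝ) ^ 1 := (pow_one _).symm
      _ ≤ (n : ℝ) ^ 6000 := pow_le_pow_right₀ hn1 (by norm_num)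
      _ ≤ H := hH0
  have hHpos : 0 < H := by linarith
  have hH1 : (1 : ℝ) ≤ H := by linarith
  set K : ℝ := H ^ (1 / 8 : ℝ) with hK
  have hKpos : 0 < K := by rw [hK]; positivity
  have hcomb := hMC n B θ K hKpos hXpos
  set N : ℝ := ((PZ n).card : ℝ) with hN
  have hN0 : 0 ≤ N := by rw [hN]; positivity
  set ev : Finset (Conf n) := univ.filter (fun c : Conf n =>
      |θ * nu B c - round (θ * nu B c)| ≤ K / (XX B : ℝ) ^ 3) with hev
  -- the event bound
  have hevent : (ev.card : ℝ) ≤ H ^ (-(3 / 8000) : ℝ) * N ^ TT n * 4 ^ (n * TT n) := by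
    have hdich := hED X H θ {ν : ℤ | ∃ c ∈ ev, nu B c = ν} (by linarith) hHX
      (by rintro ν ⟨c, -, rfl⟩; exact abs_nu_le_real B c)
      (by
        rintro ν ⟨c, hc, rfl⟩
        rw [hev, mem_filter] at hc
        exact hc.2) hMaj
    rcases hdich with ⟨q, hq1, hq2, hq3⟩ | hsm
    · have hqn : n ^ 2000 ≤ q := by
        have h5 : ((n : ℝ)) ^ 3000 ≤ H ^ (1 / 2 : ℝ) := by
          have h6 : (((n : ℝ)) ^ 6000) ^ (1 / 2 : ℝ) ≤ H ^ (1 / 2 : ℝ) :=
            Real.rpow_le_rpow (by positivity) hH0 (by norm_num)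
          have h7 : (((n : ℝ)) ^ 6000) ^ (1 / 2 : ℝ) = (n : ℝ) ^ 3000 := by
            rw [← Real.rpow_natCast, ← Real.rpow_mul (by positivity), ← Real.rpow_natCast]
            norm_num
          rwa [h7] at h6
        have h8 : ((n : ℝ)) ^ 2000 ≤ q := by
          calc ((n : ℝ)) ^ 2000 ≤ (n : ℝ) ^ 3000 := pow_le_pow_right₀ hn1 (by norm_num)
            _ ≤ _ := h5.trans hq1
        exact_mod_cast h8
      have hsub : ev ⊆ univ.filter (fun c : Conf n => (q : ℤ) ∣ nu B c) := by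
        intro c hc
        rw [mem_filter]
        exact ⟨mem_univ _, hq3 _ ⟨c, hc, rfl⟩⟩
      have hle : (ev.card : ℝ) ≤ ((univ.filter (fun c : Conf n => (q : ℤ) ∣ nu B c)).card : ℝ) := by
        exact_mod_cast card_le_card hsub
      have hbound : ((univ.filter (fun c : Conf n => (q : ℤ) ∣ nu B c)).card : ℝ) ≤
          (q : ℝ) ^ (-(1 / 1000) : ℝ) * N ^ TT n * 4 ^ (n * TT n) := by
        rcases lt_or_ge q (2 ^ (200 * (n + 1))) with hlt | hge
        · exact h1 n (by omega) B q hqn hlt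
        · refine h2 n (by omega) B q hge ?_
          have : q ≤ X := by exact_mod_cast hq2
          omega
      refine hle.trans (hbound.trans ?_)
      have hq4 : (q : ℝ) ^ (-(1 / 1000) : ℝ) ≤ H ^ (-(3 / 8000) : ℝ) := by
        calc (q : ℝ) ^ (-(1 / 1000) : ℝ) ≤ (H ^ (1 / 2 : ℝ)) ^ (-(1 / 1000) : ℝ) :=
              Real.rpow_le_rpow_of_nonpos (by positivity) hq1 (by norm_num)
          _ = H ^ (-(1 / 2000) : ℝ) := by rw [← Real.rpow_mul hHpos.le]; norm_num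
          _ ≤ H ^ (-(3 / 8000) : ℝ) := Real.rpow_le_rpow_of_exponent_le hH1 (by norm_num)
      gcongr
    · have hH'1 : (1 : ℝ) ≤ H ^ (3 / 8 : ℝ) := Real.one_le_rpow hH1 (by norm_num)
      have hH'n : ((n : ℝ)) ^ 2000 ≤ H ^ (3 / 8 : ℝ) := by
        have h6 : (((n : ℝ)) ^ 6000) ^ (3 / 8 : ℝ) ≤ H ^ (3 / 8 : ℝ) :=
          Real.rpow_le_rpow (by positivity) hH0 (by norm_num)
        have h7 : (((n : ℝ)) ^ 6000) ^ (3 / 8 : ℝ) = (n : ℝ) ^ 2250 := by
          rw [← Real.rpow_natCast, ← Real.rpow_mul (by positivity), ← Real.rpow_natCast]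
          norm_num
        rw [h7] at h6
        exact (pow_le_pow_right₀ hn1 (by norm_num)).trans h6
      have hsub : ev ⊆ univ.filter (fun c : Conf n => H ^ (3 / 8 : ℝ) * |(nu B c : ℝ)| ≤ XX B) := by
        intro c hc
        rw [mem_filter]
        exact ⟨mem_univ _, hsm _ ⟨c, hc, rfl⟩⟩
      have hle : (ev.card : ℝ) ≤ ((univ.filter (fun c : Conf n =>
          H ^ (3 / 8 : ℝ) * |(nu B c : ℝ)| ≤ XX B)).card : ℝ) := by
        exact_mod_cast card_le_card hsub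
      have hbound : ((univ.filter (fun c : Conf n =>
          H ^ (3 / 8 : ℝ) * |(nu B c : ℝ)| ≤ XX B)).card : ℝ) ≤
          (H ^ (3 / 8 : ℝ)) ^ (-(1 / 1000) : ℝ) * N ^ TT n * 4 ^ (n * TT n) := by
        rcases lt_or_ge (H ^ (3 / 8 : ℝ)) (2 ^ (200 * (n + 1))) with hlt | hge
        · exact h3 n (by omega) B _ hH'n hlt
        · refine h4 n (by omega) B _ hge ?_
          calc H ^ (3 / 8 : ℝ) ≤ H ^ (1 : ℝ) := Real.rpow_le_rpow_of_exponent_le hH1 (by norm_num)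
            _ = H := Real.rpow_one H
            _ ≤ _ := hHX
      refine hle.trans (hbound.trans (le_of_eq ?_))
      rw [← Real.rpow_mul hHpos.le]
      norm_num
  -- final numerics
  have hnum : H ^ (-(3 / 8000) : ℝ) + 1 / (2 * K) ≤ H ^ (-(1 / 3000) : ℝ) := by
    have e1 : H ^ (-(3 / 8000) : ℝ) = H ^ (-(1 / 3000) : ℝ) * H ^ (-(1 / 24000) : ℝ) := by
      rw [← Real.rpow_add hHpos]; norm_num
    have e2 : H ^ (-(1 / 24000) : ℝ) ≤ 1 / 2 := by
      calc H ^ (-(1 / 24000) : ℝ) ≤ ((16 : ℝ) ^ 6000) ^ (-(1 / 24000) : ℝ) := by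
            refine Real.rpow_le_rpow_of_nonpos (by positivity) ?_ (by norm_num)
            exact (pow_le_pow_left₀ (by norm_num) hn16 _).trans hH0
        _ = (16 : ℝ) ^ (-(1 / 4) : ℝ) := by
            rw [← Real.rpow_natCast, ← Real.rpow_mul (by norm_num)]; norm_num
        _ = 1 / 2 := by
            rw [show (16 : ℝ) = 2 ^ (4 : ℝ) by norm_num, ← Real.rpow_mul (by norm_num)]
            rw [show (4 * -(1 / 4) : ℝ) = -1 by norm_num, Real.rpow_neg_one]
            norm_num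
    have e3 : 1 / (2 * K) = (1 / 2) * H ^ (-(1 / 8) : ℝ) := by
      rw [hK, Real.rpow_neg hHpos.le]
      field_simp
    have e4 : H ^ (-(1 / 8) : ℝ) ≤ H ^ (-(1 / 3000) : ℝ) :=
      Real.rpow_le_rpow_of_exponent_le hH1 (by norm_num)
    have e5 : 0 < H ^ (-(1 / 3000) : ℝ) := by positivity
    rw [e1, e3]
    nlinarith
  refine hcomb.trans ?_
  have h4pos : (0 : ℝ) < 4 ^ (n * TT n) := by positivity
  have h5 : (ev.card : ℝ) / 4 ^ (n * TT n) ≤ H ^ (-(3 / 8000) : ℝ) * N ^ TT n := by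
    rw [div_le_iff₀ h4pos]; exact hevent
  have h6 : N ^ TT n / (2 * K) = N ^ TT n * (1 / (2 * K)) := by ring
  calc (X : ℝ) ^ 3 * ((ev.card : ℝ) / 4 ^ (n * TT n) + N ^ TT n / (2 * K))
      ≤ (X : ℝ) ^ 3 * (H ^ (-(3 / 8000) : ℝ) * N ^ TT n + N ^ TT n * (1 / (2 * K))) := by
        rw [h6]; gcongr
    _ = (X : ℝ) ^ 3 * N ^ TT n * (H ^ (-(3 / 8000) : ℝ) + 1 / (2 * K)) := by ring
    _ ≤ (X : ℝ) ^ 3 * N ^ TT n * H ^ (-(1 / 3000) : ℝ) := by gcongr
    _ = _ := by ring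

end Crest.Agent.R19
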