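import Crest.Agent.R19.Defs

/-! Row 19, task DIGITS. -/

set_option autoImplicit false

open Finset Classical

namespace Crest.Agent.R19

namespace DIGITS

theorem step (N1 J l t : ℕ) (hl : 2 ≤ l)
    (h : ∀ m, J ≤ m → m ≤ J + l → SumDiv t N1 m) (V : ℕ) :
    ∀ m, l ^ V * J + (J + l) * ∑ i ∈ range V, l ^ i ≤ m → m ≤ l ^ V * (J + l) →
      SumDiv ((V + 1) * t) (N1 * l ^ V) m := by
  induction V with
  | zero =>
    intro m h1 h2
    simp at h1 h2
    simpa using h m h1 h2
  | succ V ih =>
    intro m h1 h2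
    have hS : ∑ i ∈ range (V + 1), l ^ i = l * (∑ i ∈ range V, l ^ i) + 1 := by
      rw [Finset.sum_range_succ', Finset.mul_sum, pow_zero]
      congr 1
      refine Finset.sum_congr rfl (fun i _ => by rw [pow_succ]; ring)
    set S := ∑ i ∈ range V, l ^ i with hSd
    rw [hS] at h1
    -- choose y0
    have hmJ : J + l ≤ m := by
      calc J + l ≤ l ^ (V + 1) * J + (J + l) * (l * S + 1) := by
            rw [mul_add, mul_one]
            omega
        _ ≤ m := h1
    set r := (m - J) % l with hr
    have hrl : r < l := Nat.mod_lt _ (by omega)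
    have hdm : l * ((m - J) / l) + r = m - J := Nat.div_add_mod (m - J) l
    set m1 := (m - J) / l with hm1
    have hm : m = (J + r) + l * m1 := by omega
    have hup : m1 ≤ l ^ V * (J + l) := by
      have h3 : l * m1 ≤ l * (l ^ V * (J + l)) := by
        calc l * m1 ≤ m := by omega
          _ ≤ l ^ (V + 1) * (J + l) := h2
          _ = _ := by rw [pow_succ]; ring
      exact Nat.le_of_mul_le_mul_left h3 (by omega)
    have hlo : l ^ V * J + (J + l) * S ≤ m1 := by
      have h3 : l * (l ^ V * J + (J + l) * S) ≤ l * m1 := by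
        have h4 : l ^ (V + 1) * J + (J + l) * (l * S + 1) =
            l * (l ^ V * J + (J + l) * S) + (J + l) := by
          rw [pow_succ]; ring
        omega
      exact Nat.le_of_mul_le_mul_left h3 (by omega)
    obtain ⟨s1, hc1, hd1, hs1⟩ := ih m1 hlo hup
    obtain ⟨s0, hc0, hd0, hs0⟩ := h (J + r) (by omega) (by omega)
    refine ⟨s0 + s1.map (fun d => l * d), ?_, ?_, ?_⟩
    · rw [Multiset.card_add, Multiset.card_map]
      calc Multiset.card s0 + Multiset.card s1 ≤ t + (V + 1) * t := Nat.add_le_add hc0 hc1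
        _ = _ := by ring
    · intro d hd
      rw [Multiset.mem_add] at hd
      rcases hd with hd | hd
      · exact dvd_mul_of_dvd_left (hd0 d hd) _
      · obtain ⟨d', hd', rfl⟩ := Multiset.mem_map.mp hd
        have := mul_dvd_mul_left l (hd1 d' hd')
        have h5 : l * (N1 * l ^ V) = N1 * l ^ (V + 1) := by rw [pow_succ]; ring
        rwa [h5] at this
    · rw [Multiset.sum_add, Multiset.sum_map_mul_left, hs0]
      have : (s1.map (fun d => d)).sum = m1 := by rw [Multiset.map_id']; exact hs1
      rw [this]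
      omega

theorem geom_le (l : ℕ) (hl : 2 ≤ l) (V : ℕ) : l * ∑ i ∈ range V, l ^ i ≤ 2 * l ^ V := by
  induction V with
  | zero => simp
  | succ V ih =>
    rw [Finset.sum_range_succ, mul_add]
    have h1 : 2 * l ^ V ≤ l ^ (V + 1) := by
      rw [pow_succ, mul_comm]
      exact Nat.mul_le_mul_left _ hl
    have h2 : l * l ^ V = l ^ (V + 1) := by rw [pow_succ]; ring
    omega

end DIGITS

theorem digits_proof : Digits := by
  intro N1 J l κ t V _ hl hκ h m h1 h2
  refine DIGITS.step N1 J l t hl h V m (le_trans ?_ h1) h2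
  have h3 : (J + l) * ∑ i ∈ range V, l ^ i ≤ l ^ V * κ := by
    have h4 : l * ((J + l) * ∑ i ∈ range V, l ^ i) ≤ l * (l ^ V * κ) := by
      calc l * ((J + l) * ∑ i ∈ range V, l ^ i) = (J + l) * (l * ∑ i ∈ range V, l ^ i) := by ring
        _ ≤ (J + l) * (2 * l ^ V) := Nat.mul_le_mul_left _ (DIGITS.geom_le l hl V)
        _ = (2 * (J + l)) * l ^ V := by ring
        _ ≤ (κ * l) * l ^ V := Nat.mul_le_mul_right _ hκ
        _ = _ := by ring
    exact Nat.le_of_mul_le_mul_left h4 (by omega)
  calc l ^ V * J + (J + l) * ∑ i ∈ range V, l ^ i ≤ l ^ V * J + l ^ V * κ :=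
        Nat.add_le_add_left h3 _
    _ = _ := by ring

end Crest.Agent.R19
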