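import Crest.Agent.R19.Defs

set_option autoImplicit false

open Finset Classical

namespace Crest.Agent.R19

namespace DIST

/-- exactly `k` positive unit fractions. -/
def rep (k : ℕ) (q : ℚ) : Prop := ∃ s : Multiset ℕ, s.card = k ∧ (∀ x ∈ s, 0 < x) ∧
  (s.map (fun x : ℕ => (1 : ℚ) / x)).sum = q

theorem rep_nonneg {k : ℕ} {q : ℚ} (h : rep k q) : 0 ≤ q := by
  obtain ⟨s, _, _, hs⟩ := h
  rw [← hs]
  apply Multiset.sum_nonneg
  intro x hx
  rw [Multiset.mem_map] at hx
  obtain ⟨a, _, rfl⟩ := hx
  positivity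

theorem rep_cons {k : ℕ} {q : ℚ} {x : ℕ} (hx : 0 < x) (h : rep k (q - 1 / x)) : rep (k + 1) q := by
  obtain ⟨s, h1, h2, h3⟩ := h
  refine ⟨x ::ₘ s, by rw [Multiset.card_cons, h1], ?_, ?_⟩
  · intro y hy
    rw [Multiset.mem_cons] at hy
    rcases hy with rfl | hy
    · exact hx
    · exact h2 y hy
  · rw [Multiset.map_cons, Multiset.sum_cons, h3]
    ring

theorem rep_finset {S : Finset ℕ} (hS : ∀ n ∈ S, 2 ≤ n) : rep S.card (∑ n ∈ S, (1 : ℚ) / (n : ℚ)) :=
  ⟨S.val, rfl, fun x hx => by have := hS x hx; omega, rfl⟩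

theorem main : ∀ (k : ℕ) (q : ℚ), q < 1 → rep k q → (∀ j < k, ¬ rep j q) →
    ∃ S : Finset ℕ, (∀ n ∈ S, 2 ≤ n) ∧ S.card = k ∧ ∑ n ∈ S, (1 : ℚ) / (n : ℚ) = q := by
  intro k
  induction k with
  | zero =>
    intro q _ h _
    obtain ⟨s, h1, _, h3⟩ := h
    rw [Multiset.card_eq_zero] at h1
    subst h1
    refine ⟨∅, by simp, by simp, ?_⟩
    simpa using h3
  | succ k ih =>
    intro q hq h hmin
    have hex : ∃ x : ℕ, 0 < x ∧ rep k (q - 1 / x) := by
      obtain ⟨s, h1, h2, h3⟩ := h
      obtain ⟨a, ha⟩ : ∃ a, a ∈ s := by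
        rw [← Multiset.card_pos_iff_exists_mem]; omega
      obtain ⟨t, rfl⟩ := Multiset.exists_cons_of_mem ha
      refine ⟨a, h2 a (Multiset.mem_cons_self a t), t, ?_, ?_, ?_⟩
      · rw [Multiset.card_cons] at h1; omega
      · intro x hx
        exact h2 x (Multiset.mem_cons_of_mem hx)
      · rw [Multiset.map_cons, Multiset.sum_cons] at h3
        rw [← h3]; ring
    set x1 := Nat.find hex with hx1
    obtain ⟨hx0, hxr⟩ := Nat.find_spec hex
    rw [← hx1] at hx0 hxr
    have hq' : q - 1 / (x1 : ℚ) < 1 := by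
      have : (0 : ℚ) ≤ 1 / (x1 : ℚ) := by positivity
      linarith
    obtain ⟨S', hS2, hSc, hSs⟩ := ih (q - 1 / x1) hq' hxr (by
      intro j hj hr
      exact hmin (j + 1) (by omega) (rep_cons hx0 hr))
    have hx2 : 2 ≤ x1 := by
      by_contra hlt
      have h1 : x1 = 1 := by omega
      have h2 := rep_nonneg hxr
      rw [h1] at h2
      simp at h2
      linarith
    have hnot : x1 ∉ S' := by
      intro hmem
      have hS'' : ∑ n ∈ S'.erase x1, (1 : ℚ) / (n : ℚ) = q - 1 / x1 - 1 / x1 := by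
        have := Finset.add_sum_erase S' (fun n : ℕ => (1 : ℚ) / (n : ℚ)) hmem
        rw [hSs] at this
        linarith
      have hr : rep (k - 1) (q - 1 / x1 - 1 / x1) := by
        have h1 := rep_finset (S := S'.erase x1) (fun n hn => hS2 n (Finset.mem_of_mem_erase hn))
        rw [hS'', Finset.card_erase_of_mem hmem, hSc] at h1
        exact h1
      have hk : 0 < k := by
        rw [← hSc]
        exact Finset.card_pos.mpr ⟨_, hmem⟩
      rcases Nat.even_or_odd' x1 with ⟨m, hm | hm⟩
      · -- even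
        have hm0 : 0 < m := by omega
        have h1 : rep (k - 1 + 1) q := by
          apply rep_cons hm0
          have h2 : q - 1 / (m : ℚ) = q - 1 / x1 - 1 / x1 := by
            rw [hm]
            push_cast
            have : (m : ℚ) ≠ 0 := by positivity
            field_simp
            ring
          rw [h2]
          exact hr
        exact hmin (k - 1 + 1) (by omega) h1
      · -- odd
        have hm0 : 0 < m := by omega
        have h1 : rep (k - 1 + 1) (q - 1 / ((m + 1 : ℕ) : ℚ)) := by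
          apply rep_cons (x := (2 * m + 1) * (m + 1)) (by positivity)
          have h2 : q - 1 / ((m + 1 : ℕ) : ℚ) - 1 / (((2 * m + 1) * (m + 1) : ℕ) : ℚ) =
              q - 1 / x1 - 1 / x1 := by
            rw [hm]
            push_cast
            have : (m : ℚ) + 1 ≠ 0 := by positivity
            have : 2 * (m : ℚ) + 1 ≠ 0 := by positivity
            field_simp
            ring
          rw [h2]
          exact hr
        have h3 : k - 1 + 1 = k := by omega
        rw [h3] at h1
        exact Nat.find_min hex (m := m + 1) (by rw [← hx1]; omega) ⟨by omega, h1⟩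
    refine ⟨insert x1 S', ?_, ?_, ?_⟩
    · intro n hn
      rw [Finset.mem_insert] at hn
      rcases hn with rfl | hn
      · exact hx2
      · exact hS2 n hn
    · rw [Finset.card_insert_of_notMem hnot, hSc]
    · rw [Finset.sum_insert hnot, hSs]
      ring

end DIST

open DIST in
theorem distinct_proof : Distinct := by
  intro t q hq hU
  obtain ⟨s, hs1, hs2, hs3⟩ := hU
  have hex : ∃ k, rep k q := ⟨s.card, s, rfl, hs2, hs3⟩
  obtain ⟨S, h1, h2, h3⟩ := main (Nat.find hex) q hq (Nat.find_spec hex)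
    (fun j hj => Nat.find_min hex hj)
  refine ⟨S, h1, ?_, h3⟩
  rw [h2]
  exact le_trans (Nat.find_min' hex ⟨s, rfl, hs2, hs3⟩) hs1

end Crest.Agent.R19
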