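import Crest.Agent.R19.Defs

set_option autoImplicit false
set_option linter.unusedSectionVars false

open Finset Classical

namespace Crest.Agent.R19

namespace ENERGY

variable {N : ℕ} [NeZero N]

/-- orthogonality. -/
lemma count_eq {X : Type*} [Fintype X] (g : X → ZMod N) :
    ((univ.filter (fun x => g x = 0)).card : ℂ) * N = ∑ ψ : AddChar (ZMod N) ℂ, ∑ x, ψ (g x) := by
  rw [Finset.sum_comm]
  simp only [AddChar.sum_apply_eq_ite, ZMod.card]
  rw [Finset.sum_ite, Finset.sum_const_zero, add_zero, Finset.sum_const, nsmul_eq_mul]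

/-- `∑_{i,i'} ψ(-(i - i')) = |S|²`. -/
lemma sum_pairs (ψ : AddChar (ZMod N) ℂ) (I : Finset (ZMod N)) :
    ∑ x : I × I, ψ (-((x.1 : ZMod N) - (x.2 : ZMod N))) = ((‖∑ i ∈ I, ψ i‖ ^ 2 : ℝ) : ℂ) := by
  have h1 : ∑ x : I × I, ψ (-((x.1 : ZMod N) - (x.2 : ZMod N)))
      = (∑ i : I, (starRingEnd ℂ) (ψ (i : ZMod N))) * ∑ i : I, ψ (i : ZMod N) := by
    rw [Fintype.sum_prod_type, Finset.sum_mul]
    apply Finset.sum_congr rfl
    intro a _
    rw [Finset.mul_sum]
    apply Finset.sum_congr rfl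
    intro b _
    rw [neg_sub, sub_eq_add_neg, AddChar.map_add_eq_mul, AddChar.map_neg_eq_conj, mul_comm]
  rw [h1, ← map_sum, Finset.sum_coe_sort I (fun i => ψ i), mul_comm, Complex.mul_conj,
    Complex.normSq_eq_norm_sq]

lemma sum_sq (I : Finset (ZMod N)) :
    ∑ ψ : AddChar (ZMod N) ℂ, ‖∑ i ∈ I, ψ i‖ ^ 2 = (N : ℝ) * I.card := by
  have h1 := count_eq (N := N) (X := I × I) (fun x => -((x.1 : ZMod N) - (x.2 : ZMod N)))
  simp only [sum_pairs] at h1
  have h2 : (univ.filter (fun x : I × I => -((x.1 : ZMod N) - (x.2 : ZMod N)) = 0)).card = I.card := by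
    have h3 : (univ.filter (fun x : I × I => -((x.1 : ZMod N) - (x.2 : ZMod N)) = 0))
        = (univ : Finset I).image (fun i => (i, i)) := by
      ext ⟨a, b⟩
      simp only [mem_filter, mem_univ, true_and, mem_image, neg_eq_zero, sub_eq_zero, Prod.mk.injEq]
      constructor
      · intro h
        exact ⟨a, rfl, Subtype.ext h⟩
      · rintro ⟨c, rfl, rfl⟩; rfl
    rw [h3, Finset.card_image_of_injective _ (fun a b h => (Prod.mk.inj h).1), Finset.card_univ,
      Fintype.card_coe]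
  rw [h2] at h1
  have h4 : (((I.card : ℝ) * N : ℝ) : ℂ) = ((∑ ψ : AddChar (ZMod N) ℂ, ‖∑ i ∈ I, ψ i‖ ^ 2 : ℝ) : ℂ) := by
    push_cast
    push_cast at h1
    exact h1
  have h5 := Complex.ofReal_injective h4
  rw [← h5]; ring

lemma sum_tuple {A : Type*} [Fintype A] (ψ : AddChar (ZMod N) ℂ) (g : A → ZMod N) (j : ℕ) :
    ∑ P : Fin j → A, ψ (∑ l, g (P l)) = (∑ a, ψ (g a)) ^ j := by
  rw [Fintype.sum_pow]
  apply Finset.sum_congr rfl
  intro P _
  induction (univ : Finset (Fin j)) using Finset.induction_on with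
  | empty => simp
  | insert a s ha ih =>
    rw [Finset.sum_insert ha, Finset.prod_insert ha, AddChar.map_add_eq_mul, ih]

lemma sum_tuple_conj {A : Type*} [Fintype A] (ψ : AddChar (ZMod N) ℂ) (g : A → ZMod N) (j : ℕ) :
    ∑ P : Fin j → A, ψ (-∑ l, g (P l)) = (starRingEnd ℂ) ((∑ a, ψ (g a)) ^ j) := by
  rw [← sum_tuple, map_sum]
  apply Finset.sum_congr rfl
  intro P _
  rw [AddChar.map_neg_eq_conj]

/-- the energy count. -/
lemma energy_count {A : Type*} [Fintype A] (g : A → ZMod N) (I : Finset (ZMod N)) (j : ℕ) :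
    ((univ.filter (fun x : ((Fin j → A) × (Fin j → A)) × (I × I) =>
      ∑ l, g (x.1.1 l) - ∑ l, g (x.1.2 l) = (x.2.1 : ZMod N) - (x.2.2 : ZMod N))).card : ℝ) * N
      = ∑ ψ : AddChar (ZMod N) ℂ, ‖∑ a, ψ (g a)‖ ^ (2 * j) * ‖∑ i ∈ I, ψ i‖ ^ 2 := by
  have h1 := count_eq (N := N) (X := ((Fin j → A) × (Fin j → A)) × (I × I))
    (fun x => (∑ l, g (x.1.1 l) + -∑ l, g (x.1.2 l)) + -((x.2.1 : ZMod N) - (x.2.2 : ZMod N)))
  have h2 : (univ.filter (fun x : ((Fin j → A) × (Fin j → A)) × (I × I) =>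
      (∑ l, g (x.1.1 l) + -∑ l, g (x.1.2 l)) + -((x.2.1 : ZMod N) - (x.2.2 : ZMod N)) = 0))
      = (univ.filter (fun x : ((Fin j → A) × (Fin j → A)) × (I × I) =>
      ∑ l, g (x.1.1 l) - ∑ l, g (x.1.2 l) = (x.2.1 : ZMod N) - (x.2.2 : ZMod N))) := by
    apply Finset.filter_congr
    intro x _
    rw [← sub_eq_add_neg, ← sub_eq_add_neg, sub_eq_zero]
  rw [h2] at h1
  have h3 : ∀ ψ : AddChar (ZMod N) ℂ, ∑ x : ((Fin j → A) × (Fin j → A)) × (I × I),
      ψ ((∑ l, g (x.1.1 l) + -∑ l, g (x.1.2 l)) + -((x.2.1 : ZMod N) - (x.2.2 : ZMod N)))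
      = ((‖∑ a, ψ (g a)‖ ^ (2 * j) * ‖∑ i ∈ I, ψ i‖ ^ 2 : ℝ) : ℂ) := by
    intro ψ
    simp only [AddChar.map_add_eq_mul]
    rw [Fintype.sum_prod_type]
    simp only [← Finset.mul_sum]
    rw [← Finset.sum_mul, sum_pairs, Fintype.sum_prod_type]
    simp only [← Finset.mul_sum]
    rw [← Finset.sum_mul, sum_tuple, sum_tuple_conj, Complex.mul_conj, Complex.normSq_eq_norm_sq,
      norm_pow]
    push_cast
    ring
  rw [Finset.sum_congr rfl fun ψ _ => h3 ψ] at h1
  exact_mod_cast h1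

end ENERGY

theorem energyIneq_proof : EnergyIneq := by
  intro N _ D Pi _ _ _ _ bad ξ I c m j E pb hI hj hjm hbad hE hgood
  have hN : (0 : ℝ) < N := by exact_mod_cast Nat.pos_of_ne_zero (NeZero.ne N)
  have hD : (0 : ℝ) < Fintype.card D := by exact_mod_cast Fintype.card_pos
  have hP : (0 : ℝ) < Fintype.card Pi := by exact_mod_cast Fintype.card_pos
  set S : AddChar (ZMod N) ℂ → ℝ := fun ψ => ‖∑ i ∈ I, ψ i‖ ^ 2 with hS
  set K : AddChar (ZMod N) ℂ → D → ℝ := fun ψ d => ‖∑ P, ψ (ξ d P)‖ with hK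
  have hS0 : ∀ ψ, 0 ≤ S ψ := fun ψ => by positivity
  have hK0 : ∀ ψ d, 0 ≤ K ψ d := fun ψ d => norm_nonneg _
  have hK1 : ∀ ψ d, K ψ d ≤ Fintype.card Pi := by
    intro ψ d
    calc K ψ d ≤ ∑ P, ‖ψ (ξ d P)‖ := norm_sum_le _ _
      _ = Fintype.card Pi := by simp [AddChar.norm_apply]
  have hpb : 0 ≤ pb := by
    by_contra hneg
    have h1 : pb * Fintype.card D < 0 := mul_neg_of_neg_of_pos (not_le.1 hneg) hD
    have h2 : (0 : ℝ) ≤ bad.card := Nat.cast_nonneg _
    linarith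
  -- the count
  set cnt : ℝ := ((univ.filter (fun x : ((Fin m → D) × (Fin m → Pi)) × (I × I) =>
      ∑ u, ξ (x.1.1 u) (x.1.2 u) + c = (x.2.1 : ZMod N) - (x.2.2 : ZMod N))).card : ℝ) with hcnt
  have hmain : cnt * N ≤ ∑ ψ : AddChar (ZMod N) ℂ, (∑ d, K ψ d) ^ m * S ψ := by
    have h1 := ENERGY.count_eq (N := N) (X := ((Fin m → D) × (Fin m → Pi)) × (I × I))
      (fun x => (∑ u, ξ (x.1.1 u) (x.1.2 u) + c) + -((x.2.1 : ZMod N) - (x.2.2 : ZMod N)))
    have h2 : (univ.filter (fun x : ((Fin m → D) × (Fin m → Pi)) × (I × I) =>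
        (∑ u, ξ (x.1.1 u) (x.1.2 u) + c) + -((x.2.1 : ZMod N) - (x.2.2 : ZMod N)) = 0))
        = (univ.filter (fun x : ((Fin m → D) × (Fin m → Pi)) × (I × I) =>
        ∑ u, ξ (x.1.1 u) (x.1.2 u) + c = (x.2.1 : ZMod N) - (x.2.2 : ZMod N))) := by
      apply Finset.filter_congr
      intro x _
      rw [← sub_eq_add_neg, sub_eq_zero]
    rw [h2] at h1
    have h3 : ∀ ψ : AddChar (ZMod N) ℂ, ∑ x : ((Fin m → D) × (Fin m → Pi)) × (I × I),
        ψ ((∑ u, ξ (x.1.1 u) (x.1.2 u) + c) + -((x.2.1 : ZMod N) - (x.2.2 : ZMod N)))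
        = ((∑ q : D × Pi, ψ (ξ q.1 q.2)) ^ m * ψ c) * ((S ψ : ℝ) : ℂ) := by
      intro ψ
      simp only [AddChar.map_add_eq_mul]
      rw [Fintype.sum_prod_type]
      simp only [← Finset.mul_sum]
      rw [← Finset.sum_mul, ENERGY.sum_pairs, ← Finset.sum_mul]
      congr 2
      rw [← ENERGY.sum_tuple ψ (fun q : D × Pi => ξ q.1 q.2) m]
      exact (Fintype.sum_equiv (Equiv.arrowProdEquivProdArrow (Fin m) (fun _ => D) (fun _ => Pi)) _ _
        (fun x => rfl)).symm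
    rw [Finset.sum_congr rfl fun ψ _ => h3 ψ] at h1
    have h4 : cnt * N = ‖((univ.filter (fun x : ((Fin m → D) × (Fin m → Pi)) × (I × I) =>
        ∑ u, ξ (x.1.1 u) (x.1.2 u) + c = (x.2.1 : ZMod N) - (x.2.2 : ZMod N))).card : ℂ) * N‖ := by
      rw [norm_mul, Complex.norm_natCast, Complex.norm_natCast]
    rw [h4, h1]
    refine (norm_sum_le _ _).trans (Finset.sum_le_sum fun ψ _ => ?_)
    rw [norm_mul, norm_mul, norm_pow, AddChar.norm_apply, mul_one, Complex.norm_real,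
      Real.norm_of_nonneg (hS0 ψ)]
    apply mul_le_mul_of_nonneg_right _ (hS0 ψ)
    apply pow_le_pow_left₀ (norm_nonneg _)
    rw [Fintype.sum_prod_type]
    exact norm_sum_le _ _
  -- pointwise bound
  set A : ℝ := (Fintype.card D : ℝ) with hA
  set Q : ℝ := (Fintype.card Pi : ℝ) with hQ
  set G : AddChar (ZMod N) ℂ → ℝ := fun ψ => ∑ d ∈ univ \ bad, K ψ d ^ (2 * j) with hG
  have hpt : ∀ ψ, (∑ d, K ψ d) ^ m ≤ 2 ^ m * ((pb * A * Q) ^ m
      + (A * Q) ^ (m - 2 * j) * A ^ (2 * j - 1) * G ψ) := by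
    intro ψ
    have e1 : ∑ d, K ψ d = ∑ d ∈ bad, K ψ d + ∑ d ∈ univ \ bad, K ψ d := by
      rw [add_comm, Finset.sum_sdiff (Finset.subset_univ bad)]
    have e2 : ∑ d ∈ bad, K ψ d ≤ pb * A * Q := by
      calc ∑ d ∈ bad, K ψ d ≤ ∑ d ∈ bad, Q := Finset.sum_le_sum fun d _ => hK1 ψ d
        _ = bad.card * Q := by rw [Finset.sum_const, nsmul_eq_mul]
        _ ≤ pb * A * Q := by gcongr
    set g := ∑ d ∈ univ \ bad, K ψ d with hg
    have hg0 : 0 ≤ g := Finset.sum_nonneg fun d _ => hK0 ψ d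
    have hcard : ((univ \ bad).card : ℝ) ≤ A := by
      rw [hA]
      exact_mod_cast Finset.card_le_univ _
    have hg1 : g ≤ A * Q := by
      calc g ≤ ∑ d ∈ univ \ bad, Q := Finset.sum_le_sum fun d _ => hK1 ψ d
        _ = (univ \ bad).card * Q := by rw [Finset.sum_const, nsmul_eq_mul]
        _ ≤ A * Q := by gcongr
    have hg2 : g ^ (2 * j) ≤ A ^ (2 * j - 1) * G ψ := by
      have h5 := pow_sum_div_card_le_sum_pow (s := univ \ bad) (f := fun d => K ψ d)
        (fun d _ => hK0 ψ d) (2 * j - 1)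
      have h6 : 2 * j - 1 + 1 = 2 * j := by omega
      rw [h6] at h5
      by_cases hc0 : (univ \ bad).card = 0
      · have : univ \ bad = ∅ := Finset.card_eq_zero.1 hc0
        rw [hg, hG, this]
        simp only [Finset.sum_empty, mul_zero]
        rw [zero_pow (by omega)]
      · have hcp : (0 : ℝ) < ((univ \ bad).card : ℝ) := by exact_mod_cast Nat.pos_of_ne_zero hc0
        rw [div_le_iff₀ (by positivity)] at h5
        have hG0 : 0 ≤ G ψ := Finset.sum_nonneg fun d _ => pow_nonneg (hK0 ψ d) _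
        calc g ^ (2 * j) ≤ G ψ * ((univ \ bad).card : ℝ) ^ (2 * j - 1) := h5
          _ ≤ G ψ * A ^ (2 * j - 1) := by gcongr
          _ = A ^ (2 * j - 1) * G ψ := by ring
    have hgm : g ^ m ≤ (A * Q) ^ (m - 2 * j) * A ^ (2 * j - 1) * G ψ := by
      have h7 : g ^ m = g ^ (m - 2 * j) * g ^ (2 * j) := by
        rw [← pow_add]; congr 1; omega
      rw [h7, mul_assoc]
      gcongr
    have hpq : 0 ≤ pb * A * Q := by positivity
    calc (∑ d, K ψ d) ^ m ≤ (pb * A * Q + g) ^ m := by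
          rw [e1]
          have : 0 ≤ ∑ d ∈ bad, K ψ d := Finset.sum_nonneg fun d _ => hK0 ψ d
          gcongr
      _ ≤ (2 * max (pb * A * Q) g) ^ m := by
          apply pow_le_pow_left₀ (by positivity)
          have := le_max_left (pb * A * Q) g
          have := le_max_right (pb * A * Q) g
          linarith
      _ = 2 ^ m * (max (pb * A * Q) g) ^ m := by rw [mul_pow]
      _ ≤ 2 ^ m * ((pb * A * Q) ^ m + g ^ m) := by
          gcongr
          rcases max_cases (pb * A * Q) g with ⟨h, _⟩ | ⟨h, _⟩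
          · rw [h]; have := pow_nonneg hg0 m; linarith
          · rw [h]; have := pow_nonneg hpq m; linarith
      _ ≤ _ := by gcongr
  have hen : ∀ d ∈ univ \ bad, ∑ ψ : AddChar (ZMod N) ℂ, K ψ d ^ (2 * j) * S ψ
      ≤ E * Q ^ (2 * j) * I.card * N := by
    intro d hd
    have h8 := ENERGY.energy_count (N := N) (fun P => ξ d P) I j
    rw [hK, hS]
    simp only at h8 ⊢
    rw [← h8]
    have h9 := hgood d (by simpa using hd)
    gcongr
  have hsum : ∑ ψ : AddChar (ZMod N) ℂ, (∑ d, K ψ d) ^ m * S ψ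
      ≤ 2 ^ m * ((pb * A * Q) ^ m * (N * I.card)
        + (A * Q) ^ (m - 2 * j) * A ^ (2 * j - 1) * (A * (E * Q ^ (2 * j) * I.card * N))) := by
    calc ∑ ψ : AddChar (ZMod N) ℂ, (∑ d, K ψ d) ^ m * S ψ
        ≤ ∑ ψ : AddChar (ZMod N) ℂ, (2 ^ m * ((pb * A * Q) ^ m
            + (A * Q) ^ (m - 2 * j) * A ^ (2 * j - 1) * G ψ)) * S ψ := by
          apply Finset.sum_le_sum
          intro ψ _
          exact mul_le_mul_of_nonneg_right (hpt ψ) (hS0 ψ)
      _ = 2 ^ m * ((pb * A * Q) ^ m * ∑ ψ : AddChar (ZMod N) ℂ, S ψ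
            + (A * Q) ^ (m - 2 * j) * A ^ (2 * j - 1) * ∑ ψ : AddChar (ZMod N) ℂ, G ψ * S ψ) := by
          rw [Finset.mul_sum, Finset.mul_sum, ← Finset.sum_add_distrib, Finset.mul_sum]
          apply Finset.sum_congr rfl
          intro ψ _
          ring
      _ ≤ _ := by
          have h10 : ∑ ψ : AddChar (ZMod N) ℂ, S ψ = N * I.card := ENERGY.sum_sq I
          have h11 : ∑ ψ : AddChar (ZMod N) ℂ, G ψ * S ψ ≤ A * (E * Q ^ (2 * j) * I.card * N) := by
            have h12 : ∑ ψ : AddChar (ZMod N) ℂ, G ψ * S ψ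
                = ∑ d ∈ univ \ bad, ∑ ψ : AddChar (ZMod N) ℂ, K ψ d ^ (2 * j) * S ψ := by
              rw [Finset.sum_comm]
              apply Finset.sum_congr rfl
              intro ψ _
              rw [hG, Finset.sum_mul]
            rw [h12]
            calc ∑ d ∈ univ \ bad, ∑ ψ : AddChar (ZMod N) ℂ, K ψ d ^ (2 * j) * S ψ
                ≤ ∑ d ∈ univ \ bad, E * Q ^ (2 * j) * I.card * N := Finset.sum_le_sum hen
              _ = ((univ \ bad).card : ℝ) * (E * Q ^ (2 * j) * I.card * N) := by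
                  rw [Finset.sum_const, nsmul_eq_mul]
              _ ≤ A * (E * Q ^ (2 * j) * I.card * N) := by
                  have : ((univ \ bad).card : ℝ) ≤ A := by
                    rw [hA]
                    exact_mod_cast Finset.card_le_univ _
                  gcongr
          rw [h10]
          gcongr
  have hfin : 2 ^ m * ((pb * A * Q) ^ m * (N * I.card)
        + (A * Q) ^ (m - 2 * j) * A ^ (2 * j - 1) * (A * (E * Q ^ (2 * j) * I.card * N)))
      = (2 ^ m * (pb ^ m + E) * A ^ m * Q ^ m * I.card) * N := by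
    have e1 : A ^ (2 * j - 1) * A = A ^ (2 * j) := by
      rw [← pow_succ]; congr 1; omega
    have e2 : (A * Q) ^ (m - 2 * j) * (A ^ (2 * j) * Q ^ (2 * j)) = A ^ m * Q ^ m := by
      rw [← mul_pow, ← pow_add, ← mul_pow]; congr 1; omega
    calc 2 ^ m * ((pb * A * Q) ^ m * (N * I.card)
        + (A * Q) ^ (m - 2 * j) * A ^ (2 * j - 1) * (A * (E * Q ^ (2 * j) * I.card * N)))
        = 2 ^ m * ((pb * A * Q) ^ m
          + (A * Q) ^ (m - 2 * j) * ((A ^ (2 * j - 1) * A) * Q ^ (2 * j)) * E) * I.card * N := by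
          ring
      _ = 2 ^ m * ((pb * A * Q) ^ m + A ^ m * Q ^ m * E) * I.card * N := by rw [e1, e2]
      _ = _ := by rw [mul_pow, mul_pow]; ring
  have hle : cnt * N ≤ (2 ^ m * (pb ^ m + E) * A ^ m * Q ^ m * I.card) * N := by
    rw [← hfin]
    exact hmain.trans hsum
  exact le_of_mul_le_mul_right hle hN

end Crest.Agent.R19
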