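import Crest.Agent.R19.Defs

set_option autoImplicit false
set_option linter.unusedSectionVars false

open Finset Classical

namespace Crest.Agent.R19

namespace ENERGYZ

lemma cast_inj {N : ℕ} {a b : ℤ} (h : ((a : ℤ) : ZMod N) = (b : ℤ)) (hab : |a - b| < N) : a = b := by
  have h1 : (N : ℤ) ∣ a - b := by
    rw [← ZMod.intCast_zmod_eq_zero_iff_dvd]
    push_cast
    rw [h, sub_self]
  have h2 := Int.eq_zero_of_abs_lt_dvd h1 hab
  linarith

end ENERGYZ

theorem energyInt_proof : EnergyIneq → EnergyInt := by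
  intro hEn D Pi _ _ _ _ bad ξ h m j E pb hj hjm hbad hE hgood
  have hD : (0 : ℝ) < Fintype.card D := by exact_mod_cast Fintype.card_pos
  have hP : (0 : ℝ) < Fintype.card Pi := by exact_mod_cast Fintype.card_pos
  have hpb : 0 ≤ pb := by
    by_contra hneg
    have h1 : pb * Fintype.card D < 0 := mul_neg_of_neg_of_pos (not_le.1 hneg) hD
    have h2 : (0 : ℝ) ≤ bad.card := Nat.cast_nonneg _
    linarith
  -- a bound for ξ
  set K : ℕ := ∑ d, ∑ P, (ξ d P).natAbs with hK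
  have hKb : ∀ d P, |ξ d P| ≤ (K : ℤ) := by
    intro d P
    rw [Int.abs_eq_natAbs]
    have h1 : (ξ d P).natAbs ≤ ∑ P, (ξ d P).natAbs :=
      Finset.single_le_sum (f := fun P => (ξ d P).natAbs) (fun _ _ => Nat.zero_le _) (mem_univ P)
    have h2 : ∑ P, (ξ d P).natAbs ≤ K :=
      Finset.single_le_sum (f := fun d => ∑ P, (ξ d P).natAbs) (fun _ _ => Nat.zero_le _) (mem_univ d)
    exact_mod_cast h1.trans h2
  set N : ℕ := 2 * j * K + 2 * h + 1 with hN
  have hN0 : NeZero N := ⟨by omega⟩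
  obtain ⟨I, hI⟩ : ∃ I : Finset (ZMod N), I = (range (2 * h + 1)).image (fun i : ℕ => (i : ZMod N)) :=
    ⟨_, rfl⟩
  have hIcard : I.card = 2 * h + 1 := by
    rw [hI, Finset.card_image_of_injOn, card_range]
    intro a ha b hb hab
    simp only [coe_range, Set.mem_Iio] at ha hb
    have h1 : (((a : ℤ) : ℤ) : ZMod N) = ((b : ℤ) : ℤ) := by push_cast; exact hab
    have h2 := ENERGYZ.cast_inj h1 (by rw [abs_lt]; constructor <;> (rw [hN]; push_cast; nlinarith))
    exact_mod_cast h2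
  have hmemI : ∀ i : ℕ, i ≤ 2 * h → (i : ZMod N) ∈ I := by
    intro i hi
    rw [hI]
    exact mem_image_of_mem _ (mem_range.2 (by omega))
  have hIne : I.Nonempty := ⟨_, hmemI 0 (by omega)⟩
  -- energy condition
  have hcond : ∀ d ∉ bad, (((univ.filter (fun x : ((Fin j → Pi) × (Fin j → Pi)) × (I × I) =>
      ∑ l, ((ξ d (x.1.1 l) : ℤ) : ZMod N) - ∑ l, ((ξ d (x.1.2 l) : ℤ) : ZMod N)
        = (x.2.1 : ZMod N) - (x.2.2 : ZMod N))).card : ℕ) : ℝ) ≤
        E * (Fintype.card Pi : ℝ) ^ (2 * j) * (I.card : ℝ) := by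
    intro d hd
    have h1 : (univ.filter (fun x : ((Fin j → Pi) × (Fin j → Pi)) × (I × I) =>
      ∑ l, ((ξ d (x.1.1 l) : ℤ) : ZMod N) - ∑ l, ((ξ d (x.1.2 l) : ℤ) : ZMod N)
        = (x.2.1 : ZMod N) - (x.2.2 : ZMod N))).card ≤
        ((univ.filter (fun x : (Fin j → Pi) × (Fin j → Pi) =>
      |∑ l, ξ d (x.1 l) - ∑ l, ξ d (x.2 l)| ≤ 2 * (h : ℤ))) ×ˢ (univ : Finset I)).card := by
      apply Finset.card_le_card_of_injOn (fun x => (x.1, x.2.2))
      · intro x hx
        simp only [coe_filter, mem_univ, true_and, Set.mem_ofPred_eq, coe_product, Set.mem_prod,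
          coe_univ, Set.mem_univ, and_true] at hx ⊢
        obtain ⟨a, ha, ha2⟩ : ∃ a : ℕ, a < 2 * h + 1 ∧ (a : ZMod N) = x.2.1 := by
          have := x.2.1.2
          have h3 : (x.2.1 : ZMod N) ∈ (range (2 * h + 1)).image (fun i : ℕ => (i : ZMod N)) := by
            rw [← hI]; exact this
          obtain ⟨a, ha, ha2⟩ := mem_image.1 h3
          exact ⟨a, mem_range.1 ha, ha2⟩
        obtain ⟨b, hb, hb2⟩ : ∃ b : ℕ, b < 2 * h + 1 ∧ (b : ZMod N) = x.2.2 := by
          have := x.2.2.2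
          have h3 : (x.2.2 : ZMod N) ∈ (range (2 * h + 1)).image (fun i : ℕ => (i : ZMod N)) := by
            rw [← hI]; exact this
          obtain ⟨a, ha, ha2⟩ := mem_image.1 h3
          exact ⟨a, mem_range.1 ha, ha2⟩
        rw [← ha2, ← hb2] at hx
        have h4 : (((∑ l, ξ d (x.1.1 l) - ∑ l, ξ d (x.1.2 l) : ℤ)) : ZMod N)
            = (((a : ℤ) - (b : ℤ) : ℤ) : ZMod N) := by
          push_cast
          exact hx
        have hs : ∀ y : Fin j → Pi, |∑ l, ξ d (y l)| ≤ (j : ℤ) * K := by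
          intro y
          calc |∑ l, ξ d (y l)| ≤ ∑ l, |ξ d (y l)| := Finset.abs_sum_le_sum_abs _ _
            _ ≤ ∑ _l : Fin j, (K : ℤ) := Finset.sum_le_sum fun l _ => hKb d (y l)
            _ = (j : ℤ) * K := by simp
        have h5 := hs x.1.1
        have h6 := hs x.1.2
        rw [abs_le] at h5 h6
        have h7 := ENERGYZ.cast_inj h4 (by
          rw [abs_lt]
          have e1 : (N : ℤ) = 2 * j * K + 2 * h + 1 := by rw [hN]; push_cast; ring
          rw [e1]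
          constructor <;> nlinarith [h5.1, h5.2, h6.1, h6.2])
        rw [h7, abs_le]
        constructor <;> omega
      · rintro ⟨x, y⟩ hx ⟨x', y'⟩ hx' hxy
        simp only [coe_filter, mem_univ, true_and, Set.mem_ofPred_eq] at hx hx'
        obtain ⟨e1, e2⟩ := Prod.mk.inj hxy
        simp only at e1 e2
        subst e1
        have e3 : (y.1 : ZMod N) = (y'.1 : ZMod N) := by
          rw [hx] at hx'
          rw [e2] at hx'
          exact sub_left_injective hx'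
        have e4 : y = y' := Prod.ext (Subtype.ext e3) e2
        rw [e4]
    rw [card_product, card_univ, Fintype.card_coe] at h1
    calc (((univ.filter (fun x : ((Fin j → Pi) × (Fin j → Pi)) × (I × I) =>
      ∑ l, ((ξ d (x.1.1 l) : ℤ) : ZMod N) - ∑ l, ((ξ d (x.1.2 l) : ℤ) : ZMod N)
        = (x.2.1 : ZMod N) - (x.2.2 : ZMod N))).card : ℕ) : ℝ)
        ≤ (((univ.filter (fun x : (Fin j → Pi) × (Fin j → Pi) =>
      |∑ l, ξ d (x.1 l) - ∑ l, ξ d (x.2 l)| ≤ 2 * (h : ℤ))).card * I.card : ℕ) : ℝ) :=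
          Nat.cast_le.2 h1
      _ = ((univ.filter (fun x : (Fin j → Pi) × (Fin j → Pi) =>
      |∑ l, ξ d (x.1 l) - ∑ l, ξ d (x.2 l)| ≤ 2 * (h : ℤ))).card : ℝ) * (I.card : ℝ) := by
          push_cast; ring
      _ ≤ _ := by
          have := hgood d hd
          gcongr
  have hmain := hEn N D Pi bad (fun d P => ((ξ d P : ℤ) : ZMod N)) I 0 m j E pb hIne hj hjm hbad hE hcond
  -- lower bound for the count
  have hlow : (univ.filter (fun x : (Fin m → D) × (Fin m → Pi) =>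
      |∑ u, ξ (x.1 u) (x.2 u)| ≤ (h : ℤ))).card * (h + 1) ≤
      (univ.filter (fun x : ((Fin m → D) × (Fin m → Pi)) × (I × I) =>
      ∑ u, ((ξ (x.1.1 u) (x.1.2 u) : ℤ) : ZMod N) + 0 = (x.2.1 : ZMod N) - (x.2.2 : ZMod N))).card := by
    have e0 : (univ.filter (fun x : (Fin m → D) × (Fin m → Pi) =>
      |∑ u, ξ (x.1 u) (x.2 u)| ≤ (h : ℤ))).card * (h + 1)
      = ((univ.filter (fun x : (Fin m → D) × (Fin m → Pi) =>
      |∑ u, ξ (x.1 u) (x.2 u)| ≤ (h : ℤ))) ×ˢ (range (h + 1))).card := by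
      rw [card_product, card_range]
    rw [e0]
    set sg : (Fin m → D) × (Fin m → Pi) → ℤ := fun x => ∑ u, ξ (x.1 u) (x.2 u) with hsg
    have h0I : (0 : ZMod N) ∈ I := by simpa using hmemI 0 (by omega)
    set f1 : ((Fin m → D) × (Fin m → Pi)) × ℕ → I := fun p =>
      if hp : p.2 + (sg p.1).toNat ≤ 2 * h then ⟨((p.2 + (sg p.1).toNat : ℕ) : ZMod N), hmemI _ hp⟩
      else ⟨0, h0I⟩ with hf1
    set f2 : ((Fin m → D) × (Fin m → Pi)) × ℕ → I := fun p =>
      if hp : p.2 + (-sg p.1).toNat ≤ 2 * h then ⟨((p.2 + (-sg p.1).toNat : ℕ) : ZMod N), hmemI _ hp⟩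
      else ⟨0, h0I⟩ with hf2
    have hv1 : ∀ p : ((Fin m → D) × (Fin m → Pi)) × ℕ, |sg p.1| ≤ (h : ℤ) → p.2 < h + 1 →
        ((f1 p : I) : ZMod N) = ((p.2 + (sg p.1).toNat : ℕ) : ZMod N) := by
      intro p hp1 hp2
      rw [abs_le] at hp1
      have : p.2 + (sg p.1).toNat ≤ 2 * h := by omega
      simp only [hf1, this, dif_pos]
    have hv2 : ∀ p : ((Fin m → D) × (Fin m → Pi)) × ℕ, |sg p.1| ≤ (h : ℤ) → p.2 < h + 1 →
        ((f2 p : I) : ZMod N) = ((p.2 + (-sg p.1).toNat : ℕ) : ZMod N) := by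
      intro p hp1 hp2
      rw [abs_le] at hp1
      have : p.2 + (-sg p.1).toNat ≤ 2 * h := by omega
      simp only [hf2, this, dif_pos]
    apply Finset.card_le_card_of_injOn (fun p => (p.1, (f1 p, f2 p)))
    · intro p hp
      simp only [coe_product, coe_filter, mem_univ, true_and, Set.mem_prod, Set.mem_ofPred_eq,
        coe_range, Set.mem_Iio] at hp ⊢
      obtain ⟨hp1, hp2⟩ := hp
      have hp1' : |sg p.1| ≤ (h : ℤ) := hp1
      rw [hv1 p hp1' hp2, hv2 p hp1' hp2, add_zero]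
      have h8 : sg p.1 = ((p.2 + (sg p.1).toNat : ℕ) : ℤ) - ((p.2 + (-sg p.1).toNat : ℕ) : ℤ) := by
        omega
      have h9 : ((sg p.1 : ℤ) : ZMod N)
          = ((((p.2 + (sg p.1).toNat : ℕ) : ℤ) - ((p.2 + (-sg p.1).toNat : ℕ) : ℤ) : ℤ) : ZMod N) :=
        congrArg (fun z : ℤ => (z : ZMod N)) h8
      push_cast at h9
      push_cast
      rw [← h9, hsg]
      push_cast
      rfl
    · intro p hp p' hp' hpp
      simp only [coe_product, coe_filter, mem_univ, true_and, Set.mem_prod, Set.mem_ofPred_eq,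
        coe_range, Set.mem_Iio] at hp hp'
      obtain ⟨e1, e2⟩ := Prod.mk.inj hpp
      obtain ⟨e3, e4⟩ := Prod.mk.inj e2
      have e5 : ((f1 p : I) : ZMod N) = ((f1 p' : I) : ZMod N) := congrArg (fun z : I => (z : ZMod N)) e3
      rw [hv1 p hp.1 hp.2, hv1 p' hp'.1 hp'.2, ← e1] at e5
      have hp1' : |sg p.1| ≤ (h : ℤ) := hp.1
      rw [abs_le] at hp1'
      have e6 : (((p.2 + (sg p.1).toNat : ℕ) : ℤ) : ZMod N) = (((p'.2 + (sg p.1).toNat : ℕ) : ℤ) : ZMod N) := by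
        push_cast
        push_cast at e5
        exact e5
      have h10 := ENERGYZ.cast_inj e6 (by
        have e1 : (N : ℤ) = 2 * j * K + 2 * h + 1 := by rw [hN]; push_cast; ring
        have e2 : (0 : ℤ) ≤ 2 * j * K := by positivity
        have hpa := hp.2
        have hpb := hp'.2
        rw [e1, abs_lt]
        constructor <;> (push_cast; omega))
      have h11 : p.2 = p'.2 := by omega
      exact Prod.ext e1 h11
  rw [hIcard] at hmain
  have hlow' : (((univ.filter (fun x : (Fin m → D) × (Fin m → Pi) =>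
      |∑ u, ξ (x.1 u) (x.2 u)| ≤ (h : ℤ))).card : ℕ) : ℝ) * ((h : ℝ) + 1) ≤
      2 ^ m * (pb ^ m + E) * (Fintype.card D : ℝ) ^ m * (Fintype.card Pi : ℝ) ^ m * ((2 * h + 1 : ℕ) : ℝ) := by
    refine le_trans ?_ hmain
    have := (Nat.cast_le (α := ℝ)).2 hlow
    push_cast at this ⊢
    exact this
  have hpos : (0 : ℝ) < (h : ℝ) + 1 := by positivity
  have hfin : 2 ^ m * (pb ^ m + E) * (Fintype.card D : ℝ) ^ m * (Fintype.card Pi : ℝ) ^ m * ((2 * h + 1 : ℕ) : ℝ)
      ≤ (2 * 2 ^ m * (pb ^ m + E) * (Fintype.card D : ℝ) ^ m * (Fintype.card Pi : ℝ) ^ m) * ((h : ℝ) + 1) := by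
    have h12 : (0 : ℝ) ≤ 2 ^ m * (pb ^ m + E) * (Fintype.card D : ℝ) ^ m * (Fintype.card Pi : ℝ) ^ m := by
      positivity
    push_cast
    nlinarith
  exact le_of_mul_le_mul_right (hlow'.trans hfin) hpos

end Crest.Agent.R19
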