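import Crest.Agent.R19.Defs

set_option autoImplicit false

open Finset Classical

namespace Crest.Agent.R19

theorem eventDichotomy_proof : EventDichotomy := by
  intro X H θ S hH hHX hSX hSe hMaj
  have hX2 : 2 ≤ X := by linarith
  have hX0 : 0 < X := by linarith
  have hH0 : 0 < H := by linarith
  by_cases hall : ∀ ν ∈ S, ν = 0
  · right
    intro ν hν
    rw [hall ν hν]
    simp
    linarith
  push Not at hall
  obtain ⟨ν0, hν0S, hν0⟩ := hall
  set K : ℝ := H ^ (1 / 8 : ℝ) with hK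
  have hK0 : 0 < K := Real.rpow_pos_of_pos hH0 _
  have hKH : K < H := by
    have h1 : H ^ (1 / 8 : ℝ) < H ^ (1 : ℝ) :=
      Real.rpow_lt_rpow_of_exponent_lt (by linarith) (by norm_num)
    rwa [Real.rpow_one] at h1
  set a0 : ℤ := round (θ * ν0) with ha0
  set r : ℚ := (a0 : ℚ) / (ν0 : ℚ) with hr
  set q : ℕ := r.den with hq
  set a : ℤ := r.num with ha
  have hqpos : 0 < q := r.den_pos
  have hq0 : (0 : ℝ) < q := by exact_mod_cast hqpos
  have hqdvd : (q : ℤ) ∣ ν0 := by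
    have := Rat.den_dvd a0 ν0
    rw [Rat.divInt_eq_div] at this
    exact this
  have hν0abs : (0 : ℝ) < |(ν0 : ℝ)| := by
    rw [abs_pos]
    exact_mod_cast hν0
  have hqν : (q : ℝ) ≤ |(ν0 : ℝ)| := by
    have h1 : (q : ℤ) ≤ |ν0| := by
      apply Int.le_of_dvd (abs_pos.mpr hν0)
      rw [dvd_abs]
      exact hqdvd
    have h2 : ((q : ℤ) : ℝ) ≤ ((|ν0| : ℤ) : ℝ) := by exact_mod_cast h1
    rw [Int.cast_abs, Int.cast_natCast] at h2
    exact h2
  have hqX : (q : ℝ) ≤ X := le_trans hqν (hSX ν0 hν0S)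
  have hra : (r : ℝ) = (a : ℝ) / q := by
    rw [Rat.cast_def]
  have hra0 : (r : ℝ) = (a0 : ℝ) / ν0 := by
    rw [hr]; push_cast; rfl
  have hν0r : (ν0 : ℝ) ≠ 0 := by exact_mod_cast hν0
  -- θ close to r
  have hθr : |θ - (r : ℝ)| * |(ν0 : ℝ)| ≤ K / X ^ 3 := by
    rw [← abs_mul, hra0]
    have : (θ - (a0 : ℝ) / ν0) * ν0 = θ * ν0 - a0 := by field_simp
    rw [this]
    exact hSe ν0 hν0S
  have hKX : 0 ≤ K / X ^ 3 := by positivity
  have hqθr : q * |θ - (r : ℝ)| ≤ K / X ^ 3 := by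
    calc q * |θ - (r : ℝ)| ≤ |(ν0 : ℝ)| * |θ - (r : ℝ)| :=
          mul_le_mul_of_nonneg_right hqν (abs_nonneg _)
      _ = |θ - (r : ℝ)| * |(ν0 : ℝ)| := by ring
      _ ≤ _ := hθr
  -- key: for ν ∈ S, ν * a = round * q
  have hkey : ∀ ν ∈ S, ν * a = round (θ * ν) * q := by
    intro ν hν
    set b : ℤ := round (θ * ν) with hb
    have h1 : |((ν * a - b * q : ℤ) : ℝ)| < 1 := by
      have h2 : ((ν * a - b * q : ℤ) : ℝ) = (ν : ℝ) * (q * ((r : ℝ) - θ)) + q * (θ * ν - b) := by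
        rw [hra]; push_cast
        field_simp
        ring
      rw [h2]
      have h3 : |(ν : ℝ) * (q * ((r : ℝ) - θ))| ≤ X * (K / X ^ 3) := by
        rw [abs_mul, abs_mul, abs_of_pos hq0, abs_sub_comm]
        exact mul_le_mul (hSX ν hν) hqθr (by positivity) hX0.le
      have h4 : |q * (θ * ν - b)| ≤ X * (K / X ^ 3) := by
        rw [abs_mul, abs_of_pos hq0]
        exact mul_le_mul hqX (hSe ν hν) (abs_nonneg _) hX0.le
      have h5 := abs_add_le ((ν : ℝ) * (q * ((r : ℝ) - θ))) (q * (θ * ν - b))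
      have h6 : X * (K / X ^ 3) + X * (K / X ^ 3) < 1 := by
        have h7 : X * (K / X ^ 3) + X * (K / X ^ 3) = 2 * K / X ^ 2 := by
          field_simp
          ring
        rw [h7, div_lt_one (by positivity)]
        nlinarith
      linarith
    have h2 : |ν * a - b * q| < 1 := by
      have h3 : ((|ν * a - b * q| : ℤ) : ℝ) < 1 := by
        rw [Int.cast_abs]; exact h1
      exact_mod_cast h3
    rw [Int.abs_lt_one_iff] at h2
    linarith
  have hcop : IsCoprime (q : ℤ) a := by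
    rw [Int.isCoprime_iff_nat_coprime]
    simp only [Int.natAbs_natCast]
    exact r.reduced.symm
  have hdvd : ∀ ν ∈ S, (q : ℤ) ∣ ν := by
    intro ν hν
    have h1 : (q : ℤ) ∣ ν * a := ⟨round (θ * ν), by rw [hkey ν hν]; ring⟩
    exact hcop.dvd_of_dvd_mul_right h1
  by_cases hbig : H ^ (1 / 2 : ℝ) ≤ q
  · left
    exact ⟨q, hbig, hqX, hdvd⟩
  · right
    push Not at hbig
    intro ν hν
    have hqH : (q : ℝ) ≤ H := by
      have h1 : H ^ (1 / 2 : ℝ) ≤ H ^ (1 : ℝ) :=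
        Real.rpow_le_rpow_of_exponent_le (by linarith) (by norm_num)
      rw [Real.rpow_one] at h1
      linarith
    have hnm : H / X ^ 4 < |q * θ - a| := by
      by_contra hcon
      push Not at hcon
      exact hMaj ⟨q, a, hqpos, hqH, hcon⟩
    have h1 : |(ν : ℝ)| * |q * θ - a| ≤ q * (K / X ^ 3) := by
      rw [← abs_mul]
      have h2 : (ν : ℝ) * (q * θ - a) = q * (θ * ν - (round (θ * ν) : ℤ)) := by
        have h3 : ((ν * a : ℤ) : ℝ) = ((round (θ * ν) * q : ℤ) : ℝ) := by rw [hkey ν hν]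
        push_cast at h3
        linear_combination -h3
      rw [h2, abs_mul, abs_of_pos hq0]
      exact mul_le_mul_of_nonneg_left (hSe ν hν) hq0.le
    have h2 : |(ν : ℝ)| * (H / X ^ 4) ≤ H ^ (1 / 2 : ℝ) * (K / X ^ 3) := by
      calc |(ν : ℝ)| * (H / X ^ 4) ≤ |(ν : ℝ)| * |q * θ - a| :=
            mul_le_mul_of_nonneg_left hnm.le (abs_nonneg _)
        _ ≤ q * (K / X ^ 3) := h1
        _ ≤ _ := mul_le_mul_of_nonneg_right hbig.le hKX
    have h3 : |(ν : ℝ)| * H ≤ H ^ (1 / 2 : ℝ) * K * X := by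
      have h4 : |(ν : ℝ)| * (H / X ^ 4) = (|(ν : ℝ)| * H) / X ^ 4 := by ring
      have h5 : H ^ (1 / 2 : ℝ) * (K / X ^ 3) = (H ^ (1 / 2 : ℝ) * K * X) / X ^ 4 := by
        field_simp
      rw [h4, h5] at h2
      exact (div_le_div_iff_of_pos_right (by positivity)).mp h2
    have h4 : H ^ (3 / 8 : ℝ) * (H ^ (1 / 2 : ℝ) * K) = H := by
      rw [hK, ← Real.rpow_add hH0, ← Real.rpow_add hH0]
      norm_num
    have h5 : (H ^ (3 / 8 : ℝ) * |(ν : ℝ)|) * H ≤ X * H := by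
      calc (H ^ (3 / 8 : ℝ) * |(ν : ℝ)|) * H = H ^ (3 / 8 : ℝ) * (|(ν : ℝ)| * H) := by ring
        _ ≤ H ^ (3 / 8 : ℝ) * (H ^ (1 / 2 : ℝ) * K * X) :=
            mul_le_mul_of_nonneg_left h3 (by positivity)
        _ = (H ^ (3 / 8 : ℝ) * (H ^ (1 / 2 : ℝ) * K)) * X := by ring
        _ = X * H := by rw [h4]; ring
    exact le_of_mul_le_mul_right h5 hH0

end Crest.Agent.R19
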