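import Crest.Agent.R19.Defs

/-! Row 19, task FRAC. -/

set_option autoImplicit false

open Finset Classical

namespace Crest.Agent.R19

theorem fracOfDiv_proof : FracOfDiv := by
  intro t N m b hN hb ⟨s, hcard, hdvd, hsum⟩
  refine ⟨s.map (fun d => b * (N / d)), by rwa [Multiset.card_map], ?_, ?_⟩
  · intro x hx
    obtain ⟨d, hd, rfl⟩ := Multiset.mem_map.mp hx
    have h1 := hdvd d hd
    have h2 : 0 < d := Nat.pos_of_dvd_of_pos h1 hN
    exact Nat.mul_pos hb (Nat.div_pos (Nat.le_of_dvd hN h1) h2)
  · rw [Multiset.map_map]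
    have h1 : ∀ d ∈ s, ((fun x : ℕ => (1 : ℚ) / x) ∘ (fun d => b * (N / d))) d =
        (d : ℚ) * (1 / (b * N)) := by
      intro d hd
      have h1 := hdvd d hd
      obtain ⟨e, he⟩ := h1
      have hd0 : 0 < d := Nat.pos_of_dvd_of_pos (hdvd d hd) hN
      have he0 : 0 < e := by
        rcases Nat.eq_zero_or_pos e with h | h
        · subst h; omega
        · exact h
      have h2 : N / d = e := by rw [he]; exact Nat.mul_div_cancel_left e hd0
      simp only [Function.comp]
      rw [h2, he]
      have hd' : (d : ℚ) ≠ 0 := by exact_mod_cast hd0.ne'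
      have he' : (e : ℚ) ≠ 0 := by exact_mod_cast he0.ne'
      have hb' : (b : ℚ) ≠ 0 := by exact_mod_cast hb.ne'
      push_cast
      field_simp
    rw [Multiset.map_congr rfl h1, Multiset.sum_map_mul_right]
    have h2 : (s.map (fun d : ℕ => (d : ℚ))).sum = (m : ℚ) := by
      rw [← hsum]
      push_cast
      rfl
    rw [h2]
    ring

end Crest.Agent.R19
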