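import Crest.Agent.R19.Basics

/-! Row 19, task GCD (numerics). -/

set_option autoImplicit false

open Finset Classical

namespace Crest.Agent.R19

theorem gcdLemma_proof : GcdCase1 → GcdCase2 → GcdLemma := by
  intro h1 h2
  refine ⟨4, fun n hn B Q hQ => ?_⟩
  have hnR : (4 : ℝ) ≤ n := by exact_mod_cast hn
  have hn0 : (0 : ℝ) < n := by linarith
  have hy4 : 4 ≤ B.y := le_trans hn B.y_lo
  have hyR : (4 : ℝ) ≤ B.y := by exact_mod_cast hy4
  have hy0 : (0 : ℝ) < B.y := by linarith
  have hyhi : (B.y : ℝ) ≤ (n : ℝ) ^ 5 := by exact_mod_cast B.y_hi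
  have hQ1 : 1 ≤ Q := le_trans (Nat.one_le_pow _ _ (by omega)) hQ
  have hQ0 : (0 : ℝ) < Q := by exact_mod_cast hQ1
  have hlogn : 0 < Real.log n := Real.log_pos (by linarith)
  have hQlog : 12 * Real.log n ≤ Real.log Q := by
    have h3 : ((n : ℝ) ^ 12) ≤ Q := by exact_mod_cast hQ
    have h4 := Real.log_le_log (by positivity) h3
    rw [Real.log_pow] at h4
    push_cast at h4
    exact h4
  have hQlog0 : 0 < Real.log Q := by linarith
  set ℓ := Real.log (2 * B.y) with hℓ
  have hℓpos : 0 < ℓ := Real.log_pos (by linarith)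
  have hℓ6 : ℓ ≤ 6 * Real.log n := by
    have h3 : (2 * B.y : ℝ) ≤ (n : ℝ) ^ 6 := by
      calc (2 * B.y : ℝ) ≤ n * (n : ℝ) ^ 5 := by gcongr; linarith
        _ = (n : ℝ) ^ 6 := by ring
    have h4 := Real.log_le_log (by positivity) h3
    rw [Real.log_pow] at h4
    push_cast at h4
    exact h4
  have hly : 0 < Real.log B.y := Real.log_pos (by linarith)
  have hℓy : 2 * ℓ ≤ 3 * Real.log B.y := by
    have h3 : (2 * B.y : ℝ) ^ 2 ≤ (B.y : ℝ) ^ 3 := by
      have : (B.y : ℝ) ^ 3 = B.y * (B.y : ℝ) ^ 2 := by ring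
      rw [this, mul_pow]
      have h5 : (0 : ℝ) ≤ (B.y : ℝ) ^ 2 := by positivity
      nlinarith
    have h4 := Real.log_le_log (by positivity) h3
    rw [Real.log_pow, Real.log_pow] at h4
    push_cast at h4
    exact h4
  set L := Real.log Q / (6 * Real.log n) with hL
  have hL0 : 0 < L := by positivity
  have hLQ : Real.log Q = L * (6 * Real.log n) := by
    rw [hL]; field_simp
  set m := min (n : ℝ) L with hm
  have hm0 : 0 ≤ m := le_min hn0.le hL0.le
  have hmL : m ≤ L := min_le_right _ _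
  have hmn : m ≤ n := min_le_left _ _
  set t := tB B Q with ht
  -- translating powers to logs
  have hpow : ∀ (a : ℝ) (K : ℕ) (r : ℝ), 0 < a → ((K : ℝ) * Real.log a ≤ r * Real.log Q) →
      a ^ K ≤ (Q : ℝ) ^ r := by
    intro a K r ha h
    rw [← Real.rpow_natCast, Real.rpow_def_of_pos ha, Real.rpow_def_of_pos hQ0]
    apply Real.exp_le_exp.mpr
    linarith
  by_cases hcase : (t : ℝ) * ℓ ≤ (1 / 5) * Real.log Q
  · set z := Real.log Q / (2 * ℓ) with hz
    have hz0 : 0 < z := by positivity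
    have hzL : L / 2 ≤ z := by
      rw [hz, le_div_iff₀ (by positivity)]
      rw [hLQ]
      nlinarith
    have hz1 : 1 ≤ z := by
      have h3 : 2 ≤ L := by
        rw [hL, le_div_iff₀ (by positivity)]
        linarith
      linarith
    set k := min n ⌊z⌋₊ with hk
    have hfl : (⌊z⌋₊ : ℝ) ≤ z := Nat.floor_le hz0.le
    have hfl2 : z < (⌊z⌋₊ : ℝ) + 1 := Nat.lt_floor_add_one z
    have hfl3 : 1 ≤ ⌊z⌋₊ := (Nat.one_le_floor_iff z).mpr hz1
    have hfl4 : (1 : ℝ) ≤ ⌊z⌋₊ := by exact_mod_cast hfl3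
    have hkz : (k : ℝ) ≤ z := le_trans (by exact_mod_cast min_le_right _ _) hfl
    have hkn : k ≤ n := min_le_left _ _
    have hk4 : m / 4 ≤ (k : ℝ) := by
      rcases min_choice n ⌊z⌋₊ with h3 | h3
      · rw [hk, h3]; linarith
      · rw [hk, h3]; linarith
    have h3 := h1 n B Q k hQ1 hkn
      (hpow _ _ _ (by positivity) hcase)
      (hpow _ _ _ (by positivity) (by
        have h4 : (k : ℝ) * ℓ ≤ z * ℓ := by gcongr
        have h5 : z * ℓ = (1 / 2) * Real.log Q := by
          rw [hz]; field_simp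
        linarith))
    have h4 : (2 : ℝ) ^ k * ((badQ B Q).card : ℝ) ≤ 4 ^ n := by exact_mod_cast h3
    have h5 : Real.exp ((1 / 40) * m) ≤ (2 : ℝ) ^ k := by
      rw [← Real.rpow_natCast, Real.rpow_def_of_pos (by norm_num : (0 : ℝ) < 2)]
      apply Real.exp_le_exp.mpr
      have h6 := Real.log_two_gt_d9
      nlinarith
    have h6 : Real.exp ((1 / 40) * m) * ((badQ B Q).card : ℝ) ≤ 4 ^ n :=
      le_trans (mul_le_mul_of_nonneg_right h5 (Nat.cast_nonneg _)) h4
    have h7 : Real.exp (-(1 / 40) * m) * Real.exp ((1 / 40) * m) = 1 := by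
      rw [← Real.exp_add]
      have : -(1 / 40) * m + 1 / 40 * m = 0 := by ring
      rw [this, Real.exp_zero]
    calc ((badQ B Q).card : ℝ) = Real.exp (-(1 / 40) * m) *
          (Real.exp ((1 / 40) * m) * ((badQ B Q).card : ℝ)) := by
          rw [← mul_assoc, h7, one_mul]
      _ ≤ _ := by gcongr
  · push Not at hcase
    have h3 := h2 n B Q hQ1 (by
      intro K hK
      have h4 : (K : ℝ) * Real.log B.y < (1 / 50) * Real.log Q := by
        have h5 := Real.log_lt_log (by positivity) hK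
        rw [Real.log_pow, Real.log_rpow hQ0] at h5
        exact h5
      have h5 : (4 * K : ℝ) ≤ t := by
        by_contra hcon
        push Not at hcon
        have h6 : (t : ℝ) * Real.log B.y ≤ 4 * K * Real.log B.y := by gcongr
        have ht0 : (0 : ℝ) ≤ t := Nat.cast_nonneg _
        have h7 : (t : ℝ) * (2 * ℓ) ≤ t * (3 * Real.log B.y) := by gcongr
        nlinarith
      exact_mod_cast h5)
    refine h3.trans ?_
    have h4 : L / 5 ≤ (t : ℝ) := by
      have ht0 : (0 : ℝ) ≤ t := Nat.cast_nonneg _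
      have h5 : (t : ℝ) * ℓ ≤ t * (6 * Real.log n) := by gcongr
      have h6 : (1 / 5) * (L * (6 * Real.log n)) < t * (6 * Real.log n) := by
        rw [← hLQ]; linarith
      have h7 : (L / 5) * (6 * Real.log n) < t * (6 * Real.log n) := by linarith
      exact (lt_of_mul_lt_mul_right h7 (by positivity)).le
    have h5 : Real.exp (-(t : ℝ) / 8) ≤ Real.exp (-(1 / 40) * m) := by
      apply Real.exp_le_exp.mpr
      linarith
    gcongr

end Crest.Agent.R19
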