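import Crest.Agent.R19.Basics

/-! Row 19, task GCD1: `GcdCase1` (block argument). -/

set_option autoImplicit false

open Finset Classical

namespace Crest.Agent.R19

namespace GCD1

/-- a product of base primes over a set of coordinates -/
def pr {n : ℕ} (B : Base n) (s : Finset (Fin n)) (e : Cube n) : ℕ := ∏ j ∈ s, B.p j (e j)

theorem pr_pos {n : ℕ} (B : Base n) (s : Finset (Fin n)) (e : Cube n) : 0 < pr B s e :=
  Finset.prod_pos (fun j _ => (B.prime j (e j)).pos)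

theorem pr_le {n : ℕ} (B : Base n) (s : Finset (Fin n)) (e : Cube n) :
    pr B s e ≤ (2 * B.y) ^ s.card := by
  unfold pr
  calc ∏ j ∈ s, B.p j (e j) ≤ ∏ _j ∈ s, (2 * B.y) :=
        Finset.prod_le_prod (fun _ _ => Nat.zero_le _) (fun j _ => B.p_le_two j (e j))
    _ = _ := by simp

/-- `gcd Q c ≤ (2y)^t` for a product `c` of base primes. -/
theorem gcd_pr_le {n : ℕ} (B : Base n) (s : Finset (Fin n)) (e : Cube n) (Q : ℕ) :
    Nat.gcd Q (pr B s e) ≤ (2 * B.y) ^ tB B Q := by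
  rcases Nat.eq_zero_or_pos n with hn | hn
  · subst hn
    have h1 : pr B s e = 1 := by
      unfold pr
      apply Finset.prod_eq_one
      intro j _
      exact j.elim0
    have h2 : tB B Q = 0 := by
      unfold tB
      rw [Finset.card_eq_zero]
      ext j
      exact j.elim0
    rw [h1, h2]; simp
  have hy : 1 ≤ B.y := B.y_pos hn
  set s1 := s.filter (fun j => B.p j (e j) ∣ Q) with hs1
  set s2 := s.filter (fun j => ¬ B.p j (e j) ∣ Q) with hs2
  have hsplit : pr B s e = pr B s1 e * pr B s2 e := by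
    unfold pr
    rw [hs1, hs2]
    exact (Finset.prod_filter_mul_prod_filter_not s _ _).symm
  have hcop : Nat.Coprime Q (pr B s2 e) := by
    unfold pr
    apply Nat.Coprime.prod_right
    intro j hj
    rw [Nat.coprime_comm]
    exact (Nat.Prime.coprime_iff_not_dvd (B.prime j (e j))).mpr (Finset.mem_filter.mp hj).2
  have h1 : Nat.gcd Q (pr B s e) = Nat.gcd Q (pr B s1 e) := by
    rw [hsplit]
    exact Nat.Coprime.gcd_mul_right_cancel_right _ hcop.symm
  rw [h1]
  calc Nat.gcd Q (pr B s1 e) ≤ pr B s1 e := Nat.gcd_le_right _ (pr_pos B s1 e)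
    _ ≤ (2 * B.y) ^ s1.card := pr_le B s1 e
    _ ≤ (2 * B.y) ^ tB B Q := by
        apply Nat.pow_le_pow_right (by omega)
        unfold tB
        apply Finset.card_le_card
        intro j hj
        exact Finset.mem_filter.mpr ⟨Finset.mem_univ _, _, (Finset.mem_filter.mp hj).2⟩

/-- products over the same set of coordinates determine the signs there. -/
theorem pr_inj {n : ℕ} (B : Base n) (s : Finset (Fin n)) (e1 e2 : Cube n)
    (h : pr B s e1 = pr B s e2) (j : Fin n) (hj : j ∈ s) : e1 j = e2 j := by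
  have h1 : B.p j (e1 j) ∣ pr B s e1 := Finset.dvd_prod_of_mem (fun j => B.p j (e1 j)) hj
  rw [h] at h1
  unfold pr at h1
  obtain ⟨i, _, hi2⟩ := ((B.prime j (e1 j)).prime.dvd_finsetProd_iff _).mp h1
  have h3 := (Nat.prime_dvd_prime_iff_eq (B.prime j (e1 j)) (B.prime i (e2 i))).mp hi2
  obtain ⟨h4, h5⟩ := B.inj _ _ _ _ h3
  subst h4
  exact h5

theorem w_split {n : ℕ} (B : Base n) (k : ℕ) (e : Cube n) :
    B.w e = pr B (univ.filter (fun j : Fin n => ¬ j.val < k)) e *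
      pr B (univ.filter (fun j : Fin n => j.val < k)) e := by
  unfold Base.w pr
  rw [mul_comm]
  exact (Finset.prod_filter_mul_prod_filter_not univ _ _).symm

theorem inj_main {n : ℕ} (B : Base n) (Q k : ℕ) (hQ : 1 ≤ Q)
    (h1 : (2 * B.y : ℝ) ^ (tB B Q) ≤ (Q : ℝ) ^ (1 / 5 : ℝ))
    (h2 : (2 * B.y : ℝ) ^ k ≤ (Q : ℝ) ^ (1 / 2 : ℝ))
    (e1 e2 e' : Cube n) (hb1 : (e1, e') ∈ badQ B Q) (hb2 : (e2, e') ∈ badQ B Q)
    (hoff : ∀ j : Fin n, ¬ j.val < k → e1 j = e2 j) : e1 = e2 := by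
  have hQ0 : (0 : ℝ) < Q := by exact_mod_cast hQ
  simp only [badQ, Finset.mem_filter, Finset.mem_univ, true_and] at hb1 hb2
  set G1 : ℕ := Int.gcd (B.dw (e1, e')) Q with hG1
  set G2 : ℕ := Int.gcd (B.dw (e2, e')) Q with hG2
  set c := pr B (univ.filter (fun j : Fin n => ¬ j.val < k)) e1 with hc
  have hc2 : pr B (univ.filter (fun j : Fin n => ¬ j.val < k)) e2 = c := by
    rw [hc]
    unfold pr
    apply Finset.prod_congr rfl
    intro j hj
    rw [hoff j (Finset.mem_filter.mp hj).2]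
  set J := univ.filter (fun j : Fin n => j.val < k) with hJ
  set a1 := pr B J e1 with ha1
  set a2 := pr B J e2 with ha2
  have hw1 : B.w e1 = c * a1 := w_split B k e1
  have hw2 : B.w e2 = c * a2 := by rw [w_split B k e2, hc2]
  -- suffices `a1 = a2`
  have hfin : a1 = a2 → e1 = e2 := by
    intro h
    funext j
    by_cases hj : j.val < k
    · exact pr_inj B J e1 e2 h j (Finset.mem_filter.mpr ⟨Finset.mem_univ _, hj⟩)
    · exact hoff j hj
  apply hfin
  by_contra hne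
  -- the gcd
  have hG1Q : G1 ∣ Q := by
    have : (G1 : ℤ) ∣ (Q : ℤ) := Int.gcd_dvd_right _ _
    exact_mod_cast this
  have hG2Q : G2 ∣ Q := by
    have : (G2 : ℤ) ∣ (Q : ℤ) := Int.gcd_dvd_right _ _
    exact_mod_cast this
  set g := Nat.gcd G1 G2 with hg
  have hgQ : g ∣ Q := (Nat.gcd_dvd_left _ _).trans hG1Q
  have hg0 : 0 < g := Nat.pos_of_dvd_of_pos hgQ hQ
  have hprod : G1 * G2 ≤ g * Q := by
    rw [← Nat.gcd_mul_lcm G1 G2]
    exact Nat.mul_le_mul_left _ (Nat.le_of_dvd hQ (Nat.lcm_dvd hG1Q hG2Q))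
  have hdvd : (g : ℤ) ∣ (c : ℤ) * ((a1 : ℤ) - a2) := by
    have h3 : (g : ℤ) ∣ B.dw (e1, e') := by
      have h4 : (g : ℤ) ∣ (G1 : ℤ) := by exact_mod_cast Nat.gcd_dvd_left G1 G2
      exact h4.trans (Int.gcd_dvd_left _ _)
    have h5 : (g : ℤ) ∣ B.dw (e2, e') := by
      have h4 : (g : ℤ) ∣ (G2 : ℤ) := by exact_mod_cast Nat.gcd_dvd_right G1 G2
      exact h4.trans (Int.gcd_dvd_left _ _)
    have h6 : (c : ℤ) * ((a1 : ℤ) - a2) = B.dw (e1, e') - B.dw (e2, e') := by
      unfold Base.dw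
      simp only [hw1, hw2]
      push_cast
      ring
    rw [h6]
    exact dvd_sub h3 h5
  set u := Nat.gcd g c with hu
  have hu0 : 0 < u := Nat.gcd_pos_of_pos_left _ hg0
  have hule : u ≤ (2 * B.y) ^ tB B Q := by
    have h3 : u ∣ Nat.gcd Q c := Nat.gcd_dvd_gcd_of_dvd_left c hgQ
    have h4 : u ≤ Nat.gcd Q c := Nat.le_of_dvd (Nat.gcd_pos_of_pos_left _ hQ) h3
    exact h4.trans (gcd_pr_le B _ e1 Q)
  have hne' : (a1 : ℤ) - a2 ≠ 0 := by
    intro h
    apply hne
    have : (a1 : ℤ) = a2 := by linarith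
    exact_mod_cast this
  have hdvd2 : ((g / u : ℕ) : ℤ) ∣ (a1 : ℤ) - a2 := by
    have h3 : g ∣ c * ((a1 : ℤ) - a2).natAbs := by
      have h4 := Int.natAbs_dvd_natAbs.mpr hdvd
      rw [Int.natAbs_mul, Int.natAbs_natCast, Int.natAbs_natCast] at h4
      exact h4
    have h4 : g / u ∣ ((a1 : ℤ) - a2).natAbs := by
      have h5 : Nat.Coprime (g / u) (c / u) := Nat.coprime_div_gcd_div_gcd hu0
      apply h5.dvd_of_dvd_mul_left
      have h6 : g = u * (g / u) := (Nat.mul_div_cancel' (Nat.gcd_dvd_left g c)).symm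
      have h7 : c = u * (c / u) := (Nat.mul_div_cancel' (Nat.gcd_dvd_right g c)).symm
      have h8 : u * (g / u) ∣ u * (c / u * ((a1 : ℤ) - a2).natAbs) := by
        rw [← h6, ← mul_assoc, ← h7]
        exact h3
      exact Nat.dvd_of_mul_dvd_mul_left hu0 h8
    exact Int.natCast_dvd.mpr h4
  have hle : ((g / u : ℕ) : ℤ) ≤ |(a1 : ℤ) - a2| :=
    Int.le_of_dvd (abs_pos.mpr hne') ((dvd_abs _ _).mpr hdvd2)
  have hJc : J.card ≤ k := by
    have h3 : J.card ≤ (Finset.range k).card := by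
      apply Finset.card_le_card_of_injOn (fun j : Fin n => j.val)
      · intro j hj
        have := (Finset.mem_filter.mp hj).2
        simpa using this
      · intro a _ b _ hab
        exact Fin.ext hab
    simpa using h3
  have hlt : |(a1 : ℤ) - a2| < ((2 * B.y) ^ k : ℕ) := by
    have hn : 1 ≤ n := by
      by_contra h
      have h0 : n = 0 := by omega
      subst h0
      apply hne
      rw [ha1, ha2]
      unfold pr
      apply Finset.prod_congr rfl
      intro j _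
      exact j.elim0
    have hy := B.y_pos hn
    have h3 : (a1 : ℤ) ≤ ((2 * B.y) ^ k : ℕ) := by
      have : a1 ≤ (2 * B.y) ^ k :=
        (pr_le B J e1).trans (Nat.pow_le_pow_right (by omega) hJc)
      exact_mod_cast this
    have h4 : (a2 : ℤ) ≤ ((2 * B.y) ^ k : ℕ) := by
      have : a2 ≤ (2 * B.y) ^ k :=
        (pr_le B J e2).trans (Nat.pow_le_pow_right (by omega) hJc)
      exact_mod_cast this
    have h5 : (0 : ℤ) < a1 := by exact_mod_cast pr_pos B J e1
    have h6 : (0 : ℤ) < a2 := by exact_mod_cast pr_pos B J e2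
    rw [abs_lt]
    constructor <;> linarith
  -- real inequalities
  have hltN : g / u < (2 * B.y) ^ k := by
    have := lt_of_le_of_lt hle hlt
    exact_mod_cast this
  have hgu : g = u * (g / u) := (Nat.mul_div_cancel' (Nat.gcd_dvd_left g c)).symm
  have hr1 : (g : ℝ) < (Q : ℝ) ^ (1 / 5 : ℝ) * (Q : ℝ) ^ (1 / 2 : ℝ) := by
    have h3 : (g : ℝ) = (u : ℝ) * ((g / u : ℕ) : ℝ) := by exact_mod_cast hgu
    rw [h3]
    have h4 : (u : ℝ) ≤ (Q : ℝ) ^ (1 / 5 : ℝ) := by
      refine le_trans ?_ h1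
      exact_mod_cast hule
    have h5 : ((g / u : ℕ) : ℝ) < (Q : ℝ) ^ (1 / 2 : ℝ) := by
      refine lt_of_lt_of_le ?_ h2
      exact_mod_cast hltN
    have h6 : (0 : ℝ) < u := by exact_mod_cast hu0
    calc (u : ℝ) * ((g / u : ℕ) : ℝ) < (u : ℝ) * (Q : ℝ) ^ (1 / 2 : ℝ) := by
          exact mul_lt_mul_of_pos_left h5 h6
      _ ≤ _ := mul_le_mul_of_nonneg_right h4 (by positivity)
  have hr2 : (Q : ℝ) ^ (49 / 50 : ℝ) * (Q : ℝ) ^ (49 / 50 : ℝ) < (g : ℝ) * Q := by
    have h3 : (G1 : ℝ) * G2 ≤ (g : ℝ) * Q := by exact_mod_cast hprod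
    refine lt_of_lt_of_le ?_ h3
    have h4 : (0 : ℝ) < (Q : ℝ) ^ (49 / 50 : ℝ) := Real.rpow_pos_of_pos hQ0 _
    nlinarith
  have hr3 : (Q : ℝ) ^ (49 / 50 : ℝ) * (Q : ℝ) ^ (49 / 50 : ℝ) <
      (Q : ℝ) ^ (1 / 5 : ℝ) * (Q : ℝ) ^ (1 / 2 : ℝ) * Q :=
    hr2.trans (mul_lt_mul_of_pos_right hr1 hQ0)
  have hQ1 : (1 : ℝ) ≤ Q := by exact_mod_cast hQ
  have hr4 : (Q : ℝ) ^ (1 / 5 : ℝ) * (Q : ℝ) ^ (1 / 2 : ℝ) * Q ≤
      (Q : ℝ) ^ (49 / 50 : ℝ) * (Q : ℝ) ^ (49 / 50 : ℝ) := by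
    have h3 : (Q : ℝ) ^ (1 / 5 : ℝ) * (Q : ℝ) ^ (1 / 2 : ℝ) * Q = (Q : ℝ) ^ (17 / 10 : ℝ) := by
      nth_rewrite 3 [← Real.rpow_one (Q : ℝ)]
      rw [← Real.rpow_add hQ0, ← Real.rpow_add hQ0]
      norm_num
    have h4 : (Q : ℝ) ^ (49 / 50 : ℝ) * (Q : ℝ) ^ (49 / 50 : ℝ) = (Q : ℝ) ^ (49 / 25 : ℝ) := by
      rw [← Real.rpow_add hQ0]
      norm_num
    rw [h3, h4]
    exact Real.rpow_le_rpow_of_exponent_le hQ1 (by norm_num)
  linarith

end GCD1

open GCD1 in
theorem gcdCase1_proof : GcdCase1 := by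
  intro n B Q k hQ hk h1 h2
  have hcard : (badQ B Q).card ≤
      Fintype.card (Cube n × ({j : Fin n // ¬ j.val < k} → Bool)) := by
    rw [← Finset.card_univ]
    apply Finset.card_le_card_of_injOn
      (fun e : Cube n × Cube n => ((e.2, fun j => e.1 j.1) : Cube n × ({j : Fin n // ¬ j.val < k} → Bool)))
    · intro a _
      exact Finset.mem_univ _
    · intro a ha b hb hab
      obtain ⟨a1, a'⟩ := a
      obtain ⟨b1, b'⟩ := b
      simp only [Prod.mk.injEq] at hab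
      obtain ⟨h3, h4⟩ := hab
      subst h3
      have h5 : a1 = b1 := by
        apply inj_main B Q k hQ h1 h2 a1 b1 a' ha hb
        intro j hj
        exact congrFun h4 ⟨j, hj⟩
      rw [h5]
  have hc : Fintype.card {j : Fin n // ¬ j.val < k} = n - k := by
    rw [Fintype.card_subtype_compl]
    have : Fintype.card {j : Fin n // j.val < k} = k := by
      rw [Fintype.card_subtype]
      have h3 : (univ.filter (fun j : Fin n => j.val < k)) =
          (univ : Finset (Fin k)).map ⟨Fin.castLE hk, Fin.castLE_injective hk⟩ := by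
        ext j
        simp only [Finset.mem_filter, Finset.mem_univ, true_and, Finset.mem_map,
          Function.Embedding.coeFn_mk]
        constructor
        · intro hj
          exact ⟨⟨j.val, hj⟩, by ext; simp⟩
        · rintro ⟨i, rfl⟩
          simp
      rw [h3]; simp
    rw [this]
    simp
  rw [Fintype.card_prod, Fintype.card_fun, Fintype.card_fun, hc, Fintype.card_fin,
    Fintype.card_bool] at hcard
  calc 2 ^ k * (badQ B Q).card ≤ 2 ^ k * (2 ^ n * 2 ^ (n - k)) := Nat.mul_le_mul_left _ hcard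
    _ = (2 ^ k * 2 ^ (n - k)) * 2 ^ n := by ring
    _ = 2 ^ n * 2 ^ n := by rw [← pow_add]; congr 2; omega
    _ = 4 ^ n := by rw [← mul_pow]; norm_num

end Crest.Agent.R19
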