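import Crest.Agent.R19.Basics

/-! Row 19, task GCD2: `GcdCase2` (Chernoff argument). -/

set_option autoImplicit false

open Finset Classical

namespace Crest.Agent.R19

namespace GCD2

/-- the coordinates `j` such that some `p j s` divides `Q`. -/
def BQ {n : ℕ} (B : Base n) (Q : ℕ) : Finset (Fin n) := univ.filter (fun j : Fin n => ∃ s, B.p j s ∣ Q)

/-- coordinates of `BQ` where the two points differ -/
def DD {n : ℕ} (B : Base n) (Q : ℕ) (e : Cube n × Cube n) : Finset (Fin n) :=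
  (BQ B Q).filter (fun j => e.1 j ≠ e.2 j)

theorem not_dvd_w {n : ℕ} (B : Base n) (j : Fin n) (s : Bool) (e : Cube n) (h : e j ≠ s) :
    ¬ B.p j s ∣ B.w e := by
  intro hd
  unfold Base.w at hd
  obtain ⟨i, _, hi⟩ := ((B.prime j s).prime.dvd_finsetProd_iff _).mp hd
  have h3 := (Nat.prime_dvd_prime_iff_eq (B.prime j s) (B.prime i (e i))).mp hi
  obtain ⟨h4, h5⟩ := B.inj _ _ _ _ h3
  subst h4
  exact h h5.symm

theorem dvd_w {n : ℕ} (B : Base n) (j : Fin n) (s : Bool) (e : Cube n) (h : e j = s) :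
    B.p j s ∣ B.w e := by
  subst h
  exact Finset.dvd_prod_of_mem (fun j => B.p j (e j)) (Finset.mem_univ j)

theorem not_dvd_dw {n : ℕ} (B : Base n) (j : Fin n) (s : Bool) (e : Cube n × Cube n)
    (h : e.1 j ≠ e.2 j) : ¬ (B.p j s : ℤ) ∣ B.dw e := by
  intro hd
  unfold Base.dw at hd
  by_cases h1 : e.1 j = s
  · have h2 : e.2 j ≠ s := fun h' => h (h1.trans h'.symm)
    have h3 : (B.p j s : ℤ) ∣ (B.w e.1 : ℤ) := by exact_mod_cast dvd_w B j s e.1 h1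
    have h4 : (B.p j s : ℤ) ∣ (B.w e.2 : ℤ) := (dvd_sub_right h3).mp hd
    exact not_dvd_w B j s e.2 h2 (by exact_mod_cast h4)
  · have h2 : e.2 j = s := by
      revert h h1
      cases e.1 j <;> cases e.2 j <;> cases s <;> simp
    have h3 : (B.p j s : ℤ) ∣ (B.w e.2 : ℤ) := by exact_mod_cast dvd_w B j s e.2 h2
    have h4 : (B.p j s : ℤ) ∣ (B.w e.1 : ℤ) := (dvd_sub_left h3).mp hd
    exact not_dvd_w B j s e.1 h1 (by exact_mod_cast h4)

theorem gcd_mul_le {n : ℕ} (B : Base n) (Q : ℕ) (hQ : 1 ≤ Q) (e : Cube n × Cube n) :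
    Int.gcd (B.dw e) Q * B.y ^ (DD B Q e).card ≤ Q := by
  have hch : ∀ j : Fin n, ∃ s : Bool, j ∈ BQ B Q → B.p j s ∣ Q := by
    intro j
    by_cases hj : j ∈ BQ B Q
    · obtain ⟨s, hs⟩ := (Finset.mem_filter.mp hj).2
      exact ⟨s, fun _ => hs⟩
    · exact ⟨true, fun h => absurd h hj⟩
  choose s hs using hch
  have hdvd : ∏ j ∈ DD B Q e, B.p j (s j) ∣ Q := by
    apply Finset.prod_dvd_of_isRelPrime
    · intro i _ j _ hij
      show IsRelPrime (B.p i (s i)) (B.p j (s j))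
      rw [← Nat.coprime_iff_isRelPrime, Nat.coprime_primes (B.prime i _) (B.prime j _)]
      intro h
      exact hij (B.inj _ _ _ _ h).1
    · intro i hi
      exact hs i (Finset.mem_filter.mp hi).1
  have hcop : Nat.Coprime (Int.gcd (B.dw e) Q) (∏ j ∈ DD B Q e, B.p j (s j)) := by
    apply Nat.Coprime.prod_right
    intro j hj
    rw [Nat.coprime_comm]
    apply (Nat.Prime.coprime_iff_not_dvd (B.prime j (s j))).mpr
    intro hd
    apply not_dvd_dw B j (s j) e (Finset.mem_filter.mp hj).2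
    have h1 : ((B.p j (s j) : ℕ) : ℤ) ∣ ((Int.gcd (B.dw e) Q : ℕ) : ℤ) := by exact_mod_cast hd
    exact h1.trans (Int.gcd_dvd_left _ _)
  have hgQ : Int.gcd (B.dw e) Q ∣ Q := by
    have : ((Int.gcd (B.dw e) Q : ℕ) : ℤ) ∣ (Q : ℤ) := Int.gcd_dvd_right _ _
    exact_mod_cast this
  have h1 : Int.gcd (B.dw e) Q * ∏ j ∈ DD B Q e, B.p j (s j) ∣ Q :=
    Nat.Coprime.mul_dvd_of_dvd_of_dvd hcop hgQ hdvd
  have h2 : B.y ^ (DD B Q e).card ≤ ∏ j ∈ DD B Q e, B.p j (s j) := by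
    calc B.y ^ (DD B Q e).card = ∏ _j ∈ DD B Q e, B.y := by simp
      _ ≤ _ := Finset.prod_le_prod (fun _ _ => Nat.zero_le _) (fun j _ => B.lo j (s j))
  exact (Nat.mul_le_mul_left _ h2).trans (Nat.le_of_dvd hQ h1)

/-- the generating function -/
theorem gen {n : ℕ} (B : Base n) (Q : ℕ) :
    ∑ e : Cube n × Cube n, (1 / 3 : ℝ) ^ (DD B Q e).card = (2 / 3 : ℝ) ^ tB B Q * 4 ^ n := by
  have h1 : ∀ e : Cube n × Cube n, (1 / 3 : ℝ) ^ (DD B Q e).card =
      ∏ j : Fin n, (if j ∈ BQ B Q ∧ e.1 j ≠ e.2 j then (1 / 3 : ℝ) else 1) := by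
    intro e
    rw [Finset.prod_ite]
    simp only [Finset.prod_const_one, mul_one, Finset.prod_const]
    congr 1
    unfold DD
    congr 1
    ext j
    simp [Finset.mem_filter]
  simp_rw [h1]
  have h2 : ∑ e : Cube n × Cube n,
      ∏ j : Fin n, (if j ∈ BQ B Q ∧ e.1 j ≠ e.2 j then (1 / 3 : ℝ) else 1) =
      ∑ f : Fin n → Bool × Bool,
        ∏ j : Fin n, (if j ∈ BQ B Q ∧ (f j).1 ≠ (f j).2 then (1 / 3 : ℝ) else 1) := by
    symm
    apply Fintype.sum_equiv (Equiv.arrowProdEquivProdArrow (Fin n) (fun _ => Bool) (fun _ => Bool))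
    intro f
    rfl
  rw [h2]
  have h3 : ∑ f : Fin n → Bool × Bool,
        ∏ j : Fin n, (if j ∈ BQ B Q ∧ (f j).1 ≠ (f j).2 then (1 / 3 : ℝ) else 1) =
      ∏ j : Fin n, ∑ x : Bool × Bool, (if j ∈ BQ B Q ∧ x.1 ≠ x.2 then (1 / 3 : ℝ) else 1) := by
    rw [Finset.prod_univ_sum]
    simp
  rw [h3]
  have h4 : ∀ j : Fin n, ∑ x : Bool × Bool, (if j ∈ BQ B Q ∧ x.1 ≠ x.2 then (1 / 3 : ℝ) else 1) =
      (if j ∈ BQ B Q then (2 / 3 : ℝ) else 1) * 4 := by
    intro j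
    rw [Fintype.sum_prod_type]
    simp only [Fintype.sum_bool]
    by_cases hj : j ∈ BQ B Q
    · simp [hj]; norm_num
    · simp [hj]; norm_num
  simp_rw [h4]
  rw [Finset.prod_mul_distrib]
  congr 1
  · rw [Finset.prod_ite]
    simp only [Finset.prod_const_one, mul_one, Finset.prod_const]
    congr 1
    unfold tB BQ
    congr 1
    ext j
    simp [Finset.mem_filter]
  · simp

end GCD2

open GCD2 in
theorem gcdCase2_proof : GcdCase2 := by
  intro n B Q hQ hK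
  have hQ0 : (0 : ℝ) < Q := by exact_mod_cast hQ
  set t := tB B Q with ht
  have hbad : ∀ e ∈ badQ B Q, 4 * (DD B Q e).card ≤ t := by
    intro e he
    apply hK
    simp only [badQ, Finset.mem_filter, Finset.mem_univ, true_and] at he
    have h1 : ((Int.gcd (B.dw e) Q : ℕ) : ℝ) * (B.y : ℝ) ^ (DD B Q e).card ≤ Q := by
      exact_mod_cast gcd_mul_le B Q hQ e
    have h2 : (Q : ℝ) ^ (49 / 50 : ℝ) * (Q : ℝ) ^ (1 / 50 : ℝ) = Q := by
      rw [← Real.rpow_add hQ0]; norm_num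
    have h3 : (0 : ℝ) < (Q : ℝ) ^ (49 / 50 : ℝ) := Real.rpow_pos_of_pos hQ0 _
    by_contra hcon
    have h4 : (Q : ℝ) ^ (1 / 50 : ℝ) ≤ (B.y : ℝ) ^ (DD B Q e).card := not_lt.mp hcon
    have h5 : (0 : ℝ) < (Q : ℝ) ^ (1 / 50 : ℝ) := Real.rpow_pos_of_pos hQ0 _
    nlinarith [mul_lt_mul_of_pos_right he h5, mul_le_mul_of_nonneg_left h4
      (by positivity : (0 : ℝ) ≤ ((Int.gcd (B.dw e) Q : ℕ) : ℝ))]
  -- Chernoff
  have h1 : ((badQ B Q).card : ℝ) * (1 / 3 : ℝ) ^ ((t : ℝ) / 4) ≤ (2 / 3 : ℝ) ^ t * 4 ^ n := by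
    rw [← gen B Q]
    calc ((badQ B Q).card : ℝ) * (1 / 3 : ℝ) ^ ((t : ℝ) / 4)
        = ∑ _e ∈ badQ B Q, (1 / 3 : ℝ) ^ ((t : ℝ) / 4) := by
          rw [Finset.sum_const, nsmul_eq_mul]
      _ ≤ ∑ e ∈ badQ B Q, (1 / 3 : ℝ) ^ (DD B Q e).card := by
          apply Finset.sum_le_sum
          intro e he
          rw [← Real.rpow_natCast]
          apply Real.rpow_le_rpow_of_exponent_ge (by norm_num) (by norm_num)
          have := hbad e he
          have h2 : (4 * (DD B Q e).card : ℝ) ≤ t := by exact_mod_cast this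
          linarith
      _ ≤ _ := by
          apply Finset.sum_le_sum_of_subset_of_nonneg (Finset.subset_univ _)
          intro e _ _
          positivity
  have h2 : (2 / 3 : ℝ) ^ t ≤ (1 / 3 : ℝ) ^ ((t : ℝ) / 4) * Real.exp (-(t : ℝ) / 8) := by
    have h3 : (2 / 3 : ℝ) ≤ (1 / 3 : ℝ) ^ (1 / 4 : ℝ) * Real.exp (-1 / 8) := by
      have h4 : (2 / 3 : ℝ) ^ 4 ≤ ((1 / 3 : ℝ) ^ (1 / 4 : ℝ) * Real.exp (-1 / 8)) ^ 4 := by
        rw [mul_pow, ← Real.rpow_natCast ((1 / 3 : ℝ) ^ (1 / 4 : ℝ)) 4, ← Real.rpow_mul (by norm_num),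
          ← Real.exp_nat_mul]
        norm_num
        have h5 : Real.exp (-(1 / 2)) = (Real.exp (1 / 2))⁻¹ := by rw [Real.exp_neg]
        have h6 : Real.exp (1 / 2) ^ 2 = Real.exp 1 := by
          rw [← Real.exp_nat_mul]; norm_num
        have h7 := Real.exp_one_lt_d9
        have h8 : Real.exp (1 / 2) < 27 / 16 := by
          have h9 : 0 < Real.exp (1 / 2) := Real.exp_pos _
          nlinarith
        rw [h5]
        have h9 : (16 / 27 : ℝ) ≤ (Real.exp (1 / 2))⁻¹ := by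
          rw [show (16 / 27 : ℝ) = (27 / 16)⁻¹ by norm_num]
          exact inv_anti₀ (Real.exp_pos _) h8.le
        linarith
      exact le_of_pow_le_pow_left₀ (by norm_num) (by positivity) h4
    calc (2 / 3 : ℝ) ^ t ≤ ((1 / 3 : ℝ) ^ (1 / 4 : ℝ) * Real.exp (-1 / 8)) ^ t :=
          pow_le_pow_left₀ (by norm_num) h3 t
      _ = _ := by
          rw [mul_pow, ← Real.rpow_natCast ((1 / 3 : ℝ) ^ (1 / 4 : ℝ)) t,
            ← Real.rpow_mul (by norm_num), ← Real.exp_nat_mul]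
          congr 2 <;> ring
  have h3 : (0 : ℝ) < (1 / 3 : ℝ) ^ ((t : ℝ) / 4) := by positivity
  have h4 : (1 / 3 : ℝ) ^ ((t : ℝ) / 4) * ((badQ B Q).card : ℝ) ≤
      (1 / 3 : ℝ) ^ ((t : ℝ) / 4) * (Real.exp (-(t : ℝ) / 8) * 4 ^ n) := by
    have h5 : (2 / 3 : ℝ) ^ t * 4 ^ n ≤
        (1 / 3 : ℝ) ^ ((t : ℝ) / 4) * Real.exp (-(t : ℝ) / 8) * 4 ^ n :=
      mul_le_mul_of_nonneg_right h2 (by positivity)
    linarith
  exact le_of_mul_le_mul_left h4 h3

end Crest.Agent.R19
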