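import Crest.Agent.R19.Defs

/-! Row 19, task GEOM: `GeomSum`. -/

set_option autoImplicit false

open Finset Classical

namespace Crest.Agent.R19

namespace GEOM

theorem ex_add (x y : ℝ) : ex (x + y) = ex x * ex y := by
  unfold ex
  rw [← Complex.exp_add]
  congr 1
  push_cast
  ring

theorem norm_ex (x : ℝ) : ‖ex x‖ = 1 := by
  unfold ex
  have : (2 * (Real.pi : ℂ) * (x : ℂ) * Complex.I) = ((2 * Real.pi * x : ℝ) : ℂ) * Complex.I := by
    push_cast; ring
  rw [this, Complex.norm_exp_ofReal_mul_I]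

theorem ex_int (k : ℤ) : ex (k : ℝ) = 1 := by
  unfold ex
  rw [Complex.exp_eq_one_iff]
  exact ⟨k, by push_cast; ring⟩

theorem norm_ex_sub_one (x : ℝ) (hx : |x| ≤ 1 / 2) : 4 * |x| ≤ ‖ex x - 1‖ := by
  have h : ex x - 1 = Complex.exp (Complex.I * ((2 * Real.pi * x : ℝ) : ℂ)) - 1 := by
    unfold ex
    congr 2
    push_cast
    ring
  rw [h, Complex.norm_exp_I_mul_ofReal_sub_one]
  have h2 : 2 * Real.pi * x / 2 = Real.pi * x := by ring
  rw [h2, norm_mul]
  have h3 : |Real.pi * x| ≤ Real.pi / 2 := by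
    rw [abs_mul, abs_of_pos Real.pi_pos]
    nlinarith [Real.pi_pos]
  have h4 := Real.mul_abs_le_abs_sin h3
  rw [abs_mul, abs_of_pos Real.pi_pos] at h4
  have h5 : 2 / Real.pi * (Real.pi * |x|) = 2 * |x| := by
    field_simp
  rw [h5] at h4
  rw [Real.norm_eq_abs, Real.norm_eq_abs, abs_of_pos (by norm_num : (0 : ℝ) < 2)]
  linarith

theorem telescoping (α : ℝ) (a N : ℕ) :
    (∑ D ∈ Finset.Ico a (a + N), ex (D * α)) * (ex α - 1) = ex ((a + N : ℕ) * α) - ex (a * α) := by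
  rw [Finset.sum_mul]
  have h : ∀ D ∈ Finset.Ico a (a + N), ex (D * α) * (ex α - 1) =
      ex ((D + 1 : ℕ) * α) - ex ((D : ℕ) * α) := by
    intro D _
    rw [mul_sub, mul_one, ← ex_add]
    congr 2
    push_cast
    ring
  rw [Finset.sum_congr rfl h]
  exact Finset.sum_Ico_sub (fun D : ℕ => ex ((D : ℕ) * α)) (Nat.le_add_right a N)

end GEOM

open GEOM in
theorem geomSum_proof : GeomSum := by
  intro α a N
  set S := ∑ D ∈ Finset.Ico a (a + N), ex (D * α) with hS
  have h1 : ‖S‖ * ‖ex α - 1‖ ≤ 2 := by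
    rw [← norm_mul, hS, telescoping]
    calc ‖ex ((a + N : ℕ) * α) - ex (a * α)‖ ≤ ‖ex ((a + N : ℕ) * α)‖ + ‖ex (a * α)‖ :=
          norm_sub_le _ _
      _ = 2 := by rw [norm_ex, norm_ex]; norm_num
  have h2 : ex α = ex (α - round α) := by
    have h3 : ex (α - round α + (round α : ℤ)) = ex (α - round α) * ex ((round α : ℤ) : ℝ) :=
      ex_add _ _
    rw [ex_int, mul_one] at h3
    rw [← h3]
    congr 1
    ring
  have h3 : |α - round α| ≤ 1 / 2 := abs_sub_round α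
  have h4 := norm_ex_sub_one (α - round α) h3
  rw [← h2] at h4
  have h5 : 4 * |α - round α| * ‖S‖ ≤ 2 := by
    calc 4 * |α - round α| * ‖S‖ ≤ ‖ex α - 1‖ * ‖S‖ :=
          mul_le_mul_of_nonneg_right h4 (norm_nonneg _)
      _ ≤ 2 := by rw [mul_comm]; exact h1
  linarith

end Crest.Agent.R19
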