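import Crest.Agent.R19.KMOD

/-! Row 19, task KARCH: `kArch_proof` is proved in `Crest.Agent.R19.KMOD`. -/
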