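import Crest.Agent.R19.Basics

/-!
# Row 19, tasks KMOD and KARCH : sums of reciprocals of primes
-/

set_option autoImplicit false

open Finset Classical

namespace Crest.Agent.R19.KMOD

lemma sum_inv_mul_prod {R : Type} [CommRing R] {j : ℕ} (a b : Fin j → R) (h : ∀ l, a l * b l = 1) :
    (∑ l, b l) * ∏ l, a l = ∑ i, ∏ l ∈ univ.erase i, a l := by
  rw [Finset.sum_mul]
  refine Finset.sum_congr rfl (fun l _ => ?_)
  rw [← Finset.mul_prod_erase univ a (mem_univ l), ← mul_assoc, mul_comm (b l), h l, one_mul]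

/-- `A = ∑_i ∏_{l≠i} P_l`. -/
def AA {n j : ℕ} (P : Fin j → PZ n) : ℕ := ∑ i, ∏ l ∈ univ.erase i, (P l : ℕ)

/-- `∏ P_l`. -/
def PP {n j : ℕ} (P : Fin j → PZ n) : ℕ := ∏ l, (P l : ℕ)

lemma PP_pos {n j : ℕ} (P : Fin j → PZ n) : 0 < PP P := Finset.prod_pos (fun _ _ => (PZ_prime _).pos)

lemma PP_le {n j : ℕ} (P : Fin j → PZ n) : PP P ≤ (2 ^ (n + 1)) ^ j := by
  unfold PP
  calc ∏ l, (P l : ℕ) ≤ ∏ _l : Fin j, 2 ^ (n + 1) := Finset.prod_le_prod' (fun _ _ => PZ_hi _)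
    _ = _ := by rw [prod_const, card_univ, Fintype.card_fin]

lemma AA_le {n j : ℕ} (P : Fin j → PZ n) : AA P ≤ j * (2 ^ (n + 1)) ^ j := by
  unfold AA
  calc ∑ i, ∏ l ∈ univ.erase i, (P l : ℕ) ≤ ∑ _i : Fin j, (2 ^ (n + 1)) ^ j := by
        refine Finset.sum_le_sum (fun i _ => ?_)
        calc ∏ l ∈ univ.erase i, (P l : ℕ) ≤ ∏ l, (P l : ℕ) :=
              Finset.prod_le_prod_of_subset_of_one_le' (erase_subset _ _)
                (fun l _ _ => (PZ_prime _).one_lt.le)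
          _ ≤ _ := PP_le P
    _ = _ := by rw [sum_const, card_univ, Fintype.card_fin, smul_eq_mul]

/-- from the cross-multiplied equality to the permutation. -/
lemma of_cross (hK : KRat) {n j : ℕ} (hj : j ≤ 2 ^ n) (P P' : Fin j → PZ n)
    (h : AA P * PP P' = AA P' * PP P) : ∃ σ : Equiv.Perm (Fin j), P' = P ∘ σ := by
  apply hK n j hj P P'
  have key : ∀ P : Fin j → PZ n, (∑ l, (1 : ℚ) / ((P l : ℕ) : ℚ)) * (PP P : ℚ) = (AA P : ℚ) := by
    intro P
    have := sum_inv_mul_prod (fun l => ((P l : ℕ) : ℚ)) (fun l => (1 : ℚ) / ((P l : ℕ) : ℚ))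
      (fun l => by
        have : ((P l : ℕ) : ℚ) ≠ 0 := by exact_mod_cast (PZ_prime (P l)).ne_zero
        field_simp)
    unfold PP AA
    push_cast
    exact this
  have h1 : (PP P : ℚ) ≠ 0 := by exact_mod_cast (PP_pos P).ne'
  have h2 : (PP P' : ℚ) ≠ 0 := by exact_mod_cast (PP_pos P').ne'
  have h3 : (AA P : ℚ) * PP P' = AA P' * PP P := by exact_mod_cast h
  rw [← key P, ← key P'] at h3
  have h4 : (PP P : ℚ) * PP P' ≠ 0 := mul_ne_zero h1 h2
  apply mul_right_cancel₀ h4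
  linear_combination h3

end Crest.Agent.R19.KMOD

namespace Crest.Agent.R19

open KMOD

theorem kMod_proof : KRat → KMod := by
  intro hK n j q hj hq P P' hP hP' hsum
  apply of_cross hK hj P P'
  have key : ∀ P : Fin j → PZ n, (∀ l, Nat.Coprime (P l : ℕ) q) →
      (∑ l, (((P l : ℕ) : ZMod q))⁻¹) * (PP P : ZMod q) = (AA P : ZMod q) := by
    intro P hP
    have := sum_inv_mul_prod (fun l => ((P l : ℕ) : ZMod q)) (fun l => (((P l : ℕ) : ZMod q))⁻¹)
      (fun l => ZMod.coe_mul_inv_eq_one _ (hP l))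
    unfold PP AA
    push_cast
    exact this
  have h1 : ((AA P * PP P' : ℕ) : ZMod q) = ((AA P' * PP P : ℕ) : ZMod q) := by
    push_cast
    rw [← key P hP, ← key P' hP', hsum]
    ring
  have hb : ∀ P P' : Fin j → PZ n, AA P * PP P' < q := by
    intro P P'
    calc AA P * PP P' ≤ (j * (2 ^ (n + 1)) ^ j) * (2 ^ (n + 1)) ^ j :=
          Nat.mul_le_mul (AA_le P) (PP_le P')
      _ = j * (2 ^ (n + 1)) ^ (2 * j) := by rw [two_mul, pow_add]; ring
      _ < q := hq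
  rw [ZMod.natCast_eq_natCast_iff'] at h1
  rwa [Nat.mod_eq_of_lt (hb P P'), Nat.mod_eq_of_lt (hb P' P)] at h1

theorem kArch_proof : KRat → KArch := by
  intro hK n j hj P P' hlt
  apply of_cross hK hj P P'
  have key : ∀ P : Fin j → PZ n, (∑ l, (1 : ℝ) / ((P l : ℕ) : ℝ)) * (PP P : ℝ) = (AA P : ℝ) := by
    intro P
    have := sum_inv_mul_prod (fun l => ((P l : ℕ) : ℝ)) (fun l => (1 : ℝ) / ((P l : ℕ) : ℝ))
      (fun l => by
        have : ((P l : ℕ) : ℝ) ≠ 0 := by exact_mod_cast (PZ_prime (P l)).ne_zero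
        field_simp)
    unfold PP AA
    push_cast
    exact this
  have h1 : |((AA P : ℝ) * PP P' - AA P' * PP P)| < 1 := by
    rw [← key P, ← key P']
    have e1 : (∑ l, (1 : ℝ) / ((P l : ℕ) : ℝ)) * (PP P : ℝ) * (PP P' : ℝ) -
        (∑ l, (1 : ℝ) / ((P' l : ℕ) : ℝ)) * (PP P' : ℝ) * (PP P : ℝ) =
        (∑ l, (1 : ℝ) / ((P l : ℕ) : ℝ) - ∑ l, (1 : ℝ) / ((P' l : ℕ) : ℝ)) *
          ((PP P : ℝ) * PP P') := by ring
    rw [e1, abs_mul, abs_of_nonneg (by positivity : (0 : ℝ) ≤ (PP P : ℝ) * PP P')]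
    refine lt_of_le_of_lt ?_ hlt
    have e2 : (PP P : ℝ) * PP P' ≤ (2 ^ (n + 1)) ^ (2 * j) := by
      have := Nat.mul_le_mul (PP_le P) (PP_le P')
      rw [← pow_add, ← two_mul] at this
      exact_mod_cast this
    gcongr
  have h2 : |((AA P * PP P' : ℕ) : ℤ) - ((AA P' * PP P : ℕ) : ℤ)| < 1 := by
    have : ((|((AA P * PP P' : ℕ) : ℤ) - ((AA P' * PP P : ℕ) : ℤ)| : ℤ) : ℝ) < ((1 : ℤ) : ℝ) := by
      push_cast
      exact h1
    exact_mod_cast this
  rw [Int.abs_lt_one_iff] at h2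
  omega

end Crest.Agent.R19
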