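import Crest.Agent.R19.Basics

/-! Row 19, task KRAT: linear independence of the reciprocals of primes. -/

set_option autoImplicit false

open Finset Classical

namespace Crest.Agent.R19

theorem kRat_proof : KRat := by
  intro n j hj P P' hsum
  -- fibre counts
  set c : PZ n → ℕ := fun p => (univ.filter (fun l => P l = p)).card with hc
  set c' : PZ n → ℕ := fun p => (univ.filter (fun l => P' l = p)).card with hc'
  have hfib : ∀ Q : Fin j → PZ n, ∑ l, (1 : ℚ) / ((Q l : ℕ) : ℚ) =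
      ∑ p : PZ n, ((univ.filter (fun l => Q l = p)).card : ℚ) * (1 / ((p : ℕ) : ℚ)) := by
    intro Q
    rw [← Finset.sum_fiberwise univ Q (fun l => (1 : ℚ) / ((Q l : ℕ) : ℚ))]
    refine Finset.sum_congr rfl (fun p _ => ?_)
    rw [Finset.sum_congr rfl (fun l hl => by rw [(Finset.mem_filter.mp hl).2] :
      ∀ l ∈ univ.filter (fun l => Q l = p), (1 : ℚ) / ((Q l : ℕ) : ℚ) = 1 / ((p : ℕ) : ℚ))]
    rw [Finset.sum_const, nsmul_eq_mul]
  have hcard : ∀ Q : Fin j → PZ n, ∀ p, (univ.filter (fun l => Q l = p)).card ≤ j := by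
    intro Q p
    calc (univ.filter (fun l => Q l = p)).card ≤ (univ : Finset (Fin j)).card :=
          Finset.card_filter_le _ _
      _ = j := by simp
  have hzero : ∑ p : PZ n, ((c p : ℤ) - (c' p : ℤ)) * ∏ q ∈ univ.erase p, ((q : ℕ) : ℤ) = 0 := by
    have h1 : ∑ p : PZ n, ((c p : ℚ) - (c' p : ℚ)) * (1 / ((p : ℕ) : ℚ)) = 0 := by
      have h2 := hfib P
      have h3 := hfib P'
      simp only [sub_mul, Finset.sum_sub_distrib]
      rw [← h2, ← h3, hsum, sub_self]
    have h4 : (∑ p : PZ n, ((c p : ℚ) - (c' p : ℚ)) * ∏ q ∈ univ.erase p, ((q : ℕ) : ℚ)) = 0 := by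
      have h5 : (∑ p : PZ n, ((c p : ℚ) - (c' p : ℚ)) * ∏ q ∈ univ.erase p, ((q : ℕ) : ℚ)) =
          (∏ q : PZ n, ((q : ℕ) : ℚ)) * ∑ p : PZ n, ((c p : ℚ) - (c' p : ℚ)) * (1 / ((p : ℕ) : ℚ)) := by
        rw [Finset.mul_sum]
        refine Finset.sum_congr rfl (fun p _ => ?_)
        rw [← Finset.mul_prod_erase univ _ (Finset.mem_univ p)]
        have hp : ((p : ℕ) : ℚ) ≠ 0 := by exact_mod_cast (PZ_prime p).ne_zero
        field_simp
      rw [h5, h1, mul_zero]
    exact_mod_cast h4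
  have heq : ∀ p : PZ n, c p = c' p := by
    intro p
    have h1 : ((p : ℕ) : ℤ) ∣ ((c p : ℤ) - (c' p : ℤ)) * ∏ q ∈ univ.erase p, ((q : ℕ) : ℤ) := by
      rw [← Finset.add_sum_erase univ _ (Finset.mem_univ p)] at hzero
      have h2 : ((p : ℕ) : ℤ) ∣ ∑ p' ∈ univ.erase p,
          ((c p' : ℤ) - (c' p' : ℤ)) * ∏ q ∈ univ.erase p', ((q : ℕ) : ℤ) := by
        refine Finset.dvd_sum (fun p' hp' => ?_)
        refine dvd_mul_of_dvd_right ?_ _
        exact Finset.dvd_prod_of_mem (fun q : PZ n => ((q : ℕ) : ℤ))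
          (Finset.mem_erase.mpr ⟨(Finset.ne_of_mem_erase hp').symm, Finset.mem_univ p⟩)
      have h3 := (dvd_add_left h2).mp (by rw [hzero]; exact dvd_zero _)
      exact h3
    have h2 : IsCoprime ((p : ℕ) : ℤ) (∏ q ∈ univ.erase p, ((q : ℕ) : ℤ)) := by
      refine IsCoprime.prod_right (fun q hq => ?_)
      rw [Nat.isCoprime_iff_coprime]
      refine (Nat.coprime_primes (PZ_prime p) (PZ_prime q)).mpr ?_
      intro h
      exact (Finset.ne_of_mem_erase hq) (Subtype.ext h.symm)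
    have h3 : ((p : ℕ) : ℤ) ∣ ((c p : ℤ) - (c' p : ℤ)) := h2.dvd_of_dvd_mul_right h1
    have h4 : |((c p : ℤ) - (c' p : ℤ))| < ((p : ℕ) : ℤ) := by
      have h5 : c p ≤ j := hcard P p
      have h6 : c' p ≤ j := hcard P' p
      have h7 := PZ_lo p
      rw [abs_lt]
      constructor <;> omega
    have h5 := Int.eq_zero_of_abs_lt_dvd h3 h4
    omega
  -- permutation
  have he : ∀ p : PZ n, Nonempty ({l // P' l = p} ≃ {l // P l = p}) := by
    intro p
    refine ⟨Fintype.equivOfCardEq ?_⟩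
    rw [Fintype.card_subtype, Fintype.card_subtype]
    have := heq p
    simp only [hc, hc'] at this
    exact this.symm
  refine ⟨Equiv.ofFiberEquiv (f := P') (g := P) (fun p => (he p).some), ?_⟩
  funext l
  exact (Equiv.ofFiberEquiv_map (f := P') (g := P) (fun p => (he p).some) l).symm

end Crest.Agent.R19
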