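import Crest.Agent.R19.Defs

set_option autoImplicit false

open Finset Classical

namespace Crest.Agent.R19

namespace LEVEL

lemma maj_mono {G H H' θ : ℝ} (hG : 0 < G) (h : H ≤ H') (hM : Maj G H θ) : Maj G H' θ := by
  obtain ⟨q, a, hq, hqH, hqa⟩ := hM
  exact ⟨q, a, hq, hqH.trans h, hqa.trans (div_le_div_of_nonneg_right h hG.le)⟩

lemma rpow8 {H : ℝ} (hH : 0 < H) : H ^ (-8 : ℝ) = (H ^ 8)⁻¹ := by
  rw [Real.rpow_neg hH.le]
  congr 1
  exact_mod_cast Real.rpow_natCast H 8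

lemma rpow3 {H : ℝ} (hH : 0 < H) : H ^ (-3 : ℝ) = (H ^ 3)⁻¹ := by
  rw [Real.rpow_neg hH.le]
  congr 1
  exact_mod_cast Real.rpow_natCast H 3

/-- not in the main arc but major: far from the integers. -/
lemma far {G H0 θ : ℝ} (hG : 0 < G) (hHG : 2 * H0 ≤ G) (hH0 : 1 ≤ H0)
    (hM : Maj G H0 θ) (hn : ¬ ∃ k : ℤ, |θ - k| ≤ H0 / G) (k : ℤ) : 1 / (2 * H0) ≤ |θ - k| := by
  obtain ⟨q, a, hq, hqH, hqa⟩ := hM
  have hq0 : (1 : ℝ) ≤ q := by exact_mod_cast hq
  have hHG' : H0 / G ≤ 1 / 2 := by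
    rw [div_le_iff₀ hG]
    linarith
  have hdvd : ¬ (q : ℤ) ∣ a := by
    rintro ⟨a', ha'⟩
    apply hn
    refine ⟨a', ?_⟩
    have h1 : (q : ℝ) * θ - a = q * (θ - a') := by
      rw [ha']
      push_cast
      ring
    rw [h1, abs_mul, abs_of_nonneg (by linarith : (0:ℝ) ≤ q)] at hqa
    have h2 : |θ - a'| ≤ q * |θ - a'| := by
      have := abs_nonneg (θ - a')
      nlinarith
    linarith
  have h1 : (1 : ℝ) ≤ |(a : ℝ) - q * k| := by
    have h2 : a - q * k ≠ 0 := by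
      intro h0
      apply hdvd
      exact ⟨k, by linarith⟩
    have h3 : (1 : ℤ) ≤ |a - q * k| := Int.one_le_abs h2
    exact_mod_cast h3
  have h2 : |(a : ℝ) - q * k| ≤ |(q : ℝ) * θ - a| + q * |θ - k| := by
    have h3 : (a : ℝ) - q * k = -((q : ℝ) * θ - a) + q * (θ - k) := by ring
    rw [h3]
    refine (abs_add_le _ _).trans ?_
    rw [abs_neg, abs_mul, abs_of_nonneg (by linarith : (0:ℝ) ≤ q)]
  have h3 : 1 / 2 ≤ q * |θ - k| := by linarith
  have h4 : 1 / 2 ≤ H0 * |θ - k| := h3.trans (by gcongr)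
  rw [div_le_iff₀ (by positivity)]
  linarith

end LEVEL

open LEVEL

theorem levelSum_proof : MajCount → LevelSum := by
  intro hMC
  refine ⟨5, ?_⟩
  intro H0 X R f g hH5 hH0X hXR hf hg hfH hgH
  have hH0 : 0 < H0 := by linarith
  have hX : 0 < X := by linarith
  have hX5 : 5 ≤ X := by linarith
  set G : ℝ := X ^ 4 with hG
  have hGpos : 0 < G := by positivity
  have hXG : X < G := by
    have : X ^ 4 = X * X ^ 3 := by ring
    rw [hG, this]
    have h1 : (1:ℝ) < X ^ 3 := by nlinarith [sq_nonneg X, mul_pos hX hX]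
    nlinarith
  have hHG : 2 * H0 ≤ G := by
    have : X ^ 4 = X * X ^ 3 := by ring
    have h1 : (2:ℝ) ≤ X ^ 3 := by
      have : (5:ℝ) ^ 3 ≤ X ^ 3 := by gcongr
      norm_num at this
      linarith
    rw [hG, this]
    nlinarith
  have hRpos : (0:ℝ) < R := lt_of_lt_of_le hGpos hXR
  -- levels
  obtain ⟨M, hM1, hM2⟩ := exists_nat_pow_near (x := X / H0) (y := 2)
    (by rw [le_div_iff₀ hH0]; linarith) (by norm_num)
  rw [le_div_iff₀ hH0] at hM1
  rw [div_lt_iff₀ hH0] at hM2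
  -- pointwise bound
  set θ : ℕ → ℝ := fun t => (t : ℝ) / R with hθ
  set I : ℝ → ℕ → ℝ := fun H t => if Maj G H (θ t) then 1 else 0 with hI
  have hI0 : ∀ H t, 0 ≤ I H t := by
    intro H t
    simp only [hI]
    split_ifs <;> norm_num
  have hlev : ∀ i : ℕ, 0 < 2 ^ i * H0 := fun i => by positivity
  have hlevmono : ∀ i, i ≤ M → 2 ^ i * H0 ≤ X := by
    intro i hi
    refine le_trans ?_ hM1
    have : (2:ℝ) ^ i ≤ 2 ^ M := pow_le_pow_right₀ (by norm_num) hi
    nlinarith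
  have hpt : ∀ t ∈ (Finset.range R).filter (fun t : ℕ => ¬ ∃ k : ℤ, |(t : ℝ) / R - k| ≤ H0 / X ^ 4),
      g ((t : ℝ) / R) * f ((t : ℝ) / R) ≤ (H0 ^ 3)⁻¹ * I H0 t
        + ∑ i ∈ range M, ((2 ^ i * H0) ^ 8)⁻¹ * I (2 ^ (i + 1) * H0) t + 256 * (X ^ 8)⁻¹ := by
    intro t ht
    rw [Finset.mem_filter] at ht
    have hgt := hg (θ t)
    have hft := hf (θ t)
    have hsum0 : 0 ≤ ∑ i ∈ range M, ((2 ^ i * H0) ^ 8)⁻¹ * I (2 ^ (i + 1) * H0) t :=
      Finset.sum_nonneg (fun i _ => mul_nonneg (by positivity) (hI0 _ _))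
    have hX0 : 0 ≤ 256 * (X ^ 8)⁻¹ := by positivity
    have hprod : g (θ t) * f (θ t) ≤ f (θ t) := by nlinarith [hgt.1, hgt.2, hft.1]
    have hprod' : g (θ t) * f (θ t) ≤ g (θ t) := by nlinarith [hgt.1, hft.2, hft.1]
    by_cases hm : Maj G H0 (θ t)
    · have h1 : g (θ t) ≤ H0 ^ (-3 : ℝ) :=
        hgH (θ t) (fun k => far hGpos hHG (by linarith) hm ht.2 k)
      rw [rpow3 hH0] at h1
      have h2 : I H0 t = 1 := by simp [hI, hm]
      rw [h2, mul_one]
      have : g (θ t) * f (θ t) ≤ (H0 ^ 3)⁻¹ := hprod'.trans h1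
      linarith
    · have hfirst : 0 ≤ (H0 ^ 3)⁻¹ * I H0 t := mul_nonneg (by positivity) (hI0 _ _)
      by_cases hMM : Maj G (2 ^ M * H0) (θ t)
      · have hex : ∃ j, Maj G (2 ^ j * H0) (θ t) := ⟨M, hMM⟩
        set j := Nat.find hex with hj
        have hj1 : Maj G (2 ^ j * H0) (θ t) := Nat.find_spec hex
        have hj2 : j ≤ M := Nat.find_min' hex hMM
        have hj0 : j ≠ 0 := by
          intro h0
          rw [h0] at hj1
          simp at hj1
          exact hm hj1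
        obtain ⟨i, hi⟩ := Nat.exists_eq_succ_of_ne_zero hj0
        have hi1 : ¬ Maj G (2 ^ i * H0) (θ t) := Nat.find_min hex (by omega)
        have hiM : i < M := by omega
        have hle : H0 ≤ 2 ^ i * H0 := by
          have : (1:ℝ) ≤ 2 ^ i := one_le_pow₀ (by norm_num)
          nlinarith
        have h3 := hfH (2 ^ i * H0) (θ t) hle (hlevmono i hiM.le) hi1
        rw [rpow8 (hlev i)] at h3
        have h4 : ((2 ^ i * H0) ^ 8)⁻¹ * I (2 ^ (i + 1) * H0) t
            ≤ ∑ i ∈ range M, ((2 ^ i * H0) ^ 8)⁻¹ * I (2 ^ (i + 1) * H0) t :=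
          Finset.single_le_sum (f := fun i => ((2 ^ i * H0) ^ 8)⁻¹ * I (2 ^ (i + 1) * H0) t)
            (fun i _ => mul_nonneg (by positivity) (hI0 _ _)) (Finset.mem_range.2 hiM)
        have h5 : I (2 ^ (i + 1) * H0) t = 1 := by
          have : Maj G (2 ^ (i + 1) * H0) (θ t) := by
            rw [hi] at hj1
            exact hj1
          simp only [hI, this, if_true]
        rw [h5, mul_one] at h4
        have : g (θ t) * f (θ t) ≤ ((2 ^ i * H0) ^ 8)⁻¹ := hprod.trans h3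
        linarith
      · have hle : H0 ≤ 2 ^ M * H0 := by
          have : (1:ℝ) ≤ 2 ^ M := one_le_pow₀ (by norm_num)
          nlinarith
        have h3 := hfH (2 ^ M * H0) (θ t) hle hM1 hMM
        rw [rpow8 (hlev M)] at h3
        have h4 : X / 2 ≤ 2 ^ M * H0 := by
          rw [pow_succ] at hM2
          linarith
        have h5 : ((2 ^ M * H0) ^ 8)⁻¹ ≤ ((X / 2) ^ 8)⁻¹ := by
          apply inv_anti₀ (by positivity)
          gcongr
        have h6 : ((X / 2) ^ 8)⁻¹ = 256 * (X ^ 8)⁻¹ := by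
          rw [div_pow]
          field_simp
          norm_num
        have : g (θ t) * f (θ t) ≤ 256 * (X ^ 8)⁻¹ := by
          rw [← h6]
          exact hprod.trans (h3.trans h5)
        linarith
  -- counting
  have hcount : ∀ H : ℝ, 1 ≤ H → H ≤ X → ∑ t ∈ range R, I H t ≤ 6 * H ^ 2 * R / G := by
    intro H h1 h2
    have h3 := hMC G H R h1 (lt_of_le_of_lt h2 hXG) hXR
    have h4 : ∑ t ∈ range R, I H t
        = (((Finset.range R).filter (fun t : ℕ => Maj G H ((t : ℝ) / R))).card : ℝ) := by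
      simp only [hI, hθ]
      rw [Finset.sum_boole]
    rw [h4]
    exact h3
  have hsub : ∑ t ∈ (Finset.range R).filter
      (fun t : ℕ => ¬ ∃ k : ℤ, |(t : ℝ) / R - k| ≤ H0 / X ^ 4),
      g ((t : ℝ) / R) * f ((t : ℝ) / R) ≤ ∑ t ∈ range R, ((H0 ^ 3)⁻¹ * I H0 t
        + ∑ i ∈ range M, ((2 ^ i * H0) ^ 8)⁻¹ * I (2 ^ (i + 1) * H0) t + 256 * (X ^ 8)⁻¹) := by
    refine (Finset.sum_le_sum hpt).trans ?_
    apply Finset.sum_le_sum_of_subset_of_nonneg (Finset.filter_subset _ _)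
    intro t _ _
    have h1 : 0 ≤ (H0 ^ 3)⁻¹ * I H0 t := mul_nonneg (by positivity) (hI0 _ _)
    have h2 : 0 ≤ ∑ i ∈ range M, ((2 ^ i * H0) ^ 8)⁻¹ * I (2 ^ (i + 1) * H0) t :=
      Finset.sum_nonneg (fun i _ => mul_nonneg (by positivity) (hI0 _ _))
    positivity
  refine hsub.trans ?_
  rw [Finset.sum_add_distrib, Finset.sum_add_distrib, ← Finset.mul_sum, Finset.sum_const,
    Finset.card_range, nsmul_eq_mul, Finset.sum_comm]
  have h1 : (H0 ^ 3)⁻¹ * ∑ t ∈ range R, I H0 t ≤ 6 * (R / G) / H0 := by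
    have := hcount H0 (by linarith) hH0X
    calc (H0 ^ 3)⁻¹ * ∑ t ∈ range R, I H0 t ≤ (H0 ^ 3)⁻¹ * (6 * H0 ^ 2 * R / G) := by gcongr
      _ = 6 * (R / G) / H0 := by field_simp
  have h2 : ∑ i ∈ range M, ∑ t ∈ range R, ((2 ^ i * H0) ^ 8)⁻¹ * I (2 ^ (i + 1) * H0) t
      ≤ 25 * (R / G) / H0 ^ 6 := by
    have h3 : ∀ i ∈ range M, ∑ t ∈ range R, ((2 ^ i * H0) ^ 8)⁻¹ * I (2 ^ (i + 1) * H0) t
        ≤ (24 * (R / G) / H0 ^ 6) * (1 / 64) ^ i := by
      intro i hi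
      rw [← Finset.mul_sum]
      have hle1 : 1 ≤ 2 ^ (i + 1) * H0 := by
        have : (1:ℝ) ≤ 2 ^ (i + 1) := one_le_pow₀ (by norm_num)
        nlinarith
      have := hcount (2 ^ (i + 1) * H0) hle1 (hlevmono (i + 1) (Finset.mem_range.1 hi))
      calc ((2 ^ i * H0) ^ 8)⁻¹ * ∑ t ∈ range R, I (2 ^ (i + 1) * H0) t
          ≤ ((2 ^ i * H0) ^ 8)⁻¹ * (6 * (2 ^ (i + 1) * H0) ^ 2 * R / G) := by gcongr
        _ = (24 * (R / G) / H0 ^ 6) * (1 / 64) ^ i := by
            have e1 : ((1:ℝ) / 64) ^ i = 1 / ((2:ℝ) ^ i) ^ 6 := by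
              rw [one_div_pow, ← pow_mul, mul_comm i 6, pow_mul]
              norm_num
            rw [e1, pow_succ]
            have : (0:ℝ) < 2 ^ i := by positivity
            field_simp
            ring
    refine (Finset.sum_le_sum h3).trans ?_
    rw [← Finset.mul_sum]
    have h4 : ∑ i ∈ range M, ((1:ℝ) / 64) ^ i ≤ 64 / 63 := by
      rw [geom_sum_eq (by norm_num)]
      have : (0:ℝ) < (1 / 64) ^ M := by positivity
      rw [div_le_iff_of_neg (by norm_num)]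
      norm_num
    calc (24 * (R / G) / H0 ^ 6) * ∑ i ∈ range M, ((1:ℝ) / 64) ^ i
        ≤ (24 * (R / G) / H0 ^ 6) * (64 / 63) := by gcongr
      _ ≤ 25 * (R / G) / H0 ^ 6 := by
          have : 0 < (R / G) / H0 ^ 6 := by positivity
          have e1 : (24 * (R / G) / H0 ^ 6) * (64 / 63) = (24 * 64 / 63) * ((R / G) / H0 ^ 6) := by
            ring
          have e2 : 25 * (R / G) / H0 ^ 6 = 25 * ((R / G) / H0 ^ 6) := by ring
          rw [e1, e2]
          nlinarith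
  have h3 : (R : ℝ) * (256 * (X ^ 8)⁻¹) ≤ 256 * (R / G) / H0 ^ 4 := by
    have e1 : (R : ℝ) * (256 * (X ^ 8)⁻¹) = 256 * (R / G) / X ^ 4 := by
      rw [hG]
      field_simp
    rw [e1]
    gcongr
  have hRG : 0 < R / G := by positivity
  have hfin : 6 * (R / G) / H0 + 25 * (R / G) / H0 ^ 6 + 256 * (R / G) / H0 ^ 4
      ≤ 10 * R / (H0 * G) := by
    have e1 : 10 * R / (H0 * G) = 10 * (R / G) / H0 := by field_simp
    rw [e1]
    have h25 : 25 * (R / G) / H0 ^ 6 ≤ (1 / 100) * ((R / G) / H0) := by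
      rw [div_le_iff₀ (by positivity)]
      have e2 : (1 / 100) * ((R / G) / H0) * H0 ^ 6 = (1 / 100) * H0 ^ 5 * (R / G) := by
        field_simp
      rw [e2]
      have : (5:ℝ) ^ 5 ≤ H0 ^ 5 := by gcongr
      norm_num at this
      nlinarith
    have h256 : 256 * (R / G) / H0 ^ 4 ≤ 3 * ((R / G) / H0) := by
      rw [div_le_iff₀ (by positivity)]
      have e2 : 3 * ((R / G) / H0) * H0 ^ 4 = 3 * H0 ^ 3 * (R / G) := by
        field_simp
      rw [e2]
      have : (5:ℝ) ^ 3 ≤ H0 ^ 3 := by gcongr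
      norm_num at this
      nlinarith
    have e3 : 6 * (R / G) / H0 = 6 * ((R / G) / H0) := by ring
    have e4 : 10 * (R / G) / H0 = 10 * ((R / G) / H0) := by ring
    have : 0 < (R / G) / H0 := by positivity
    rw [e3, e4]
    linarith
  linarith

end Crest.Agent.R19
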