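import Crest.Agent.R19.Defs

set_option autoImplicit false

open Finset Classical

namespace Crest.Agent.R19

namespace MAJC

theorem card_interval (S : Finset ℕ) (x ρ : ℝ) (hρ : 0 ≤ ρ)
    (hS : ∀ t ∈ S, |(t : ℝ) - x| ≤ ρ) : (S.card : ℝ) ≤ 2 * ρ + 1 := by
  have h1 : S.map Nat.castEmbedding ⊆ Finset.Icc (⌈x - ρ⌉ : ℤ) ⌊x + ρ⌋ := by
    intro z hz
    rw [Finset.mem_map] at hz
    obtain ⟨t, ht, rfl⟩ := hz
    have h := hS t ht
    rw [abs_le] at h
    rw [Finset.mem_Icc]
    constructor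
    · rw [Int.ceil_le]
      simp only [Nat.castEmbedding_apply, Int.cast_natCast]
      linarith
    · rw [Int.le_floor]
      simp only [Nat.castEmbedding_apply, Int.cast_natCast]
      linarith
  have h2 := Finset.card_le_card h1
  rw [Finset.card_map, Int.card_Icc] at h2
  have h3 : ((⌊x + ρ⌋ + 1 - ⌈x - ρ⌉).toNat : ℝ) ≤ 2 * ρ + 1 := by
    have h4 : ((⌊x + ρ⌋ + 1 - ⌈x - ρ⌉ : ℤ) : ℝ) ≤ 2 * ρ + 1 := by
      push_cast
      have h5 := Int.floor_le (x + ρ)
      have h6 := Int.le_ceil (x - ρ)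
      linarith
    rcases le_total 0 (⌊x + ρ⌋ + 1 - ⌈x - ρ⌉) with h7 | h7
    · have h8 : (((⌊x + ρ⌋ + 1 - ⌈x - ρ⌉).toNat : ℤ) : ℝ) =
          ((⌊x + ρ⌋ + 1 - ⌈x - ρ⌉ : ℤ) : ℝ) := by
        rw [Int.toNat_of_nonneg h7]
      rw [Int.cast_natCast] at h8
      rw [h8]
      exact h4
    · rw [Int.toNat_of_nonpos h7]
      simp
      linarith
  calc (S.card : ℝ) ≤ ((⌊x + ρ⌋ + 1 - ⌈x - ρ⌉).toNat : ℝ) := by exact_mod_cast h2
    _ ≤ _ := h3

end MAJC

theorem majCount_proof : MajCount := by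
  intro G H R hH hHG hGR
  have hG : 0 < G := by linarith
  have hR : (0 : ℝ) < R := by linarith
  have hH0 : 0 < H := by linarith
  have hsub : (Finset.range R).filter (fun t : ℕ => Maj G H ((t : ℝ) / R)) ⊆
      (Finset.Icc 1 ⌊H⌋₊).biUnion (fun q => (Finset.range (q + 1)).biUnion (fun a =>
        (Finset.range R).filter (fun t : ℕ => |(t : ℝ) - a * R / q| ≤ H * R / (q * G)))) := by
    intro t ht
    rw [Finset.mem_filter, Finset.mem_range] at ht
    obtain ⟨htR, q, a, hq1, hqH, hqa⟩ := ht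
    have hq0 : (0 : ℝ) < q := by exact_mod_cast hq1
    have hHG1 : H / G < 1 := by rw [div_lt_one hG]; exact hHG
    have hθ0 : 0 ≤ (t : ℝ) / R := by positivity
    have hθ1 : (t : ℝ) / R < 1 := by
      rw [div_lt_one hR]; exact_mod_cast htR
    rw [abs_le] at hqa
    have ha0 : (0 : ℤ) ≤ a := by
      have h1 : (-1 : ℝ) < a := by
        have : 0 ≤ (q : ℝ) * ((t : ℝ) / R) := by positivity
        linarith [hqa.2]
      have h2 : (-1 : ℤ) < a := by exact_mod_cast h1
      omega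
    have ha1 : a ≤ (q : ℤ) := by
      have h1 : (a : ℝ) < q + 1 := by
        have : (q : ℝ) * ((t : ℝ) / R) < q * 1 := by
          apply mul_lt_mul_of_pos_left hθ1 hq0
        linarith [hqa.1]
      have h2 : a < (q : ℤ) + 1 := by exact_mod_cast h1
      omega
    obtain ⟨b, rfl⟩ := Int.eq_ofNat_of_zero_le ha0
    rw [Finset.mem_biUnion]
    refine ⟨q, ?_, ?_⟩
    · rw [Finset.mem_Icc]
      exact ⟨hq1, Nat.le_floor hqH⟩
    · rw [Finset.mem_biUnion]
      refine ⟨b, ?_, ?_⟩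
      · rw [Finset.mem_range]
        have : (b : ℤ) ≤ (q : ℤ) := by simpa using ha1
        omega
      · rw [Finset.mem_filter]
        refine ⟨Finset.mem_range.mpr htR, ?_⟩
        have h1 : (t : ℝ) - b * R / q = (q * ((t : ℝ) / R) - b) * (R / q) := by
          field_simp
        rw [h1, abs_mul, abs_of_pos (by positivity : (0 : ℝ) < R / q)]
        have h2 : H * R / (q * G) = (H / G) * (R / q) := by
          field_simp
        rw [h2]
        apply mul_le_mul_of_nonneg_right _ (by positivity)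
        rw [abs_le]
        simpa using hqa
  have hcard : (((Finset.range R).filter (fun t : ℕ => Maj G H ((t : ℝ) / R))).card : ℝ) ≤
      ∑ q ∈ Finset.Icc 1 ⌊H⌋₊, ∑ a ∈ Finset.range (q + 1), (2 * (H * R / (q * G)) + 1) := by
    calc (((Finset.range R).filter (fun t : ℕ => Maj G H ((t : ℝ) / R))).card : ℝ)
        ≤ (((Finset.Icc 1 ⌊H⌋₊).biUnion (fun q => (Finset.range (q + 1)).biUnion (fun a =>
        (Finset.range R).filter (fun t : ℕ => |(t : ℝ) - a * R / q| ≤ H * R / (q * G))))).card : ℝ) := by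
          exact_mod_cast Finset.card_le_card hsub
      _ ≤ ((∑ q ∈ Finset.Icc 1 ⌊H⌋₊, ∑ a ∈ Finset.range (q + 1),
          ((Finset.range R).filter (fun t : ℕ => |(t : ℝ) - a * R / q| ≤ H * R / (q * G))).card : ℕ) : ℝ) := by
          exact_mod_cast le_trans Finset.card_biUnion_le
            (Finset.sum_le_sum (fun q _ => Finset.card_biUnion_le))
      _ = ∑ q ∈ Finset.Icc 1 ⌊H⌋₊, ∑ a ∈ Finset.range (q + 1),
          (((Finset.range R).filter (fun t : ℕ => |(t : ℝ) - a * R / q| ≤ H * R / (q * G))).card : ℝ) := by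
          push_cast; rfl
      _ ≤ _ := by
          apply Finset.sum_le_sum
          intro q hq
          apply Finset.sum_le_sum
          intro a _
          rw [Finset.mem_Icc] at hq
          have hq0 : (0 : ℝ) < q := by exact_mod_cast hq.1
          apply MAJC.card_interval _ ((a : ℝ) * R / q) _ (by positivity)
          intro t ht
          rw [Finset.mem_filter] at ht
          exact ht.2
  have hsum : ∑ q ∈ Finset.Icc 1 ⌊H⌋₊, ∑ a ∈ Finset.range (q + 1), (2 * (H * R / (q * G)) + 1) ≤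
      ∑ q ∈ Finset.Icc 1 ⌊H⌋₊, (4 * (H * R / G) + 2 * H) := by
    apply Finset.sum_le_sum
    intro q hq
    rw [Finset.mem_Icc] at hq
    rw [Finset.sum_const, Finset.card_range, nsmul_eq_mul]
    have hq1 : (1 : ℝ) ≤ q := by exact_mod_cast hq.1
    have hqH : (q : ℝ) ≤ H := le_trans (by exact_mod_cast hq.2) (Nat.floor_le hH0.le)
    push_cast
    have h1 : ((q : ℝ) + 1) * (2 * (H * R / (q * G)) + 1) =
        (2 * (H * R / G)) * (((q : ℝ) + 1) / q) + (q + 1) := by
      field_simp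
    rw [h1]
    have h2 : ((q : ℝ) + 1) / q ≤ 2 := by
      rw [div_le_iff₀ (by linarith)]; linarith
    have h3 : 0 ≤ 2 * (H * R / G) := by positivity
    have h4 := mul_le_mul_of_nonneg_left h2 h3
    linarith
  rw [Finset.sum_const, Nat.card_Icc, nsmul_eq_mul] at hsum
  have h1 : ((⌊H⌋₊ + 1 - 1 : ℕ) : ℝ) ≤ H := by
    simp only [Nat.add_sub_cancel]
    exact Nat.floor_le hH0.le
  have h2 : (0 : ℝ) ≤ 4 * (H * R / G) + 2 * H := by positivity
  have h3 := mul_le_mul_of_nonneg_right h1 h2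
  have h4 : H * (4 * (H * R / G) + 2 * H) ≤ 6 * H ^ 2 * R / G := by
    have h5 : 6 * H ^ 2 * R / G = 4 * H ^ 2 * (R / G) + 2 * H ^ 2 * (R / G) := by ring
    have h6 : H * (4 * (H * R / G) + 2 * H) = 4 * H ^ 2 * (R / G) + 2 * H ^ 2 * 1 := by ring
    rw [h5, h6]
    have h7 : (1 : ℝ) ≤ R / G := by rw [le_div_iff₀ hG]; linarith
    have h8 : 0 ≤ 2 * H ^ 2 := by positivity
    have := mul_le_mul_of_nonneg_left h7 h8
    linarith
  linarith

end Crest.Agent.R19
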