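import Crest.Agent.R19.Defs
import Crest.Agent.R19.POSW

set_option autoImplicit false

open Finset Classical

namespace Crest.Agent.R19

namespace MINC

open POSW

theorem conj_ex (x : ℝ) : (starRingEnd ℂ) (ex x) = ex (-x) := by
  unfold ex
  rw [← Complex.exp_conj]
  congr 1
  simp only [map_mul, Complex.conj_ofReal, Complex.conj_I, map_ofNat]
  push_cast
  ring

theorem normSq_sum {α : Type} [Fintype α] (f : α → ℝ) :
    (((‖∑ e, ex (f e)‖ ^ 2 : ℝ)) : ℂ) = ∑ p : α × α, ex (f p.1 - f p.2) := by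
  rw [← Complex.normSq_eq_norm_sq, ← Complex.mul_conj, map_sum, Finset.sum_mul_sum,
    Fintype.sum_prod_type]
  apply Finset.sum_congr rfl
  intro x _
  apply Finset.sum_congr rfl
  intro y _
  rw [conj_ex, ← ex_add]
  congr 1

theorem xval_sub {n : ℕ} (B : Base n) (P : Fin (TT n) → PZ n) (e : Fin (TT n) → Cube n × Cube n) :
    (xval B P (fun u => (e u).1) : ℝ) - (xval B P (fun u => (e u).2) : ℝ) = (nu B (P, e) : ℝ) := by
  unfold xval nu Base.dw
  push_cast
  rw [← Finset.sum_sub_distrib]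
  apply Finset.sum_congr rfl
  intro u _
  ring

theorem xhat_sq {n : ℕ} (B : Base n) (P : Fin (TT n) → PZ n) (θ : ℝ) :
    (((‖xhat B P θ‖ ^ 2 : ℝ)) : ℂ) =
      (∑ e : Fin (TT n) → Cube n × Cube n, ex (θ * nu B (P, e))) / 4 ^ (n * TT n) := by
  unfold xhat
  have h1 : ‖(∑ e : Fin (TT n) → Cube n, ex (θ * xval B P e)) / (2 : ℂ) ^ (n * TT n)‖ ^ 2 =
      ‖∑ e : Fin (TT n) → Cube n, ex (θ * xval B P e)‖ ^ 2 / 4 ^ (n * TT n) := by
    rw [norm_div, norm_pow, div_pow]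
    congr 1
    rw [← pow_mul, mul_comm (n * TT n) 2, pow_mul]
    norm_num
  rw [h1]
  push_cast
  rw [← Complex.ofReal_pow, normSq_sum]
  congr 1
  rw [← Equiv.sum_comp (Equiv.arrowProdEquivProdArrow (Fin (TT n)) (fun _ => Cube n) (fun _ => Cube n))]
  apply Finset.sum_congr rfl
  intro e _
  congr 1
  rw [← mul_sub, ← xval_sub]
  rfl

end MINC

open MINC POSW in
theorem minorComb_proof : GeomSum → MinorComb := by
  intro hG n B θ K hK hX
  set Y : ℕ := XX B ^ 3 with hY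
  have hYpos : 0 < Y := by
    rw [hY]
    exact pow_pos (by omega) 3
  have hYr : (XX B : ℝ) ^ 3 = (Y : ℝ) := by rw [hY]; push_cast; rfl
  have hYr0 : (0 : ℝ) < Y := by exact_mod_cast hYpos
  rw [hYr]
  have h4 : (0 : ℝ) < 4 ^ (n * TT n) := by positivity
  set Ev := univ.filter (fun c : Conf n =>
      |θ * nu B c - round (θ * nu B c)| ≤ K / (Y : ℝ)) with hEv
  -- main identity
  have hid : (((∑ P : Fin (TT n) → PZ n, ∑ D ∈ Finset.Ico Y (2 * Y), ‖xhat B P (D * θ)‖ ^ 2 : ℝ)) : ℂ) =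
      (∑ c : Conf n, ∑ D ∈ Finset.Ico Y (Y + Y), ex (D * (θ * nu B c))) / 4 ^ (n * TT n) := by
    push_cast
    rw [Fintype.sum_prod_type, Finset.sum_div]
    apply Finset.sum_congr rfl
    intro P _
    rw [Finset.sum_comm, Finset.sum_div, two_mul]
    apply Finset.sum_congr rfl
    intro D _
    rw [← Complex.ofReal_pow, xhat_sq]
    congr 1
    apply Finset.sum_congr rfl
    intro e _
    congr 1
    ring
  have hle : (∑ P : Fin (TT n) → PZ n, ∑ D ∈ Finset.Ico Y (2 * Y), ‖xhat B P (D * θ)‖ ^ 2 : ℝ) ≤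
      (∑ c : Conf n, ‖∑ D ∈ Finset.Ico Y (Y + Y), ex (D * (θ * nu B c))‖) / 4 ^ (n * TT n) := by
    have h1 : (∑ P : Fin (TT n) → PZ n, ∑ D ∈ Finset.Ico Y (2 * Y), ‖xhat B P (D * θ)‖ ^ 2 : ℝ) ≤
        ‖(((∑ P : Fin (TT n) → PZ n, ∑ D ∈ Finset.Ico Y (2 * Y), ‖xhat B P (D * θ)‖ ^ 2 : ℝ)) : ℂ)‖ := by
      rw [Complex.norm_real]
      exact le_abs_self _
    refine le_trans h1 ?_
    rw [hid, norm_div]
    have h2 : ‖(4 : ℂ) ^ (n * TT n)‖ = 4 ^ (n * TT n) := by
      rw [norm_pow]; norm_num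
    rw [h2]
    apply div_le_div_of_nonneg_right (norm_sum_le _ _) h4.le
  refine le_trans hle ?_
  have hb : ∀ c : Conf n, ‖∑ D ∈ Finset.Ico Y (Y + Y), ex (D * (θ * nu B c))‖ ≤
      (if c ∈ Ev then (Y : ℝ) else 0) + Y / (2 * K) := by
    intro c
    split_ifs with hc
    · have h1 : ‖∑ D ∈ Finset.Ico Y (Y + Y), ex (D * (θ * nu B c))‖ ≤ Y := by
        refine le_trans (norm_sum_le _ _) ?_
        simp [norm_ex]
      have h2 : (0 : ℝ) ≤ Y / (2 * K) := by positivity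
      linarith
    · rw [hEv, Finset.mem_filter, not_and, not_le] at hc
      have h1 := hc (Finset.mem_univ _)
      have h2 := hG (θ * nu B c) Y Y
      rw [zero_add, le_div_iff₀ (by positivity)]
      have h3 : 0 ≤ ‖∑ D ∈ Finset.Ico Y (Y + Y), ex (D * (θ * nu B c))‖ := norm_nonneg _
      have h4 : 2 * (K / Y) * ‖∑ D ∈ Finset.Ico Y (Y + Y), ex (D * (θ * nu B c))‖ ≤ 1 := by
        refine le_trans ?_ h2
        apply mul_le_mul_of_nonneg_right _ h3
        linarith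
      have h5 : 2 * (K / Y) * ‖∑ D ∈ Finset.Ico Y (Y + Y), ex (D * (θ * nu B c))‖ =
          (‖∑ D ∈ Finset.Ico Y (Y + Y), ex (D * (θ * nu B c))‖ * (2 * K)) / Y := by
        ring
      rw [h5, div_le_one hYr0] at h4
      exact h4
  have hsum : ∑ c : Conf n, ‖∑ D ∈ Finset.Ico Y (Y + Y), ex (D * (θ * nu B c))‖ ≤
      Ev.card * (Y : ℝ) + (((PZ n).card : ℝ) ^ TT n * 4 ^ (n * TT n)) * (Y / (2 * K)) := by
    refine le_trans (Finset.sum_le_sum (fun c _ => hb c)) ?_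
    rw [Finset.sum_add_distrib]
    apply add_le_add
    · apply le_of_eq
      have h7 : (∑ x : Conf n, if x ∈ Ev then (Y : ℝ) else 0) = ∑ x ∈ Ev, (Y : ℝ) := by
        rw [Finset.sum_ite_mem, Finset.univ_inter]
      rw [h7, Finset.sum_const, nsmul_eq_mul]
    · rw [Finset.sum_const, nsmul_eq_mul]
      apply le_of_eq
      congr 1
      rw [Finset.card_univ, Fintype.card_prod]
      simp only [Fintype.card_fun, Fintype.card_fin, Fintype.card_coe, Fintype.card_prod,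
        Fintype.card_bool]
      push_cast
      congr 1
      rw [← pow_add, ← two_mul, ← pow_mul, mul_comm 2 n, mul_assoc, mul_comm 2 (TT n), ← mul_assoc,
        mul_comm (n * TT n) 2, pow_mul]
      norm_num
  calc (∑ c : Conf n, ‖∑ D ∈ Finset.Ico Y (Y + Y), ex (D * (θ * nu B c))‖) / 4 ^ (n * TT n)
      ≤ (Ev.card * (Y : ℝ) + (((PZ n).card : ℝ) ^ TT n * 4 ^ (n * TT n)) * (Y / (2 * K))) /
          4 ^ (n * TT n) := div_le_div_of_nonneg_right hsum h4.le
    _ = _ := by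
      field_simp

end Crest.Agent.R19
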