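import Crest.Agent.R19.Defs

/-! Row 19, task PERM. -/

set_option autoImplicit false

open Finset Classical

namespace Crest.Agent.R19

theorem permCount_proof : PermCount := by
  intro α _ j
  have hsub : (univ.filter (fun x : (Fin j → α) × (Fin j → α) =>
      ∃ σ : Equiv.Perm (Fin j), x.2 = x.1 ∘ σ)) ⊆
      (univ : Finset (Equiv.Perm (Fin j) × (Fin j → α))).image
        (fun y => (y.2, y.2 ∘ y.1)) := by
    intro x hx
    obtain ⟨σ, hσ⟩ := (Finset.mem_filter.mp hx).2
    rw [Finset.mem_image]
    exact ⟨(σ, x.1), Finset.mem_univ _, by rw [← hσ]⟩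
  calc _ ≤ _ := Finset.card_le_card hsub
    _ ≤ _ := Finset.card_image_le
    _ = _ := by
      rw [Finset.card_univ, Fintype.card_prod, Fintype.card_perm, Fintype.card_fin,
        Fintype.card_fun, Fintype.card_fin]

end Crest.Agent.R19
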