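import Crest.Agent.R19.Defs

/-! Row 19, task PRIMES: many primes in `(x, 2x]` (Erdős's argument). -/

set_option autoImplicit false

open Finset Classical

namespace Crest.Agent.R19

namespace PRIMES

theorem centralBinom_le (n : ℕ) (n_large : 2 < n) :
    Nat.centralBinom n ≤ (2 * n) ^ Nat.sqrt (2 * n) * 4 ^ (2 * n / 3) *
      (2 * n) ^ ((Finset.Ioc n (2 * n)).filter Nat.Prime).card := by
  have n_pos : 0 < n := (Nat.zero_le _).trans_lt n_large
  have n2_pos : 1 ≤ 2 * n := mul_pos (zero_lt_two' ℕ) n_pos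
  let f : ℕ → ℕ := fun x => x ^ n.centralBinom.factorization x
  let S := (Finset.range (2 * n / 3 + 1)).filter Nat.Prime
  let U := (Finset.Ioc n (2 * n)).filter Nat.Prime
  have hfac : Nat.centralBinom n = ∏ p ∈ Finset.range (2 * n + 1), f p :=
    (n.prod_pow_factorization_centralBinom).symm
  have hsplit : ∏ p ∈ Finset.range (2 * n + 1), f p = ∏ p ∈ S ∪ U, f p := by
    symm
    apply Finset.prod_subset
    · intro p hp
      rcases Finset.mem_union.mp hp with h | h
      · have h1 := Finset.mem_range.mp (Finset.mem_filter.mp h).1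
        rw [Finset.mem_range]
        omega
      · have h1 := Finset.mem_Ioc.mp (Finset.mem_filter.mp h).1
        rw [Finset.mem_range]
        omega
    · intro p hp hnp
      show p ^ n.centralBinom.factorization p = 1
      by_cases hpp : p.Prime
      · have h1 : ¬ (p < 2 * n / 3 + 1) := by
          intro h
          exact hnp (Finset.mem_union_left _ (Finset.mem_filter.mpr ⟨Finset.mem_range.mpr h, hpp⟩))
        have h2 : ¬ (n < p) := by
          intro h
          refine hnp (Finset.mem_union_right _ (Finset.mem_filter.mpr ⟨Finset.mem_Ioc.mpr ⟨h, ?_⟩, hpp⟩))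
          have := Finset.mem_range.mp hp
          omega
        rw [Nat.factorization_centralBinom_of_two_mul_self_lt_three_mul n_large (by omega) (by omega),
          Nat.pow_zero]
      · rw [Nat.factorization_eq_zero_of_not_prime n.centralBinom hpp, Nat.pow_zero]
  have hdisj : Disjoint S U := by
    rw [Finset.disjoint_left]
    intro p hp hq
    have h1 := Finset.mem_range.mp (Finset.mem_filter.mp hp).1
    have h2 := Finset.mem_Ioc.mp (Finset.mem_filter.mp hq).1
    omega
  rw [hfac, hsplit, Finset.prod_union hdisj]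
  apply mul_le_mul'
  · rw [← Finset.prod_filter_mul_prod_filter_not S (· ≤ Nat.sqrt (2 * n))]
    apply mul_le_mul'
    · refine (Finset.prod_le_prod' fun p _ => (?_ : f p ≤ 2 * n)).trans ?_
      · exact Nat.pow_factorization_choose_le (mul_pos two_pos n_pos)
      have : (Finset.Icc 1 (Nat.sqrt (2 * n))).card = Nat.sqrt (2 * n) := by
        rw [Nat.card_Icc, Nat.add_sub_cancel]
      rw [Finset.prod_const]
      refine pow_right_mono₀ n2_pos ((Finset.card_le_card fun x hx => ?_).trans this.le)
      obtain ⟨h1, h2⟩ := Finset.mem_filter.1 hx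
      exact Finset.mem_Icc.mpr ⟨(Finset.mem_filter.1 h1).2.one_lt.le, h2⟩
    · refine le_trans ?_ (primorial_le_four_pow (2 * n / 3))
      refine (Finset.prod_le_prod' fun p hp => (?_ : f p ≤ p)).trans ?_
      · obtain ⟨h1, h2⟩ := Finset.mem_filter.1 hp
        refine (pow_right_mono₀ (Finset.mem_filter.1 h1).2.one_lt.le ?_).trans (pow_one p).le
        exact Nat.factorization_choose_le_one (Nat.sqrt_lt'.mp <| not_le.1 h2)
      unfold primorial
      refine Finset.prod_le_prod_of_subset_of_one_le' (fun p hp => ?_) ?_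
      · have := (Finset.mem_filter.mp hp).1
        simpa [S] using this
      · intro p hp _
        have h := Finset.mem_filter.mp hp
        exact h.2.one_lt.le
  · rw [show ((Finset.Ioc n (2 * n)).filter Nat.Prime) = U from rfl]
    refine (Finset.prod_le_prod' fun p _ => (?_ : f p ≤ 2 * n)).trans ?_
    · exact Nat.pow_factorization_choose_le (mul_pos two_pos n_pos)
    rw [Finset.prod_const]

theorem sq_le_two_pow (L : ℕ) (hL : 20 ≤ L) : 1152 * L ^ 2 ≤ 2 ^ L := by
  induction L, hL using Nat.le_induction with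
  | base => norm_num
  | succ k hk ih =>
    rw [pow_succ 2 k]
    nlinarith

end PRIMES

theorem primeCount_proof : PrimeCount := by
  refine ⟨2 ^ 20, fun n hn => ?_⟩
  set c := ((Finset.Ioc n (2 * n)).filter Nat.Prime).card with hc
  set L := Nat.log 2 n with hL
  have hn0 : n ≠ 0 := by
    intro h; subst h; norm_num at hn
  have hL20 : 20 ≤ L := by
    rw [hL]
    exact (Nat.le_log_iff_pow_le (by norm_num) hn0).mpr hn
  have hLlo : 2 ^ L ≤ n := Nat.pow_log_le_self 2 hn0
  have hLhi : n < 2 ^ (L + 1) := Nat.lt_pow_succ_log_self (by norm_num) n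
  have h20 : (2 : ℕ) ^ 20 = 1048576 := by norm_num
  rw [h20] at hn
  have h1 := PRIMES.centralBinom_le n (by omega)
  rw [← hc] at h1
  have h2 : 4 ^ n < n * n.centralBinom := Nat.four_pow_lt_mul_centralBinom n (by omega)
  set s := Nat.sqrt (2 * n) with hs
  have h3 : 4 ^ n ≤ 4 ^ (2 * n / 3) * (2 * n) ^ (s + c + 1) := by
    calc 4 ^ n ≤ n * n.centralBinom := h2.le
      _ ≤ (2 * n) * ((2 * n) ^ s * 4 ^ (2 * n / 3) * (2 * n) ^ c) :=
          Nat.mul_le_mul (by omega) h1
      _ = 4 ^ (2 * n / 3) * (2 * n) ^ (s + c + 1) := by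
          rw [pow_add, pow_add, pow_one]; ring
  have h4 : 4 ^ (n - 2 * n / 3) ≤ (2 * n) ^ (s + c + 1) := by
    have h5 : 4 ^ n = 4 ^ (2 * n / 3) * 4 ^ (n - 2 * n / 3) := by
      rw [← pow_add]; congr 1; omega
    rw [h5] at h3
    exact Nat.le_of_mul_le_mul_left h3 (by positivity)
  have h5 : (2 * n) ^ (s + c + 1) ≤ 2 ^ ((L + 2) * (s + c + 1)) := by
    rw [pow_mul]
    apply Nat.pow_le_pow_left
    rw [pow_succ]
    omega
  have h6 : 2 * (n - 2 * n / 3) ≤ (L + 2) * (s + c + 1) := by
    have h7 : (2 : ℕ) ^ (2 * (n - 2 * n / 3)) ≤ 2 ^ ((L + 2) * (s + c + 1)) := by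
      rw [pow_mul]
      exact le_trans (by simpa using h4) h5
    exact (Nat.pow_le_pow_iff_right (by norm_num)).mp h7
  have hs2 : s * s ≤ 2 * n := Nat.sqrt_le (2 * n)
  have hs1 : 1 ≤ s := by
    rw [hs]
    exact Nat.sqrt_pos.mpr (by omega)
  have hsq := PRIMES.sq_le_two_pow L hL20
  have h7 : 24 * L * s ≤ n := by
    by_contra hcon
    push Not at hcon
    have h8 : n * n < (24 * L * s) * (24 * L * s) := Nat.mul_self_lt_mul_self hcon
    have h9 : (24 * L * s) * (24 * L * s) ≤ 576 * L ^ 2 * (2 * n) := by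
      calc (24 * L * s) * (24 * L * s) = 576 * L ^ 2 * (s * s) := by ring
        _ ≤ _ := Nat.mul_le_mul_left _ hs2
    have h10 : 576 * L ^ 2 * (2 * n) ≤ n * n := by
      calc 576 * L ^ 2 * (2 * n) = (1152 * L ^ 2) * n := by ring
        _ ≤ n * n := Nat.mul_le_mul_right _ (le_trans hsq hLlo)
    omega
  have h8 : 2 * n ≤ 3 * (2 * (n - 2 * n / 3)) := by omega
  -- (L+2) ≤ 2 L
  have h9 : (L + 2) * (s + c + 1) ≤ 2 * L * (2 * s + c) := Nat.mul_le_mul (by omega) (by omega)
  have h10 : 2 * L * (2 * s + c) = 4 * L * s + 2 * L * c := by ring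
  have h11 : 4 * L * c = 2 * (2 * L * c) := by ring
  have h12 : 24 * L * s = 6 * (4 * L * s) := by ring
  show n ≤ 4 * L * c
  omega

end Crest.Agent.R19
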