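import Crest.Agent.R19.Defs

set_option autoImplicit false

open Finset Classical

namespace Crest.Agent.R19

theorem pzCount_proof : PrimeCount → PZCount := by
  rintro ⟨x0, h⟩
  refine ⟨x0, fun n hn => ?_⟩
  have h1 : x0 ≤ 2 ^ n := le_trans hn (Nat.lt_two_pow_self).le
  have h2 := h (2 ^ n) h1
  rw [Nat.log_pow (by norm_num)] at h2
  unfold PZ
  have h3 : 2 ^ (n + 1) = 2 * 2 ^ n := by ring
  rw [h3]
  convert h2 using 3

end Crest.Agent.R19
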