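import Crest.Agent.R19.Defs

/-!
# Row 19, task SYLV : greedy expansion down to a given interval
-/

set_option autoImplicit false

open Finset Classical

namespace Crest.Agent.R19.SYLV

/-- one greedy step. -/
lemma step (e : ℚ) (he : 0 < e) (he1 : e < 1) : ∃ n : ℕ, 2 ≤ n ∧ 0 ≤ e - 1 / n ∧
    n * (e - 1 / n) < e ∧ (n : ℚ) * e ≤ 2 ∧ 1 ≤ n * e := by
  refine ⟨⌈1 / e⌉₊, ?_, ?_, ?_, ?_, ?_⟩
  · have h1 : 1 < 1 / e := by rw [lt_div_iff₀ he]; linarith
    have h2 : (1 : ℚ) < (⌈1 / e⌉₊ : ℚ) := lt_of_lt_of_le h1 (Nat.le_ceil _)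
    exact_mod_cast h2
  all_goals
    have h0 : 0 < 1 / e := by positivity
    have h1 : 1 / e ≤ (⌈1 / e⌉₊ : ℚ) := Nat.le_ceil _
    have h2 : (⌈1 / e⌉₊ : ℚ) < 1 / e + 1 := Nat.ceil_lt_add_one h0.le
    have h3 : 0 < (⌈1 / e⌉₊ : ℚ) := lt_of_lt_of_le h0 h1
    have h4 : 1 ≤ (⌈1 / e⌉₊ : ℚ) * e := by rwa [div_le_iff₀ he] at h1
    have h5 : (⌈1 / e⌉₊ : ℚ) * e < 1 + e := by
      have := mul_lt_mul_of_pos_right h2 he
      rwa [add_mul, div_mul_cancel₀ _ he.ne', one_mul] at this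
  · rw [sub_nonneg, div_le_iff₀ h3]; linarith
  · rw [mul_sub, mul_one_div_cancel h3.ne']; linarith
  · linarith
  · exact h4

lemma main (K : ℕ) (Δ : ℚ) (hΔ : 0 < Δ) (hK : (1 : ℚ) ≤ Δ * 2 ^ (2 ^ K)) (r : ℕ) :
    ∀ s : ℕ, s + r = K → ∀ e : ℚ, Δ < e → e * 2 ^ (2 ^ s) < 1 →
      ∃ S : Multiset ℕ, S.card ≤ r + 1 ∧ (∀ x ∈ S, 0 < x) ∧
        0 ≤ e - (S.map (fun x : ℕ => (1 : ℚ) / x)).sum ∧
        e - (S.map (fun x : ℕ => (1 : ℚ) / x)).sum ≤ Δ ∧ (S.prod : ℚ) * Δ ^ 2 ≤ 2 * e := by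
  induction r with
  | zero =>
    intro s hs e he he2
    exfalso
    have : s = K := by omega
    subst this
    have : Δ * 2 ^ (2 ^ s) < e * 2 ^ (2 ^ s) := by gcongr
    linarith
  | succ r ih =>
    intro s hs e he he2
    have he0 : 0 < e := hΔ.trans he
    have h2s : (2 : ℚ) ≤ 2 ^ (2 ^ s) := by
      calc (2 : ℚ) = 2 ^ 1 := (pow_one _).symm
        _ ≤ 2 ^ (2 ^ s) := pow_le_pow_right₀ (by norm_num) Nat.one_le_two_pow
    have he1 : e < 1 := by nlinarith
    obtain ⟨n, hn2, h1, h2, h3, h4⟩ := step e he0 he1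
    have hnpos : (0 : ℚ) < n := by
      have : 0 < n := by omega
      exact_mod_cast this
    set e' := e - 1 / n with he'
    by_cases hle : e' ≤ Δ
    · refine ⟨{n}, by simp, fun x hx => by rw [Multiset.mem_singleton.1 hx]; omega, ?_, ?_, ?_⟩
      · rw [Multiset.map_singleton, Multiset.sum_singleton]; exact h1
      · rw [Multiset.map_singleton, Multiset.sum_singleton]; exact hle
      · rw [Multiset.prod_singleton]
        have h5 : Δ ^ 2 ≤ e ^ 2 := by gcongr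
        nlinarith
    · rw [not_le] at hle
      have h5 : e' < e ^ 2 := by
        have : e' * n < (e * n) * e := by nlinarith
        have h6 : (e' - e ^ 2) * n < 0 := by nlinarith
        by_contra hcon
        rw [not_lt] at hcon
        have : 0 ≤ (e' - e ^ 2) * n := by
          apply mul_nonneg
          · linarith
          · exact hnpos.le
        linarith
      have h6 : e' * 2 ^ (2 ^ (s + 1)) < 1 := by
        have h7 : (2 : ℚ) ^ (2 ^ (s + 1)) = (2 ^ (2 ^ s)) ^ 2 := by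
          rw [← pow_mul, pow_succ 2 s]
        have h8 : (0 : ℚ) < 2 ^ (2 ^ s) := by positivity
        rw [h7]
        calc e' * (2 ^ (2 ^ s)) ^ 2 < e ^ 2 * (2 ^ (2 ^ s)) ^ 2 := by gcongr
          _ = (e * 2 ^ (2 ^ s)) ^ 2 := by ring
          _ ≤ 1 := by
              have h9 : 0 ≤ e * 2 ^ (2 ^ s) := by positivity
              nlinarith
      obtain ⟨S, hS1, hS2, hS3, hS4, hS5⟩ := ih (s + 1) (by omega) e' hle h6
      refine ⟨n ::ₘ S, ?_, ?_, ?_, ?_, ?_⟩
      · rw [Multiset.card_cons]; omega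
      · intro x hx
        rcases Multiset.mem_cons.1 hx with h | h
        · omega
        · exact hS2 x h
      · rw [Multiset.map_cons, Multiset.sum_cons]
        linarith
      · rw [Multiset.map_cons, Multiset.sum_cons]
        linarith
      · rw [Multiset.prod_cons, Nat.cast_mul]
        calc (n : ℚ) * S.prod * Δ ^ 2 = n * (S.prod * Δ ^ 2) := by ring
          _ ≤ n * (2 * e') := by gcongr
          _ ≤ 2 * e := by linarith

lemma frac (S : Multiset ℕ) (hS : ∀ x ∈ S, 0 < x) :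
    ∃ N : ℕ, (S.map (fun x : ℕ => (1 : ℚ) / x)).sum * S.prod = N := by
  induction S using Multiset.induction_on with
  | empty => exact ⟨0, by simp⟩
  | cons a S ih =>
    obtain ⟨N, hN⟩ := ih (fun x hx => hS x (Multiset.mem_cons_of_mem hx))
    have ha : 0 < a := hS a (Multiset.mem_cons_self a S)
    refine ⟨S.prod + a * N, ?_⟩
    rw [Multiset.map_cons, Multiset.sum_cons, Multiset.prod_cons, Nat.cast_add, Nat.cast_mul,
      Nat.cast_mul, ← hN]
    have : (a : ℚ) ≠ 0 := by exact_mod_cast ha.ne'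
    field_simp

lemma full (K : ℕ) (Δ : ℚ) (hΔ : 0 < Δ) (hΔ1 : Δ ≤ 1) (hK : (1 : ℚ) ≤ Δ * 2 ^ (2 ^ K))
    (e : ℚ) (he0 : 0 ≤ e) (he1 : e < 1) :
      ∃ S : Multiset ℕ, S.card ≤ K + 2 ∧ (∀ x ∈ S, 0 < x) ∧
        0 ≤ e - (S.map (fun x : ℕ => (1 : ℚ) / x)).sum ∧
        e - (S.map (fun x : ℕ => (1 : ℚ) / x)).sum ≤ Δ ∧ (S.prod : ℚ) * Δ ^ 2 ≤ 2 := by
  by_cases hle : e ≤ Δ
  · refine ⟨0, by simp, fun x hx => by simp at hx, by simpa using he0, by simpa using hle, ?_⟩
    simp only [Multiset.prod_zero, Nat.cast_one, one_mul]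
    nlinarith
  rw [not_le] at hle
  have he : 0 < e := hΔ.trans hle
  obtain ⟨n, hn2, h1, h2, h3, h4⟩ := step e he he1
  have hnpos : (0 : ℚ) < n := by
    have : 0 < n := by omega
    exact_mod_cast this
  have hn2' : (2 : ℚ) ≤ n := by exact_mod_cast hn2
  set e' := e - 1 / n with he'
  by_cases hle' : e' ≤ Δ
  · refine ⟨{n}, by simp, fun x hx => by rw [Multiset.mem_singleton.1 hx]; omega, ?_, ?_, ?_⟩
    · rw [Multiset.map_singleton, Multiset.sum_singleton]; exact h1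
    · rw [Multiset.map_singleton, Multiset.sum_singleton]; exact hle'
    · rw [Multiset.prod_singleton]
      have h5 : Δ ^ 2 ≤ e := by nlinarith
      nlinarith
  · rw [not_le] at hle'
    have h6 : e' * 2 ^ (2 ^ 0) < 1 := by
      norm_num
      nlinarith
    obtain ⟨S, hS1, hS2, hS3, hS4, hS5⟩ := main K Δ hΔ hK K 0 (by omega) e' hle' h6
    refine ⟨n ::ₘ S, ?_, ?_, ?_, ?_, ?_⟩
    · rw [Multiset.card_cons]; omega
    · intro x hx
      rcases Multiset.mem_cons.1 hx with h | h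
      · omega
      · exact hS2 x h
    · rw [Multiset.map_cons, Multiset.sum_cons]
      linarith
    · rw [Multiset.map_cons, Multiset.sum_cons]
      linarith
    · rw [Multiset.prod_cons, Nat.cast_mul]
      calc (n : ℚ) * S.prod * Δ ^ 2 = n * (S.prod * Δ ^ 2) := by ring
        _ ≤ n * (2 * e') := by gcongr
        _ ≤ 2 := by linarith

end Crest.Agent.R19.SYLV

namespace Crest.Agent.R19

open SYLV

theorem sylvester_proof : Sylvester := by
  intro a b K ρ Δ hb hab hρ hΔ hΔ1 hρa hK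
  have hb' : (0 : ℚ) < b := by exact_mod_cast hb
  have hab' : (a : ℚ) / b < 1 := by
    rw [div_lt_one hb']; exact_mod_cast hab
  obtain ⟨S, h1, h2, h3, h4, h5⟩ := full K Δ hΔ hΔ1 hK ((a : ℚ) / b - ρ) (by linarith) (by linarith)
  obtain ⟨N, hN⟩ := frac S h2
  set σ := (S.map (fun x : ℕ => (1 : ℚ) / x)).sum with hσ
  have hSpos : 0 < S.prod := Multiset.prod_pos h2
  have hSpos' : (0 : ℚ) < (S.prod : ℚ) := by exact_mod_cast hSpos
  have hle : b * N ≤ a * S.prod := by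
    have h6 : 0 ≤ (a : ℚ) / b - σ := by linarith
    have h7 : (a : ℚ) / b * (b * S.prod) = a * S.prod := by field_simp
    have h8 : σ * (b * S.prod) = b * N := by rw [← hN]; ring
    have h9 : 0 ≤ ((a : ℚ) / b - σ) * (b * S.prod) := by positivity
    rw [sub_mul, h7, h8] at h9
    have h10 : (b : ℚ) * N ≤ a * S.prod := by linarith
    exact_mod_cast h10
  have heq : (a : ℚ) / b = σ + ((a * S.prod - b * N : ℕ) : ℚ) / ((b * S.prod : ℕ) : ℚ) := by
    rw [Nat.cast_sub hle, Nat.cast_mul, Nat.cast_mul, Nat.cast_mul]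
    have : σ = (N : ℚ) / S.prod := by rw [eq_div_iff hSpos'.ne']; exact hN
    rw [this]
    field_simp
    ring
  refine ⟨S, a * S.prod - b * N, b * S.prod, h1, h2, Dvd.intro _ rfl, Nat.mul_pos hb hSpos, heq,
    ?_, ?_, ?_⟩
  · linarith
  · linarith
  · rw [Nat.cast_mul]
    calc (b : ℚ) * S.prod * Δ ^ 2 = b * (S.prod * Δ ^ 2) := by ring
      _ ≤ (b : ℚ) * 2 := by gcongr
      _ = 2 * (b : ℚ) := by ring

end Crest.Agent.R19
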