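import Crest.Agent.R19.Defs

/-! Row 19: the final step. -/

set_option autoImplicit false

open Finset Classical

namespace Crest.Agent.R19

theorem log_log_bound {b : ℕ} (hb : 2 ^ 8 ≤ b) :
    (Nat.log 2 (Nat.log 2 b) : ℝ) ≤ 3 * Real.log (Real.log b) := by
  have hb0 : 0 < b := lt_of_lt_of_le (by positivity) hb
  set k := Nat.log 2 b with hk
  have hk8 : 8 ≤ k := Nat.le_log_of_pow_le (by norm_num) hb
  have h1 : ((2 : ℝ)) ^ k ≤ b := by exact_mod_cast Nat.pow_log_le_self 2 (by omega)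
  have hl2 := Real.log_two_gt_d9
  have h2 : (k : ℝ) * Real.log 2 ≤ Real.log b := by
    have h3 := Real.log_le_log (by positivity) h1
    rwa [Real.log_pow] at h3
  have hk8' : (8 : ℝ) ≤ k := by exact_mod_cast hk8
  have h3 : (k : ℝ) ≤ 2 * Real.log b := by nlinarith
  have h4 : (4 : ℝ) ≤ Real.log b := by nlinarith
  have h5 : ((2 : ℝ)) ^ (Nat.log 2 k) ≤ k := by exact_mod_cast Nat.pow_log_le_self 2 (by omega)
  have h6 : (Nat.log 2 k : ℝ) * Real.log 2 ≤ Real.log k := by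
    have h3 := Real.log_le_log (by positivity) h5
    rwa [Real.log_pow] at h3
  have h7 : Real.log k ≤ Real.log 2 + Real.log (Real.log b) := by
    rw [← Real.log_mul (by norm_num) (by linarith)]
    exact Real.log_le_log (by linarith) h3
  have h8 : 1 ≤ Real.log (Real.log b) := by
    rw [Real.le_log_iff_exp_le (by linarith)]
    have := Real.exp_one_lt_d9
    linarith
  have h9 := Real.log_two_lt_d9
  have h10 : (Nat.log 2 k : ℝ) * Real.log 2 ≤ Real.log 2 + Real.log (Real.log b) := h6.trans h7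
  by_contra hcon
  push Not at hcon
  nlinarith

theorem top_proof (hF : FinalMulti) (hD : Distinct) :
    ∃ C : ℝ, ∃ b₀ : ℕ, ∀ (a b : ℕ), b₀ ≤ b → 1 ≤ a → a < b →
      ∃ S : Finset ℕ, (∀ n ∈ S, 2 ≤ n) ∧ (S.card : ℝ) ≤ C * Real.log (Real.log (b : ℝ)) ∧
        ∑ n ∈ S, (1 : ℚ) / (n : ℚ) = (a : ℚ) / (b : ℚ) := by
  obtain ⟨C, b₀, h⟩ := hF
  refine ⟨C * 3, max b₀ (2 ^ 8), fun a b hb ha hab => ?_⟩
  have h1 := h a b (le_trans (le_max_left _ _) hb) ha hab
  have hb0 : (0 : ℚ) < b := by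
    have : 0 < b := by omega
    exact_mod_cast this
  have hq : (a : ℚ) / b < 1 := by
    rw [div_lt_one hb0]
    exact_mod_cast hab
  obtain ⟨S, hS1, hS2, hS3⟩ := hD _ _ hq h1
  refine ⟨S, hS1, ?_, hS3⟩
  have h2 := log_log_bound (le_trans (le_max_right _ _) hb)
  have h3 : (S.card : ℝ) ≤ (C * Nat.log 2 (Nat.log 2 b) : ℕ) := by exact_mod_cast hS2
  push_cast at h3
  calc (S.card : ℝ) ≤ C * Nat.log 2 (Nat.log 2 b) := h3
    _ ≤ C * (3 * Real.log (Real.log b)) := by gcongr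
    _ = _ := by ring

end Crest.Agent.R19
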