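import Crest.Agent.R19.Basics

/-!
# Row 19, task WIN : the window lemma from its core
-/

set_option autoImplicit false

open Finset Classical

namespace Crest.Agent.R19.WIN

lemma SumDiv.mono {t t' N N' m : ℕ} (h : SumDiv t N m) (ht : t ≤ t') (hN : N ∣ N') :
    SumDiv t' N' m := by
  obtain ⟨s, h1, h2, h3⟩ := h
  exact ⟨s, h1.trans ht, fun d hd => (h2 d hd).trans hN, h3⟩

lemma SumDiv.add {t t' N m m' : ℕ} (h : SumDiv t N m) (h' : SumDiv t' N m') :
    SumDiv (t + t') N (m + m') := by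
  obtain ⟨s, h1, h2, h3⟩ := h
  obtain ⟨s', h1', h2', h3'⟩ := h'
  refine ⟨s + s', ?_, ?_, ?_⟩
  · rw [Multiset.card_add]; omega
  · intro d hd
    rcases Multiset.mem_add.1 hd with h | h
    · exact h2 d h
    · exact h2' d h
  · rw [Multiset.sum_add, h3, h3']

lemma SumDiv.single {N d : ℕ} (h : d ∣ N) : SumDiv 1 N d :=
  ⟨{d}, by simp, fun x hx => by rw [Multiset.mem_singleton.1 hx]; exact h, by simp⟩

lemma SumDiv.zero (t N : ℕ) : SumDiv t N 0 := ⟨0, by simp, fun x hx => by simp at hx, by simp⟩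

lemma SumDiv.sum {ι : Type} (s : Finset ι) (f : ι → ℕ) (t N : ℕ)
    (h : ∀ i ∈ s, SumDiv t N (f i)) : SumDiv (s.card * t) N (∑ i ∈ s, f i) := by
  induction s using Finset.induction_on with
  | empty => simp only [sum_empty]; exact SumDiv.zero _ _
  | insert a s ha ih =>
    rw [sum_insert ha, card_insert_of_notMem ha]
    have h1 := SumDiv.add (h a (mem_insert_self a s)) (ih (fun i hi => h i (mem_insert_of_mem hi)))
    exact SumDiv.mono h1 (by ring_nf; omega) dvd_rfl

lemma binary (k : ℕ) : ∀ z : ℕ, z < 2 ^ k → SumDiv k (2 ^ k) z := by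
  induction k with
  | zero =>
    intro z hz
    have : z = 0 := by simpa using hz
    subst this
    exact SumDiv.zero _ _
  | succ k ih =>
    intro z hz
    rcases lt_or_ge z (2 ^ k) with h | h
    · exact SumDiv.mono (ih z h) (by omega) (pow_dvd_pow 2 (by omega))
    · have h1 : z - 2 ^ k < 2 ^ k := by rw [pow_succ] at hz; omega
      have h2 := SumDiv.add (SumDiv.mono (ih _ h1) le_rfl (pow_dvd_pow 2 (Nat.le_succ k)))
        (SumDiv.single (N := 2 ^ (k + 1)) (d := 2 ^ k) (pow_dvd_pow 2 (Nat.le_succ k)))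
      rwa [Nat.sub_add_cancel h] at h2

end Crest.Agent.R19.WIN

namespace Crest.Agent.R19

open WIN

set_option maxHeartbeats 4000000 in
theorem windowLemma_proof : WinCore → BaseExists → WindowLemma := by
  rintro ⟨n1, hcore⟩ ⟨n2, hbase⟩
  refine ⟨10000000, n1 + n2 + 7680000, fun n hn => ?_⟩
  obtain ⟨B⟩ := hbase n (by omega)
  obtain ⟨P, D, m₀, hD, hm₀, hwin⟩ := hcore n (by omega) B
  have hnbig : 7680000 ≤ n := by omega
  have hn1 : 1 ≤ n := by omega
  set X := XX B with hX
  set L := Nat.log 2 n with hL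
  have hL1 : 1 ≤ L := Nat.log_pos (by norm_num) (by omega)
  have hT : TT n = 10 * L := rfl
  set V := nz n with hV
  have hVle : V ≤ 48000 * L := by
    rw [hV]
    unfold nz
    have h1 : n ≤ 2 ^ (L + 1) := (Nat.lt_pow_succ_log_self (by norm_num) n).le
    have h2 : n ^ 24000 ≤ 2 ^ ((L + 1) * 24000) := by
      rw [pow_mul]; exact Nat.pow_le_pow_left h1 _
    have h3 : Nat.clog 2 (n ^ 24000) ≤ (L + 1) * 24000 :=
      (Nat.clog_le_iff_le_pow (by norm_num)).2 h2
    omega
  have h2V : 2 ^ V ≤ n ^ 48000 := by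
    calc 2 ^ V ≤ 2 ^ (L * 48000) := Nat.pow_le_pow_right (by norm_num) (by omega)
      _ = (2 ^ L) ^ 48000 := by rw [pow_mul]
      _ ≤ n ^ 48000 := Nat.pow_le_pow_left (Nat.pow_log_le_self 2 (by omega)) _
  set W1 : ℕ := ∏ j : Fin n, (B.p j true * B.p j false) with hW1
  set W2 : ℕ := ∏ i : Fin 48000, D i with hW2
  set W3 : ℕ := ∏ i : Fin 48000, ∏ u : Fin (TT n), (P i u : ℕ) with hW3
  have hXn : n ^ n ≤ X := XX_ge B (by omega)
  have hXpos : 0 < X := lt_of_lt_of_le (Nat.pow_pos (by omega)) hXn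
  have hXle : X ≤ n ^ (15 * n + 12) := XX_le B (by omega)
  set Dn : ℕ := 7680000 * n ^ 12000 with hDn
  have hDnpos : 0 < Dn := by
    rw [hDn]; exact Nat.mul_pos (by norm_num) (Nat.pow_pos (by omega))
  have hDnle : Dn ≤ n ^ 12001 := by
    rw [hDn, show (12001 : ℕ) = 12000 + 1 from rfl, pow_succ, mul_comm]
    exact Nat.mul_le_mul_left _ hnbig
  set l : ℕ := X ^ 4 / Dn with hl
  have hln : n ^ n ≤ l := by
    rw [hl, Nat.le_div_iff_mul_le hDnpos]
    calc n ^ n * Dn ≤ n ^ n * n ^ 12001 := Nat.mul_le_mul_left _ hDnle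
      _ = n ^ (n + 12001) := by rw [pow_add]
      _ ≤ n ^ (n * 4) := Nat.pow_le_pow_right (by omega) (by omega)
      _ = (n ^ n) ^ 4 := by rw [pow_mul]
      _ ≤ X ^ 4 := Nat.pow_le_pow_left hXn 4
  have hlpos : 1 ≤ l := le_trans (Nat.one_le_pow _ _ (by omega)) hln
  refine ⟨2 ^ V * W1 * W2 * W3, m₀, l, ?_, ?_, hln, ?_, ?_⟩
  · -- positivity
    have h1 : 0 < W1 := Finset.prod_pos (fun j _ => Nat.mul_pos (B.prime _ _).pos (B.prime _ _).pos)
    have h2 : 0 < W2 := Finset.prod_pos (fun i _ => (hD i).1)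
    have h3 : 0 < W3 := Finset.prod_pos (fun i _ => Finset.prod_pos (fun u _ => (PZ_prime _).pos))
    have h4 : 0 < 2 ^ V := Nat.pow_pos (by norm_num)
    exact Nat.mul_pos (Nat.mul_pos (Nat.mul_pos h4 h1) h2) h3
  · -- size
    have h1 : W1 ≤ n ^ (12 * n) := by
      calc W1 ≤ ∏ _j : Fin n, n ^ 12 := by
            refine Finset.prod_le_prod' (fun j _ => ?_)
            have hy : ∀ s, B.p j s ≤ n ^ 6 := by
              intro s
              calc B.p j s ≤ 2 * B.y := B.p_le_two j s
                _ ≤ n * n ^ 5 := Nat.mul_le_mul (by omega) B.y_hi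
                _ = n ^ 6 := by ring
            calc B.p j true * B.p j false ≤ n ^ 6 * n ^ 6 := Nat.mul_le_mul (hy _) (hy _)
              _ = n ^ 12 := by ring
        _ = n ^ (12 * n) := by
            rw [prod_const, card_univ, Fintype.card_fin, ← pow_mul]
    have hX3 : 2 * X ^ 3 ≤ n ^ (82 * n) := by
      calc 2 * X ^ 3 ≤ n * (n ^ (15 * n + 12)) ^ 3 :=
            Nat.mul_le_mul (by omega) (Nat.pow_le_pow_left hXle 3)
        _ = n ^ (1 + (15 * n + 12) * 3) := by rw [← pow_mul, ← pow_succ', add_comm 1]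
        _ ≤ n ^ (82 * n) := Nat.pow_le_pow_right (by omega) (by omega)
    have h2 : W2 ≤ n ^ (82 * n * 48000) := by
      calc W2 ≤ ∏ _i : Fin 48000, n ^ (82 * n) :=
            Finset.prod_le_prod' (fun i _ => (hD i).2.le.trans hX3)
        _ = n ^ (82 * n * 48000) := by
            rw [prod_const, card_univ, Fintype.card_fin, ← pow_mul]
    have h3 : W3 ≤ n ^ (20 * n * 48000) := by
      calc W3 ≤ ∏ _i : Fin 48000, n ^ (20 * n) := by
            refine Finset.prod_le_prod' (fun i _ => ?_)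
            calc ∏ u : Fin (TT n), (P i u : ℕ) ≤ ∏ _u : Fin (TT n), 2 ^ (2 * n) :=
                  Finset.prod_le_prod' (fun u _ => (PZ_hi _).trans
                    (Nat.pow_le_pow_right (by norm_num) (by omega)))
              _ = (2 ^ TT n) ^ (2 * n) := by
                  rw [prod_const, card_univ, Fintype.card_fin, ← pow_mul, ← pow_mul,
                    mul_comm (2 * n)]
              _ ≤ (n ^ 10) ^ (2 * n) := Nat.pow_le_pow_left (two_pow_TT hn1) _
              _ = n ^ (20 * n) := by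
                  rw [← pow_mul, ← mul_assoc, show 10 * 2 = 20 from rfl]
        _ = n ^ (20 * n * 48000) := by
            rw [prod_const, card_univ, Fintype.card_fin, ← pow_mul]
    calc 2 ^ V * W1 * W2 * W3
        ≤ n ^ 48000 * n ^ (12 * n) * n ^ (82 * n * 48000) * n ^ (20 * n * 48000) :=
          Nat.mul_le_mul (Nat.mul_le_mul (Nat.mul_le_mul h2V h1) h2) h3
      _ = n ^ (48000 + 12 * n + 82 * n * 48000 + 20 * n * 48000) := by
          rw [← pow_add, ← pow_add, ← pow_add]
      _ ≤ n ^ (10000000 * n) := Nat.pow_le_pow_right (by omega) (by omega)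
  · -- J ≤ n^C l
    have h1 : X ^ 4 < (l + 1) * Dn := by
      have := Nat.lt_succ_iff.1 (Nat.lt_succ_self (X ^ 4))
      rw [hl]
      have h2 := Nat.lt_div_mul_add (a := X ^ 4) hDnpos
      calc X ^ 4 < X ^ 4 / Dn * Dn + Dn := h2
        _ = _ := by ring
    have h2 : m₀ ≤ 192000 * (2 * l * n ^ 12001) := by
      calc m₀ ≤ 192000 * X ^ 4 := hm₀.le
        _ ≤ 192000 * ((l + 1) * Dn) := Nat.mul_le_mul_left _ h1.le
        _ ≤ 192000 * (2 * l * n ^ 12001) :=
            Nat.mul_le_mul_left _ (Nat.mul_le_mul (by omega) hDnle)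
    calc m₀ ≤ 192000 * (2 * l * n ^ 12001) := h2
      _ = 384000 * n ^ 12001 * l := by ring
      _ ≤ n * n ^ 12001 * l := Nat.mul_le_mul_right _ (Nat.mul_le_mul_right _ (by omega))
      _ = n ^ (1 + 12001) * l := by rw [pow_add, pow_one]
      _ ≤ n ^ 10000000 * l := Nat.mul_le_mul_right _ (Nat.pow_le_pow_right (by omega) (by norm_num))
  · -- windows
    intro m hm1 hm2
    obtain ⟨e, z, hz, hsum⟩ := hwin m hm1 hm2
    rw [← hsum]
    have hz' : SumDiv V (2 ^ V * W1 * W2 * W3) z := by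
      refine SumDiv.mono (binary V z hz) le_rfl ?_
      rw [mul_assoc, mul_assoc]
      exact Dvd.intro _ rfl
    have hw : ∀ c : Cube n, B.w c ∣ W1 := by
      intro c
      unfold Base.w
      refine Finset.prod_dvd_prod_of_dvd _ _ (fun j _ => ?_)
      cases c j
      · exact Dvd.intro_left _ rfl
      · exact Dvd.intro _ rfl
    have hterm : ∀ i : Fin 48000, SumDiv (TT n) (2 ^ V * W1 * W2 * W3)
        (D i * xval B (P i) (e i)) := by
      intro i
      unfold xval
      rw [Finset.mul_sum]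
      have h1 := SumDiv.sum (univ : Finset (Fin (TT n)))
        (fun u => D i * ((∏ v ∈ univ.erase u, (P i v : ℕ)) * B.w (e i u))) 1
        (2 ^ V * W1 * W2 * W3) (fun u _ => by
          apply SumDiv.single
          have g1 : D i ∣ W2 := Finset.dvd_prod_of_mem _ (mem_univ i)
          have g2 : (∏ v ∈ univ.erase u, (P i v : ℕ)) ∣ W3 := by
            refine (Finset.prod_dvd_prod_of_subset _ _ _ (erase_subset u univ)).trans ?_
            exact Finset.dvd_prod_of_mem (fun i => ∏ u : Fin (TT n), (P i u : ℕ)) (mem_univ i)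
          have g3 := hw (e i u)
          have g4 : D i * ((∏ v ∈ univ.erase u, (P i v : ℕ)) * B.w (e i u)) ∣ W2 * (W3 * W1) :=
            mul_dvd_mul g1 (mul_dvd_mul g2 g3)
          refine g4.trans ⟨2 ^ V, by ring⟩)
      rw [card_univ, Fintype.card_fin, mul_one] at h1
      exact h1
    have h2 := SumDiv.sum (univ : Finset (Fin 48000)) (fun i => D i * xval B (P i) (e i)) (TT n)
      (2 ^ V * W1 * W2 * W3) (fun i _ => hterm i)
    rw [card_univ, Fintype.card_fin] at h2
    refine SumDiv.mono (SumDiv.add h2 hz') ?_ dvd_rfl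
    rw [hT]
    omega

end Crest.Agent.R19
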