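import Crest.Agent.R19.A1CORE
import Crest.Agent.R19.A1L
import Crest.Agent.R19.A1LC
import Crest.Agent.R19.A1M
import Crest.Agent.R19.A1MC
import Crest.Agent.R19.A2L
import Crest.Agent.R19.A2LC
import Crest.Agent.R19.A2M
import Crest.Agent.R19.A2MC
import Crest.Agent.R19.ARCH
import Crest.Agent.R19.AVG
import Crest.Agent.R19.BASE
import Crest.Agent.R19.BB
import Crest.Agent.R19.DIGITS
import Crest.Agent.R19.DIST
import Crest.Agent.R19.ENERGY
import Crest.Agent.R19.ENERGYZ
import Crest.Agent.R19.EVENT
import Crest.Agent.R19.FINAL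
import Crest.Agent.R19.FRAC
import Crest.Agent.R19.GCD
import Crest.Agent.R19.GCD1
import Crest.Agent.R19.GCD2
import Crest.Agent.R19.GEOM
import Crest.Agent.R19.KARCH
import Crest.Agent.R19.KMOD
import Crest.Agent.R19.KRAT
import Crest.Agent.R19.LEVEL
import Crest.Agent.R19.MAJC
import Crest.Agent.R19.MINC
import Crest.Agent.R19.PERM
import Crest.Agent.R19.POSW
import Crest.Agent.R19.PRIMES
import Crest.Agent.R19.PZC
import Crest.Agent.R19.SYLV
import Crest.Agent.R19.Top
import Crest.Agent.R19.WIN
import Crest.Agent.R19.WINC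

/-! Row 19: assembly of all tasks. -/

set_option autoImplicit false

namespace Crest.Agent.R19

theorem final :
    ∃ C : ℝ, ∃ b₀ : ℕ, ∀ (a b : ℕ), b₀ ≤ b → 1 ≤ a → a < b →
      ∃ S : Finset ℕ, (∀ n ∈ S, 2 ≤ n) ∧ (S.card : ℝ) ≤ C * Real.log (Real.log (b : ℝ)) ∧
        ∑ n ∈ S, (1 : ℚ) / (n : ℚ) = (a : ℚ) / (b : ℚ) := by
  have hPC := primeCount_proof
  have hPZ := pzCount_proof hPC
  have hBase := baseExists_proof hPC
  have hGcd := gcdLemma_proof gcdCase1_proof gcdCase2_proof
  have hKR := kRat_proof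
  have hKM := kMod_proof hKR
  have hKA := kArch_proof hKR
  have hPerm := permCount_proof
  have hEn := energyIneq_proof
  have hEnZ := energyInt_proof hEn
  have hA1M := a1mid_proof hGcd hPZ a1midComb_proof
  have hA1L := a1large_proof hGcd hPZ (a1largeComb_proof (a1core_proof hEn hKM hPerm))
  have hA2M := a2mid_proof archLemma_proof hPZ a2midComb_proof
  have hA2L := a2large_proof archLemma_proof hPZ (a2largeComb_proof hEnZ hKA hPerm)
  have hMin := minorArc_proof hA1M hA1L hA2M hA2L (minorComb_proof geomSum_proof)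
    eventDichotomy_proof
  have hWC := winCore_proof hMin (levelSum_proof majCount_proof) posWindow_proof avgSigma_proof
    geomSum_proof hPZ
  have hWL := windowLemma_proof hWC hBase
  exact top_proof (finalMulti_proof hWL digits_proof sylvester_proof fracOfDiv_proof) distinct_proof

end Crest.Agent.R19
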