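import Mathlib

/-!
# Row 19 (S0025): `a/b` is a sum of `O(log log b)` distinct unit fractions.
Definitions and the list of closed Props (one per task).  See table `r19_tasks` for the proofs.

Conventions: `y`, `p j s` (`j < n`, `s : Bool`) are the base primes, all in `[y, y (1+1/n)]`,
`w ε = ∏ j, p j (ε j)`, `T = TT n = 10 * Nat.log 2 n`, `PZ n` = primes in `(2^n, 2^(n+1)]`,
`X = XX B = 2 T (2^(n+1))^(T-1) y^n`.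
-/

set_option autoImplicit false

open Finset Classical

namespace Crest.Agent.R19

/-! ## Basic data -/

/-- `2n` distinct primes in `[y, y (1 + 1/n)]`, `n ≤ y ≤ n^5`. -/
structure Base (n : ℕ) where
  y : ℕ
  p : Fin n → Bool → ℕ
  prime : ∀ j s, (p j s).Prime
  inj : ∀ j s j' s', p j s = p j' s' → j = j' ∧ s = s'
  lo : ∀ j s, y ≤ p j s
  hi : ∀ j s, n * p j s ≤ (n + 1) * y
  y_lo : n ≤ y
  y_hi : y ≤ n ^ 5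

/-- a point of the cube. -/
abbrev Cube (n : ℕ) := Fin n → Bool

/-- `w ε = ∏ j, p j (ε j)`. -/
def Base.w {n : ℕ} (B : Base n) (e : Cube n) : ℕ := ∏ j, B.p j (e j)

/-- difference `w ε - w ε'`. -/
def Base.dw {n : ℕ} (B : Base n) (e : Cube n × Cube n) : ℤ := (B.w e.1 : ℤ) - (B.w e.2 : ℤ)

/-- primes in `(2^n, 2^(n+1)]`. -/
def PZ (n : ℕ) : Finset ℕ := (Finset.Ioc (2 ^ n) (2 ^ (n + 1))).filter Nat.Prime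

/-- `T`. -/
def TT (n : ℕ) : ℕ := 10 * Nat.log 2 n

/-- `X`: an upper bound for `|ν|`. -/
def XX {n : ℕ} (B : Base n) : ℕ := 2 * TT n * (2 ^ (n + 1)) ^ (TT n - 1) * B.y ^ n

/-- a configuration: `T` primes and `T` pairs of points of the cube. -/
abbrev Conf (n : ℕ) := (Fin (TT n) → PZ n) × (Fin (TT n) → Cube n × Cube n)

/-- `ν = ∑_u (∏_{v ≠ u} P_v) (w ε_u - w ε'_u)`. -/
def nu {n : ℕ} (B : Base n) (c : Conf n) : ℤ :=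
  ∑ u, (∏ v ∈ univ.erase u, ((c.1 v : ℕ) : ℤ)) * B.dw (c.2 u)

/-- `x = ∑_u (∏_{v ≠ u} P_v) w ε_u`. -/
def xval {n : ℕ} (B : Base n) (P : Fin (TT n) → PZ n) (e : Fin (TT n) → Cube n) : ℕ :=
  ∑ u, (∏ v ∈ univ.erase u, (P v : ℕ)) * B.w (e u)

/-- `e(x) = exp (2 π i x)`. -/
noncomputable def ex (x : ℝ) : ℂ := Complex.exp (2 * Real.pi * x * Complex.I)

/-- `x̂_P(θ) = 2^{-nT} ∑_ε e(θ x_P(ε))`. -/
noncomputable def xhat {n : ℕ} (B : Base n) (P : Fin (TT n) → PZ n) (θ : ℝ) : ℂ :=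
  (∑ e : Fin (TT n) → Cube n, ex (θ * xval B P e)) / 2 ^ (n * TT n)

/-- `θ` is within `H/G` of a rational with denominator at most `H` (in the sense `|qθ-a| ≤ H/G`). -/
def Maj (G H θ : ℝ) : Prop := ∃ q : ℕ, ∃ a : ℤ, 1 ≤ q ∧ (q : ℝ) ≤ H ∧ |q * θ - a| ≤ H / G

/-! ## Elementary number theory -/

/-- PRIMES: many primes in `(x, 2x]`. -/
def PrimeCount : Prop := ∃ x0 : ℕ, ∀ x ≥ x0,
  x ≤ 4 * Nat.log 2 x * ((Finset.Ioc x (2 * x)).filter Nat.Prime).card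

/-- BASE: existence of base data (from `PrimeCount`). -/
def BaseExists : Prop := ∃ n0 : ℕ, ∀ n ≥ n0, Nonempty (Base n)

/-- PZC: number of primes in `PZ n` (from `PrimeCount`). -/
def PZCount : Prop := ∃ n0 : ℕ, ∀ n ≥ n0, 2 ^ n ≤ 4 * n * (PZ n).card

/-- number of coordinates `j` such that one of the primes `p j s` divides `Q`. -/
def tB {n : ℕ} (B : Base n) (Q : ℕ) : ℕ := (univ.filter (fun j : Fin n => ∃ s, B.p j s ∣ Q)).card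

/-- the pairs whose difference has a large common divisor with `Q`. -/
noncomputable def badQ {n : ℕ} (B : Base n) (Q : ℕ) : Finset (Cube n × Cube n) :=
  univ.filter (fun e => (Q : ℝ) ^ (49 / 50 : ℝ) < (Int.gcd (B.dw e) Q : ℝ))

/-- the pairs with a small difference. -/
noncomputable def smallD {n : ℕ} (B : Base n) (η : ℝ) : Finset (Cube n × Cube n) :=
  univ.filter (fun e => η * |(B.dw e : ℝ)| < (B.y : ℝ) ^ n)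

/-- GCD1: block argument. -/
def GcdCase1 : Prop := ∀ n : ℕ, ∀ B : Base n, ∀ Q k : ℕ, 1 ≤ Q → k ≤ n →
  (2 * B.y : ℝ) ^ (tB B Q) ≤ (Q : ℝ) ^ (1 / 5 : ℝ) → (2 * B.y : ℝ) ^ k ≤ (Q : ℝ) ^ (1 / 2 : ℝ) →
  2 ^ k * (badQ B Q).card ≤ 4 ^ n

/-- GCD2: Chernoff argument. -/
def GcdCase2 : Prop := ∀ n : ℕ, ∀ B : Base n, ∀ Q : ℕ, 1 ≤ Q →
  (∀ K : ℕ, (B.y : ℝ) ^ K < (Q : ℝ) ^ (1 / 50 : ℝ) → 4 * K ≤ tB B Q) →
  ((badQ B Q).card : ℝ) ≤ Real.exp (-(tB B Q : ℝ) / 8) * 4 ^ n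

/-- GCD: the differences `w ε - w ε'` rarely have a large common divisor with `Q`. -/
def GcdLemma : Prop := ∃ n0 : ℕ, ∀ n ≥ n0, ∀ B : Base n, ∀ Q : ℕ, n ^ 12 ≤ Q →
  ((badQ B Q).card : ℝ) ≤ Real.exp (-(1 / 40) * min (n : ℝ) (Real.log Q / (6 * Real.log n))) * 4 ^ n

/-- ARCH: the differences `w ε - w ε'` are rarely small. -/
def ArchLemma : Prop := ∀ n : ℕ, ∀ B : Base n, ∀ k : ℕ, ∀ η : ℝ, k ≤ n → 2 * (B.y : ℝ) ^ k ≤ η →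
  2 ^ k * (smallD B η).card ≤ 4 ^ n

/-- KRAT: linear independence of reciprocals of primes. -/
def KRat : Prop := ∀ n j : ℕ, j ≤ 2 ^ n → ∀ P P' : Fin j → PZ n,
  ∑ l, (1 : ℚ) / ((P l : ℕ) : ℚ) = ∑ l, (1 : ℚ) / ((P' l : ℕ) : ℚ) →
  ∃ σ : Equiv.Perm (Fin j), P' = P ∘ σ

/-- KMOD: sums of reciprocals of primes modulo `q`. -/
def KMod : Prop := ∀ n j q : ℕ, j ≤ 2 ^ n → j * (2 ^ (n + 1)) ^ (2 * j) < q →
  ∀ P P' : Fin j → PZ n, (∀ l, Nat.Coprime (P l : ℕ) q) → (∀ l, Nat.Coprime (P' l : ℕ) q) →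
    ∑ l, (((P l : ℕ) : ZMod q))⁻¹ = ∑ l, (((P' l : ℕ) : ZMod q))⁻¹ →
    ∃ σ : Equiv.Perm (Fin j), P' = P ∘ σ

/-- KARCH: sums of reciprocals of primes are well spaced. -/
def KArch : Prop := ∀ n j : ℕ, j ≤ 2 ^ n →
  ∀ P P' : Fin j → PZ n,
    |∑ l, (1 : ℝ) / ((P l : ℕ) : ℝ) - ∑ l, (1 : ℝ) / ((P' l : ℕ) : ℝ)| * (2 ^ (n + 1)) ^ (2 * j) < 1 →
    ∃ σ : Equiv.Perm (Fin j), P' = P ∘ σ

/-- PERM: number of pairs of tuples that are permutations of each other. -/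
def PermCount : Prop := ∀ (α : Type) [Fintype α] (j : ℕ),
  (univ.filter (fun x : (Fin j → α) × (Fin j → α) =>
    ∃ σ : Equiv.Perm (Fin j), x.2 = x.1 ∘ σ)).card ≤ j.factorial * Fintype.card α ^ j

/-! ## The energy inequality -/

/-- ENERGY: Fourier analysis on `ZMod N`. -/
def EnergyIneq : Prop := ∀ (N : ℕ) [NeZero N] (D Pi : Type) [Fintype D] [Fintype Pi] [Nonempty D]
  [Nonempty Pi] (bad : Finset D) (ξ : D → Pi → ZMod N) (I : Finset (ZMod N)) (c : ZMod N) (m j : ℕ)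
  (E pb : ℝ), I.Nonempty → 1 ≤ j → 2 * j ≤ m → (bad.card : ℝ) ≤ pb * Fintype.card D → 0 ≤ E →
  (∀ d ∉ bad, ((univ.filter (fun x : ((Fin j → Pi) × (Fin j → Pi)) × (I × I) =>
      ∑ l, ξ d (x.1.1 l) - ∑ l, ξ d (x.1.2 l) = (x.2.1 : ZMod N) - (x.2.2 : ZMod N))).card : ℝ) ≤
        E * (Fintype.card Pi : ℝ) ^ (2 * j) * I.card) →
  ((univ.filter (fun x : ((Fin m → D) × (Fin m → Pi)) × (I × I) =>
      ∑ u, ξ (x.1.1 u) (x.1.2 u) + c = (x.2.1 : ZMod N) - (x.2.2 : ZMod N))).card : ℝ) ≤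
    2 ^ m * (pb ^ m + E) * (Fintype.card D : ℝ) ^ m * (Fintype.card Pi : ℝ) ^ m * I.card

/-- ENERGYZ: integer version (from `EnergyIneq`). -/
def EnergyInt : Prop := ∀ (D Pi : Type) [Fintype D] [Fintype Pi] [Nonempty D] [Nonempty Pi]
  (bad : Finset D) (ξ : D → Pi → ℤ) (h m j : ℕ) (E pb : ℝ),
  1 ≤ j → 2 * j ≤ m → (bad.card : ℝ) ≤ pb * Fintype.card D → 0 ≤ E →
  (∀ d ∉ bad, ((univ.filter (fun x : (Fin j → Pi) × (Fin j → Pi) =>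
      |∑ l, ξ d (x.1 l) - ∑ l, ξ d (x.2 l)| ≤ 2 * (h : ℤ))).card : ℝ) ≤
        E * (Fintype.card Pi : ℝ) ^ (2 * j)) →
  ((univ.filter (fun x : (Fin m → D) × (Fin m → Pi) =>
      |∑ u, ξ (x.1 u) (x.2 u)| ≤ (h : ℤ))).card : ℝ) ≤
    2 * 2 ^ m * (pb ^ m + E) * (Fintype.card D : ℝ) ^ m * (Fintype.card Pi : ℝ) ^ m

/-! ## Divisibility and size of `ν` -/

/-- number of primes of `PZ n` dividing `q`. -/
def tq (n q : ℕ) : ℕ := ((PZ n).filter (fun P => P ∣ q)).card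

/-- A1MC: combinatorial bound for `q ∣ ν`, one variable prime. -/
def A1midComb : Prop := ∀ n : ℕ, ∀ B : Base n, ∀ (q : ℕ) (pb : ℝ), 1 ≤ q → 1 ≤ (PZ n).card →
  ((badQ B q).card : ℝ) ≤ pb * 4 ^ n →
  ((univ.filter (fun c : Conf n => (q : ℤ) ∣ nu B c)).card : ℝ) ≤
    (TT n * tq n q / (PZ n).card + pb ^ TT n + (2 ^ n / (q : ℝ) ^ (1 / 50 : ℝ) + 1) / (PZ n).card) *
      ((PZ n).card : ℝ) ^ TT n * 4 ^ (n * TT n)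

/-- A1CORE: the energy inequality applied to reciprocals of primes modulo `Q`. -/
def A1core : Prop := ∀ n : ℕ, ∀ B : Base n, ∀ (Q j m : ℕ) (pb : ℝ) (S : Finset ℕ), 1 ≤ Q → 1 ≤ j →
  j ≤ 2 ^ n → 2 * j ≤ m → S ⊆ PZ n → S.Nonempty → (∀ P ∈ S, Nat.Coprime P Q) →
  ((badQ B Q).card : ℝ) ≤ pb * 4 ^ n →
  (j : ℝ) * (2 ^ (n + 1)) ^ (2 * j) < (Q : ℝ) ^ (1 / 50 : ℝ) → ∀ c : ZMod Q,
  ((univ.filter (fun x : (Fin m → Cube n × Cube n) × (Fin m → S) =>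
      ∑ u, ((B.dw (x.1 u) : ℤ) : ZMod Q) * (((x.2 u : ℕ) : ZMod Q))⁻¹ = c)).card : ℝ) ≤
    2 ^ m * (pb ^ m + j.factorial / (S.card : ℝ) ^ j) * 4 ^ (n * m) * (S.card : ℝ) ^ m

/-- A1LC: combinatorial bound for `q ∣ ν`, energy method. -/
def A1largeComb : Prop := ∀ n : ℕ, ∀ B : Base n, ∀ (q f j : ℕ) (pb : ℝ), 1 ≤ q → 1 ≤ j →
  j ≤ 2 ^ n → f + 2 * j ≤ TT n → 0 ≤ pb → pb ≤ 1 → tq n q < (PZ n).card →
  (∀ Q : ℕ, Q ∣ q → q ≤ Q * (2 ^ (n + 1)) ^ f →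
    ((badQ B Q).card : ℝ) ≤ pb * 4 ^ n ∧
    (j : ℝ) * (2 ^ (n + 1)) ^ (2 * j) < (Q : ℝ) ^ (1 / 50 : ℝ)) →
  ((univ.filter (fun c : Conf n => (q : ℤ) ∣ nu B c)).card : ℝ) ≤
    (2 ^ TT n * ((tq n q : ℝ) / (PZ n).card) ^ (f + 1) +
      4 ^ TT n * (pb ^ (TT n - f) + j.factorial / ((PZ n).card - tq n q : ℝ) ^ j)) *
      ((PZ n).card : ℝ) ^ TT n * 4 ^ (n * TT n)

/-- A2MC: combinatorial bound for `|ν| ≤ X/H`, one variable prime. -/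
def A2midComb : Prop := ∀ n : ℕ, ∀ B : Base n, ∀ (H pb : ℝ), 1 ≤ H → 1 ≤ (PZ n).card →
  4 * TT n * 2 ^ TT n * H ^ (1 / 4 : ℝ) ≤ H →
  ((smallD B (H ^ (1 / 4 : ℝ))).card : ℝ) ≤ pb * 4 ^ n →
  ((univ.filter (fun c : Conf n => H * |(nu B c : ℝ)| ≤ XX B)).card : ℝ) ≤
    (pb ^ TT n + (8 * TT n * 2 ^ TT n * 2 ^ n / H ^ (3 / 4 : ℝ) + 1) / (PZ n).card) *
      ((PZ n).card : ℝ) ^ TT n * 4 ^ (n * TT n)

/-- A2LC: combinatorial bound for `|ν| ≤ X/H`, energy method. -/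
def A2largeComb : Prop := ∀ n : ℕ, ∀ B : Base n, ∀ (H : ℝ) (j : ℕ) (pb : ℝ), 1 ≤ H → 1 ≤ j →
  j ≤ 2 ^ n → 2 * j ≤ TT n → 1 ≤ (PZ n).card →
  ((smallD B (H ^ (1 / 4 : ℝ))).card : ℝ) ≤ pb * 4 ^ n →
  2 * TT n * 2 ^ TT n * (2 ^ (n + 1)) ^ (2 * j) < 2 ^ n * H ^ (3 / 4 : ℝ) →
  ((univ.filter (fun c : Conf n => H * |(nu B c : ℝ)| ≤ XX B)).card : ℝ) ≤
    (2 * 2 ^ TT n * (pb ^ TT n + j.factorial / ((PZ n).card : ℝ) ^ j)) *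
      ((PZ n).card : ℝ) ^ TT n * 4 ^ (n * TT n)

/-- A1M. -/
def A1mid : Prop := ∃ n0 : ℕ, ∀ n ≥ n0, ∀ B : Base n, ∀ q : ℕ, n ^ 2000 ≤ q →
  q < 2 ^ (200 * (n + 1)) →
  ((univ.filter (fun c : Conf n => (q : ℤ) ∣ nu B c)).card : ℝ) ≤
    (q : ℝ) ^ (-(1 / 1000) : ℝ) * ((PZ n).card : ℝ) ^ TT n * 4 ^ (n * TT n)

/-- A1L. -/
def A1large : Prop := ∃ n0 : ℕ, ∀ n ≥ n0, ∀ B : Base n, ∀ q : ℕ, 2 ^ (200 * (n + 1)) ≤ q →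
  q ≤ 2 * XX B →
  ((univ.filter (fun c : Conf n => (q : ℤ) ∣ nu B c)).card : ℝ) ≤
    (q : ℝ) ^ (-(1 / 1000) : ℝ) * ((PZ n).card : ℝ) ^ TT n * 4 ^ (n * TT n)

/-- A2M. -/
def A2mid : Prop := ∃ n0 : ℕ, ∀ n ≥ n0, ∀ B : Base n, ∀ H : ℝ, (n : ℝ) ^ 2000 ≤ H →
  H < 2 ^ (200 * (n + 1)) →
  ((univ.filter (fun c : Conf n => H * |(nu B c : ℝ)| ≤ XX B)).card : ℝ) ≤
    H ^ (-(1 / 1000) : ℝ) * ((PZ n).card : ℝ) ^ TT n * 4 ^ (n * TT n)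

/-- A2L. -/
def A2large : Prop := ∃ n0 : ℕ, ∀ n ≥ n0, ∀ B : Base n, ∀ H : ℝ, 2 ^ (200 * (n + 1)) ≤ H →
  H ≤ XX B →
  ((univ.filter (fun c : Conf n => H * |(nu B c : ℝ)| ≤ XX B)).card : ℝ) ≤
    H ^ (-(1 / 1000) : ℝ) * ((PZ n).card : ℝ) ^ TT n * 4 ^ (n * TT n)

/-! ## The minor arc bound -/

/-- GEOM: geometric sums. -/
def GeomSum : Prop := ∀ (α : ℝ) (a N : ℕ),
  2 * |α - round α| * ‖∑ D ∈ Finset.Ico a (a + N), ex (D * α)‖ ≤ 1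

/-- EVENT: the arithmetic step: either few `ν` near `0`, or a common divisor. -/
def EventDichotomy : Prop := ∀ (X H θ : ℝ) (S : Set ℤ), 2 ≤ H → H ≤ X →
  (∀ ν ∈ S, |(ν : ℝ)| ≤ X) → (∀ ν ∈ S, |θ * ν - round (θ * ν)| ≤ H ^ (1 / 8 : ℝ) / X ^ 3) →
  ¬ Maj (X ^ 4) H θ →
  (∃ q : ℕ, H ^ (1 / 2 : ℝ) ≤ q ∧ (q : ℝ) ≤ X ∧ ∀ ν ∈ S, (q : ℤ) ∣ ν) ∨
    (∀ ν ∈ S, H ^ (3 / 8 : ℝ) * |(ν : ℝ)| ≤ X)

/-- MINC: the minor arc bound in terms of the number of `ν` with `θ ν` near an integer. -/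
def MinorComb : Prop := ∀ n : ℕ, ∀ B : Base n, ∀ θ K : ℝ, 0 < K → 1 ≤ XX B →
  ∑ P : Fin (TT n) → PZ n, ∑ D ∈ Finset.Ico (XX B ^ 3) (2 * XX B ^ 3), ‖xhat B P (D * θ)‖ ^ 2 ≤
    (XX B : ℝ) ^ 3 * (((univ.filter (fun c : Conf n =>
      |θ * nu B c - round (θ * nu B c)| ≤ K / (XX B : ℝ) ^ 3)).card : ℝ) / 4 ^ (n * TT n) +
      ((PZ n).card : ℝ) ^ TT n / (2 * K))

/-- BB: the minor arc bound. -/
def MinorArc : Prop := ∃ n0 : ℕ, ∀ n ≥ n0, ∀ B : Base n, ∀ H θ : ℝ, (n : ℝ) ^ 6000 ≤ H →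
  H ≤ XX B → ¬ Maj ((XX B : ℝ) ^ 4) H θ →
  ∑ P : Fin (TT n) → PZ n, ∑ D ∈ Finset.Ico (XX B ^ 3) (2 * XX B ^ 3), ‖xhat B P (D * θ)‖ ^ 2 ≤
    H ^ (-(1 / 3000) : ℝ) * ((PZ n).card : ℝ) ^ TT n * (XX B : ℝ) ^ 3

/-! ## From the minor arc bound to the window lemma -/

/-- MAJC: number of `t < R` with `Maj G H (t/R)`. -/
def MajCount : Prop := ∀ (G H : ℝ) (R : ℕ), 1 ≤ H → H < G → G ≤ R →
  (((Finset.range R).filter (fun t : ℕ => Maj G H ((t : ℝ) / R))).card : ℝ) ≤ 6 * H ^ 2 * R / G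

/-- LEVEL: the dyadic summation over levels. -/
def LevelSum : Prop := ∃ H1 : ℝ, ∀ (H0 X : ℝ) (R : ℕ) (f g : ℝ → ℝ), H1 ≤ H0 → H0 ≤ X →
  X ^ 4 ≤ R → (∀ θ, 0 ≤ f θ ∧ f θ ≤ 1) → (∀ θ, 0 ≤ g θ ∧ g θ ≤ 1) →
  (∀ H θ, H0 ≤ H → H ≤ X → ¬ Maj (X ^ 4) H θ → f θ ≤ H ^ (-8 : ℝ)) →
  (∀ θ : ℝ, (∀ k : ℤ, 1 / (2 * H0) ≤ |θ - k|) → g θ ≤ H0 ^ (-3 : ℝ)) →
  ∑ t ∈ (Finset.range R).filter (fun t : ℕ => ¬ ∃ k : ℤ, |(t : ℝ) / R - k| ≤ H0 / X ^ 4),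
    g ((t : ℝ) / R) * f ((t : ℝ) / R) ≤ 10 * R / (H0 * X ^ 4)

/-- POSW: smoothness near the main arc and smallness elsewhere force a window of values. -/
def PosWindow : Prop := ∀ (Ω : Type) [Fintype Ω] [Nonempty Ω] (y : Ω → ℕ) (R0 R l : ℕ) (κ : ℝ),
  0 < κ → κ ≤ 1 / 4 → (∀ ω, y ω < R0) → R0 + l < R → 1 ≤ κ * R → 40 * κ ^ 2 * l * R0 ≤ 1 →
  8 * R0 * ∑ t ∈ (Finset.range R).filter (fun t : ℕ => ¬ ∃ k : ℤ, |(t : ℝ) / R - k| ≤ κ),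
      ‖(∑ ω, ex ((t : ℝ) / R * y ω)) / (Fintype.card Ω : ℂ)‖ ≤ R →
  ∃ m₀ < R0, ∀ m, m₀ ≤ m → m ≤ m₀ + l → ∃ ω, y ω = m

/-- AVG: choice of the parameters of the `r` copies by averaging. -/
def AvgSigma : Prop := ∀ (n : ℕ) (B : Base n) (r nz X3 : ℕ) (Θ : Finset ℝ), 1 ≤ (PZ n).card →
  1 ≤ X3 → Even r →
  ∃ (P : Fin r → (Fin (TT n) → PZ n)) (D : Fin r → ℕ), (∀ i, X3 ≤ D i ∧ D i < 2 * X3) ∧
    ∑ θ ∈ Θ, ‖(∑ ω : (Fin r → Fin (TT n) → Cube n) × Fin (2 ^ nz),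
        ex (θ * ((∑ i, D i * xval B (P i) (ω.1 i) + (ω.2 : ℕ) : ℕ) : ℝ))) /
          (Fintype.card ((Fin r → Fin (TT n) → Cube n) × Fin (2 ^ nz)) : ℂ)‖ ≤
      ∑ θ ∈ Θ, ‖(∑ z : Fin (2 ^ nz), ex (θ * ((z : ℕ) : ℝ))) / 2 ^ nz‖ *
        ((∑ P : Fin (TT n) → PZ n, ∑ D ∈ Finset.Ico X3 (2 * X3), ‖xhat B P (D * θ)‖ ^ 2) /
          (((PZ n).card : ℝ) ^ TT n * X3)) ^ (r / 2)

/-- number of binary digits for the smoothing variable -/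
def nz (n : ℕ) : ℕ := Nat.clog 2 (n ^ 24000)

/-- WINC: the core of the window lemma (`48000` copies). -/
def WinCore : Prop := ∃ n0 : ℕ, ∀ n ≥ n0, ∀ B : Base n,
  ∃ (P : Fin 48000 → (Fin (TT n) → PZ n)) (D : Fin 48000 → ℕ) (m₀ : ℕ),
    (∀ i, 1 ≤ D i ∧ D i < 2 * XX B ^ 3) ∧ m₀ < 192000 * XX B ^ 4 ∧
    ∀ m, m₀ ≤ m → m ≤ m₀ + XX B ^ 4 / (7680000 * n ^ 12000) →
      ∃ (e : Fin 48000 → Fin (TT n) → Cube n) (z : ℕ), z < 2 ^ nz n ∧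
        ∑ i, D i * xval B (P i) (e i) + z = m

/-- `m` is a sum of at most `t` (not necessarily distinct) divisors of `N`. -/
def SumDiv (t N m : ℕ) : Prop := ∃ s : Multiset ℕ, s.card ≤ t ∧ (∀ d ∈ s, d ∣ N) ∧ s.sum = m

/-- WL: the window lemma. -/
def WindowLemma : Prop := ∃ C n0 : ℕ, ∀ n ≥ n0, ∃ N1 J l : ℕ, 0 < N1 ∧ N1 ≤ n ^ (C * n) ∧
  n ^ n ≤ l ∧ J ≤ n ^ C * l ∧ ∀ m, J ≤ m → m ≤ J + l → SumDiv (C * Nat.log 2 n) N1 m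

/-! ## From the window lemma to unit fractions -/

/-- `q` is a sum of at most `t` (not necessarily distinct) unit fractions. -/
def UF (t : ℕ) (q : ℚ) : Prop := ∃ s : Multiset ℕ, s.card ≤ t ∧ (∀ x ∈ s, 0 < x) ∧
  (s.map (fun x : ℕ => (1 : ℚ) / x)).sum = q

/-- DIGITS: digit expansion. -/
def Digits : Prop := ∀ (N1 J l κ t V : ℕ), 0 < N1 → 2 ≤ l → 2 * (J + l) ≤ κ * l →
  (∀ m, J ≤ m → m ≤ J + l → SumDiv t N1 m) →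
  ∀ m, l ^ V * (J + κ) ≤ m → m ≤ l ^ V * (J + l) → SumDiv ((V + 1) * t) (N1 * l ^ V) m

/-- SYLV: greedy expansion down to a given interval. -/
def Sylvester : Prop := ∀ (a b K : ℕ) (ρ Δ : ℚ), 0 < b → a < b → 0 < ρ → 0 < Δ → Δ ≤ 1 →
  ρ ≤ (a : ℚ) / b → (1 : ℚ) ≤ Δ * 2 ^ (2 ^ K) →
  ∃ (s : Multiset ℕ) (a' b' : ℕ), s.card ≤ K + 2 ∧ (∀ x ∈ s, 0 < x) ∧ b ∣ b' ∧ 0 < b' ∧
    (a : ℚ) / b = (s.map (fun x : ℕ => (1 : ℚ) / x)).sum + (a' : ℚ) / b' ∧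
    ρ ≤ (a' : ℚ) / b' ∧ (a' : ℚ) / b' ≤ ρ + Δ ∧ (b' : ℚ) * Δ ^ 2 ≤ 2 * b

/-- DIST: making the unit fractions distinct. -/
def Distinct : Prop := ∀ (t : ℕ) (q : ℚ), q < 1 → UF t q →
  ∃ S : Finset ℕ, (∀ n ∈ S, 2 ≤ n) ∧ S.card ≤ t ∧ ∑ n ∈ S, (1 : ℚ) / (n : ℚ) = q

/-- FRAC: a sum of divisors of `N` gives unit fractions with any further denominator. -/
def FracOfDiv : Prop := ∀ (t N m b : ℕ), 0 < N → 0 < b → SumDiv t N m → UF t ((m : ℚ) / (b * N))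

/-- FINAL: from the window lemma (and DIGITS, SYLV, FRAC). -/
def FinalMulti : Prop := ∃ C b₀ : ℕ, ∀ a b : ℕ, b₀ ≤ b → 1 ≤ a → a < b →
  UF (C * Nat.log 2 (Nat.log 2 b)) ((a : ℚ) / b)

end Crest.Agent.R19
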