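import Crest.Agent.R19.Defs

set_option autoImplicit false

open Finset Classical

namespace Crest.Agent.R19

namespace FINAL

theorem SumDiv_mono_N {t N N' m : ℕ} (h : SumDiv t N m) (hN : N ∣ N') : SumDiv t N' m := by
  obtain ⟨s, h1, h2, h3⟩ := h
  exact ⟨s, h1, fun d hd => (h2 d hd).trans hN, h3⟩

theorem SumDiv_le {t N m : ℕ} (hN : 0 < N) (h : SumDiv t N m) : m ≤ t * N := by
  obtain ⟨s, h1, h2, h3⟩ := h
  rw [← h3]
  have h4 : s.sum ≤ s.card • N := Multiset.sum_le_card_nsmul s N (fun d hd => Nat.le_of_dvd hN (h2 d hd))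
  calc s.sum ≤ s.card * N := by simpa using h4
    _ ≤ t * N := Nat.mul_le_mul_right _ h1

theorem UF_add {t₁ t₂ : ℕ} {q₁ q₂ : ℚ} (h₁ : UF t₁ q₁) (h₂ : UF t₂ q₂) : UF (t₁ + t₂) (q₁ + q₂) := by
  obtain ⟨s₁, a1, a2, a3⟩ := h₁
  obtain ⟨s₂, b1, b2, b3⟩ := h₂
  refine ⟨s₁ + s₂, ?_, ?_, ?_⟩
  · rw [Multiset.card_add]; omega
  · intro x hx
    rcases Multiset.mem_add.mp hx with h | h
    · exact a2 x h
    · exact b2 x h
  · rw [Multiset.map_add, Multiset.sum_add, a3, b3]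

theorem UF_mono {t₁ t₂ : ℕ} {q : ℚ} (h : UF t₁ q) (ht : t₁ ≤ t₂) : UF t₂ q := by
  obtain ⟨s, a1, a2, a3⟩ := h
  exact ⟨s, a1.trans ht, a2, a3⟩

theorem growth (C : ℕ) : ∃ n2 : ℕ, ∀ n ≥ n2, 8 * n ^ C ≤ 2 ^ (n - 1) := by
  have h := tendsto_pow_const_div_const_pow_of_one_lt C (by norm_num : (1 : ℝ) < 2)
  have h2 := (h.eventually (gt_mem_nhds (by norm_num : (0 : ℝ) < 1 / 16))).and
    (Filter.eventually_ge_atTop 1)
  obtain ⟨n2, h3⟩ := Filter.eventually_atTop.mp h2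
  refine ⟨n2, fun n hn => ?_⟩
  obtain ⟨h4, h5⟩ := h3 n hn
  have h6 : (n : ℝ) ^ C < 1 / 16 * 2 ^ n := by
    rwa [div_lt_iff₀ (by positivity)] at h4
  have h7 : (8 : ℝ) * (n : ℝ) ^ C ≤ 2 ^ (n - 1) := by
    obtain ⟨k, rfl⟩ : ∃ k, n = k + 1 := ⟨n - 1, by omega⟩
    simp only [Nat.add_sub_cancel]
    rw [pow_succ (2 : ℝ) k] at h6
    linarith
  exact_mod_cast h7

end FINAL

open FINAL in
set_option maxHeartbeats 4000000 in
theorem finalMulti_proof : WindowLemma → Digits → Sylvester → FracOfDiv → FinalMulti := by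
  rintro ⟨C, n0, hW⟩ hDig hSyl hFrac
  obtain ⟨n2, hn2⟩ := growth C
  -- constants
  set C1 := 2 * C + 2 with hC1
  set V := 2 * C1 + 2 with hV
  set M := n0 + n2 + 2 * C + C1 + 100 with hM
  refine ⟨2 * (8 + 2 * (V + 1) * C), 2 ^ M, fun a b hb ha hab => ?_⟩
  have hb0 : 0 < b := lt_of_lt_of_le (by positivity) hb
  have hlogb : M ≤ Nat.log 2 b := Nat.le_log_of_pow_le (by norm_num) hb
  set n := Nat.log 2 b + 1 with hn
  have hnM : M ≤ n := by omega
  set L := Nat.log 2 n with hL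
  have hbn : b < 2 ^ n := Nat.lt_pow_succ_log_self (by norm_num) b
  have hbn' : 2 ^ (n - 1) ≤ b := by
    rw [hn, Nat.add_sub_cancel]
    exact Nat.pow_log_le_self 2 (by omega)
  have hn100 : 100 ≤ n := by omega
  have hL6 : 6 ≤ L := Nat.le_log_of_pow_le (by norm_num) (by norm_num; omega)
  have hLn : L + 1 ≤ n := by
    have : L < n := Nat.log_lt_self 2 (by omega)
    omega
  obtain ⟨N1, J, l, hN1, hN1', hl, hJ, hwin⟩ := hW n (by omega)
  set t := C * L with ht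
  have hl1 : n ^ n ≤ l := hl
  have hnn : 1 ≤ n ^ n := Nat.one_le_pow _ _ (by omega)
  have hlpos : 0 < l := by omega
  have hJl : J + l ≤ t * N1 := SumDiv_le hN1 (hwin (J + l) (by omega) (by omega))
  set N1' := N1 * (2 * b * (J + l)) with hN1'def
  have hN1'pos : 0 < N1' := by positivity
  -- size of N1'
  have h2n : 2 ^ n ≤ n ^ n := Nat.pow_le_pow_left (by omega) n
  have hN1'le : N1' ≤ n ^ (C1 * n) := by
    have e1 : 2 * t ≤ n ^ n := by
      calc 2 * t = 2 * C * L := by rw [ht]; ring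
        _ ≤ n * n := Nat.mul_le_mul (by omega) (by omega)
        _ = n ^ 2 := by ring
        _ ≤ n ^ n := Nat.pow_le_pow_right (by omega) (by omega)
    calc N1' = N1 * (2 * b * (J + l)) := rfl
      _ ≤ N1 * (2 * 2 ^ n * (t * N1)) := by gcongr
      _ = N1 * N1 * (2 * t) * 2 ^ n := by ring
      _ ≤ n ^ (C * n) * n ^ (C * n) * n ^ n * n ^ n := by gcongr
      _ = n ^ (C1 * n) := by rw [← pow_add, ← pow_add, ← pow_add, hC1]; congr 1; ring
  have hwin' : ∀ m, J ≤ m → m ≤ J + l → SumDiv t N1' m := fun m h1 h2 =>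
    SumDiv_mono_N (hwin m h1 h2) ⟨_, rfl⟩
  -- rational parameters
  set ρ : ℚ := (2 * J + l) / (2 * N1') with hρ
  set Δ : ℚ := l / (2 * N1') with hΔ
  have hN1'q : (0 : ℚ) < N1' := by exact_mod_cast hN1'pos
  have hlq : (1 : ℚ) ≤ l := by exact_mod_cast hlpos
  have hbq : (0 : ℚ) < b := by exact_mod_cast hb0
  have hJq : (0 : ℚ) ≤ J := by positivity
  have hN1q : (1 : ℚ) ≤ N1 := by exact_mod_cast hN1
  have hsum : ρ + Δ = (J + l) / N1' := by
    rw [hρ, hΔ]; field_simp; ring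
  have hsum2 : ρ + Δ ≤ 1 / (2 * b) := by
    rw [hsum, hN1'def]
    push_cast
    rw [div_le_div_iff₀ (by positivity) (by positivity)]
    have : (0 : ℚ) ≤ (J + l) * (2 * b) := by positivity
    nlinarith
  have hρpos : 0 < ρ := by rw [hρ]; positivity
  have hΔpos : 0 < Δ := by rw [hΔ]; positivity
  have hb1 : (1 : ℚ) ≤ b := by exact_mod_cast hb0
  have h12b : (1 : ℚ) / (2 * b) ≤ 1 := by
    rw [div_le_one (by positivity)]; linarith
  have hΔ1 : Δ ≤ 1 := by linarith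
  have hρab : ρ ≤ (a : ℚ) / b := by
    have h1 : (1 : ℚ) / (2 * b) ≤ a / b := by
      rw [div_le_div_iff₀ (by positivity) (by positivity)]
      have : (1 : ℚ) ≤ a := by exact_mod_cast ha
      nlinarith
    linarith
  set K := Nat.clog 2 (Nat.clog 2 (2 * N1')) with hK
  have hKpow : 2 * N1' ≤ 2 ^ (2 ^ K) := by
    calc 2 * N1' ≤ 2 ^ (Nat.clog 2 (2 * N1')) := Nat.le_pow_clog (by norm_num) _
      _ ≤ 2 ^ (2 ^ K) := Nat.pow_le_pow_right (by norm_num) (Nat.le_pow_clog (by norm_num) _)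
  have hKΔ : (1 : ℚ) ≤ Δ * 2 ^ (2 ^ K) := by
    have h1 : (2 * N1' : ℚ) ≤ 2 ^ (2 ^ K) := by exact_mod_cast hKpow
    calc (1 : ℚ) ≤ l := hlq
      _ = Δ * (2 * N1') := by rw [hΔ]; field_simp
      _ ≤ _ := by gcongr
  have hKle : K ≤ 6 * L := by
    have e0 : n ≤ 2 ^ (L + 1) := (Nat.lt_pow_succ_log_self (by norm_num) n).le
    have e1 : Nat.clog 2 (2 * N1') ≤ (L + 1) * ((C1 + 1) * n) := by
      apply Nat.clog_le_of_le_pow
      calc 2 * N1' ≤ n * n ^ (C1 * n) := Nat.mul_le_mul (by omega) hN1'le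
        _ = n ^ (C1 * n + 1) := by rw [pow_succ]; ring
        _ ≤ n ^ ((C1 + 1) * n) := Nat.pow_le_pow_right (by omega) (by nlinarith)
        _ ≤ (2 ^ (L + 1)) ^ ((C1 + 1) * n) := Nat.pow_le_pow_left e0 _
        _ = _ := by rw [← pow_mul]
    have e2 : (L + 1) * ((C1 + 1) * n) ≤ n ^ 3 := by
      calc (L + 1) * ((C1 + 1) * n) ≤ n * (n * n) :=
            Nat.mul_le_mul hLn (Nat.mul_le_mul_right _ (by omega))
        _ = n ^ 3 := by ring
    have e3 : K ≤ 3 * (L + 1) := by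
      apply Nat.clog_le_of_le_pow
      calc Nat.clog 2 (2 * N1') ≤ n ^ 3 := e1.trans e2
        _ ≤ (2 ^ (L + 1)) ^ 3 := Nat.pow_le_pow_left e0 _
        _ = _ := by rw [← pow_mul]; ring_nf
    omega
  obtain ⟨s, a', b', hs1, hs2, hbb', hb'0, hab', hlo', hhi', hb'Δ⟩ :=
    hSyl a b K ρ Δ hb0 hab hρpos hΔpos hΔ1 hρab hKΔ
  -- sizes of b'
  have hbb'le : b ≤ b' := Nat.le_of_dvd hb'0 hbb'
  have hb'8 : 8 * n ^ C ≤ b' := (hn2 n (by omega)).trans (hbn'.trans hbb'le)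
  have hb'q : (0 : ℚ) < b' := by exact_mod_cast hb'0
  have hb'le : b' ≤ l ^ V := by
    have e1 : (b' : ℚ) ≤ 8 * b * N1' ^ 2 := by
      have h1 : Δ ^ 2 = (l : ℚ) ^ 2 / (4 * N1' ^ 2) := by rw [hΔ, div_pow]; ring
      rw [h1] at hb'Δ
      have h2 : (b' : ℚ) * l ^ 2 ≤ 8 * b * N1' ^ 2 := by
        have h3 : (b' : ℚ) * (l ^ 2 / (4 * N1' ^ 2)) = (b' * l ^ 2) / (4 * N1' ^ 2) := by ring
        rw [h3, div_le_iff₀ (by positivity)] at hb'Δ
        linarith
      have h4 : (1 : ℚ) ≤ l ^ 2 := one_le_pow₀ hlq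
      nlinarith
    have e2 : b' ≤ 8 * b * N1' ^ 2 := by exact_mod_cast e1
    have e3 : 8 ≤ n ^ n := by
      calc 8 ≤ n := by omega
        _ = n ^ 1 := by ring
        _ ≤ n ^ n := Nat.pow_le_pow_right (by omega) (by omega)
    calc b' ≤ 8 * b * N1' ^ 2 := e2
      _ ≤ n ^ n * n ^ n * (n ^ (C1 * n)) ^ 2 := by
          gcongr
          exact hbn.le.trans h2n
      _ = (n ^ n) ^ V := by
          rw [← pow_mul, ← pow_mul, ← pow_add, ← pow_add, hV]; congr 1; ring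
      _ ≤ l ^ V := Nat.pow_le_pow_left hl1 V
  -- kappa
  set κ := 2 * (n ^ C + 1) with hκ
  have hκ8 : 8 * κ ≤ l := by
    have e1 : 1 ≤ n ^ C := Nat.one_le_pow _ _ (by omega)
    calc 8 * κ = 16 * n ^ C + 16 := by rw [hκ]; ring
      _ ≤ n * n ^ C := by nlinarith
      _ = n ^ (C + 1) := by rw [pow_succ]; ring
      _ ≤ n ^ n := Nat.pow_le_pow_right (by omega) (by omega)
      _ ≤ l := hl1
  have hκl : 2 * (J + l) ≤ κ * l := by
    calc 2 * (J + l) ≤ 2 * (n ^ C * l + l) := by gcongr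
      _ = κ * l := by rw [hκ]; ring
  set N := N1' * l ^ V with hNdef
  have hlV : 0 < l ^ V := by positivity
  have hNpos : 0 < N := by positivity
  set lo := l ^ V * (J + κ) with hlodef
  set hi := l ^ V * (J + l) with hhidef
  have hdig : ∀ m, lo ≤ m → m ≤ hi → SumDiv ((V + 1) * t) N m := by
    intro m h1 h2
    exact hDig N1' J l κ t V hN1'pos (by omega) hκl hwin' m h1 h2
  -- natural number forms of the bounds on a'/b'
  have hup : a' * N1' ≤ b' * (J + l) := by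
    rw [hsum, div_le_div_iff₀ hb'q hN1'q] at hhi'
    have : (a' : ℚ) * N1' ≤ b' * (J + l) := by linarith
    exact_mod_cast this
  have hdown : b' * (2 * J + l) ≤ 2 * (a' * N1') := by
    rw [hρ, div_le_div_iff₀ (by positivity) hb'q] at hlo'
    have : (b' : ℚ) * (2 * J + l) ≤ 2 * (a' * N1') := by linarith
    exact_mod_cast this
  have hmain : (b' + 1) * lo ≤ a' * N := by
    have e1 : 2 * ((b' + 1) * (J + κ)) ≤ b' * (2 * J + l) := by
      have e2 : 8 * (b' * κ) ≤ b' * l := by nlinarith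
      have e3 : 8 * J ≤ b' * l := by
        calc 8 * J ≤ 8 * (n ^ C * l) := by gcongr
          _ = (8 * n ^ C) * l := by ring
          _ ≤ b' * l := by gcongr
      have e4 : 8 * κ ≤ b' * l := by
        calc 8 * κ ≤ l := hκ8
          _ = 1 * l := by ring
          _ ≤ b' * l := Nat.mul_le_mul_right _ hb'0
      nlinarith
    have e2 : 2 * ((b' + 1) * (J + κ)) ≤ 2 * (a' * N1') := e1.trans hdown
    have e3 : (b' + 1) * (J + κ) ≤ a' * N1' := by omega
    calc (b' + 1) * lo = ((b' + 1) * (J + κ)) * l ^ V := by rw [hlodef]; ring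
      _ ≤ (a' * N1') * l ^ V := Nat.mul_le_mul_right _ e3
      _ = a' * N := by rw [hNdef]; ring
  have hloaN : lo ≤ a' * N := by nlinarith
  set E := (a' * N - lo) / b' with hE
  set r := (a' * N - lo) % b' with hr
  have hrlt : r < b' := Nat.mod_lt _ hb'0
  have hdiv : b' * E + r = a' * N - lo := Nat.div_add_mod _ _
  have heq : a' * N = b' * E + (lo + r) := by omega
  have hEhi : E ≤ hi := by
    have e1 : b' * E ≤ b' * hi := by
      calc b' * E ≤ a' * N := by omega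
        _ = (a' * N1') * l ^ V := by rw [hNdef]; ring
        _ ≤ (b' * (J + l)) * l ^ V := Nat.mul_le_mul_right _ hup
        _ = b' * hi := by rw [hhidef]; ring
    exact Nat.le_of_mul_le_mul_left e1 hb'0
  have hElo : lo ≤ E := by
    rw [hE, Nat.le_div_iff_mul_le hb'0]
    have : lo * b' + lo ≤ a' * N := by nlinarith
    omega
  have hE'hi : lo + r ≤ hi := by
    have e1 : l ^ V * 1 ≤ l ^ V * (l - κ) := Nat.mul_le_mul_left _ (by omega)
    have e2 : hi = lo + l ^ V * (l - κ) := by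
      rw [hhidef, hlodef, ← mul_add]; congr 1; omega
    omega
  have hU1 : UF ((V + 1) * t) ((E : ℚ) / ((1 : ℕ) * N)) :=
    hFrac _ N E 1 hNpos (by norm_num) (hdig E hElo hEhi)
  have hU2 : UF ((V + 1) * t) (((lo + r : ℕ) : ℚ) / (b' * N)) :=
    hFrac _ N (lo + r) b' hNpos hb'0 (hdig _ (by omega) hE'hi)
  have hU3 : UF (K + 2) (s.map (fun x : ℕ => (1 : ℚ) / x)).sum := ⟨s, hs1, hs2, rfl⟩
  have hU := UF_add hU3 (UF_add hU1 hU2)
  have hNq : (0 : ℚ) < N := by exact_mod_cast hNpos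
  have hval : (s.map (fun x : ℕ => (1 : ℚ) / x)).sum + ((E : ℚ) / ((1 : ℕ) * N) +
      ((lo + r : ℕ) : ℚ) / (b' * N)) = (a : ℚ) / b := by
    rw [hab']
    congr 1
    have h1 : (a' : ℚ) * N = b' * E + ((lo + r : ℕ) : ℚ) := by exact_mod_cast heq
    rw [eq_div_iff hb'q.ne']
    field_simp
    push_cast at h1 ⊢
    linarith
  rw [hval] at hU
  refine UF_mono hU ?_
  have hk : Nat.log 2 b + 1 = n := rfl
  have hL2 : L ≤ 2 * Nat.log 2 (Nat.log 2 b) := by
    have e1 : n ≤ Nat.log 2 b * 2 := by omega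
    have e2 : L ≤ Nat.log 2 (Nat.log 2 b * 2) := Nat.log_mono_right e1
    rw [Nat.log_mul_base (by norm_num) (by omega)] at e2
    omega
  calc K + 2 + ((V + 1) * t + (V + 1) * t) ≤ 6 * L + 2 * L + 2 * (V + 1) * t := by
        have : (V + 1) * t + (V + 1) * t = 2 * (V + 1) * t := by ring
        omega
    _ = (8 + 2 * (V + 1) * C) * L := by rw [ht]; ring
    _ ≤ (8 + 2 * (V + 1) * C) * (2 * Nat.log 2 (Nat.log 2 b)) := by gcongr
    _ = _ := by ring

end Crest.Agent.R19
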