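import Crest.Agent.R19.Basics

/-! Row 19: fibre counting lemmas, used by A1MC and A2MC. -/

set_option autoImplicit false

open Finset Classical

namespace Crest.Agent.R19

namespace FibCount

/-- resampling one coordinate. -/
theorem card_resample {ι α : Type*} [Fintype ι] [DecidableEq ι] [Fintype α] (u : ι)
    (E : (ι → α) → Prop) :
    Fintype.card α * (univ.filter (fun P : ι → α => E P)).card =
      ∑ P : ι → α, (univ.filter (fun a : α => E (Function.update P u a))).card := by
  have h1 : ∑ P : ι → α, (univ.filter (fun a : α => E (Function.update P u a))).card =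
      ∑ x : (ι → α) × α, if E (Function.update x.1 u x.2) then 1 else 0 := by
    rw [Fintype.sum_prod_type]
    refine Finset.sum_congr rfl (fun P _ => ?_)
    rw [Finset.card_filter]
  have h2 : Fintype.card α * (univ.filter (fun P : ι → α => E P)).card =
      ∑ x : (ι → α) × α, if E x.1 then 1 else 0 := by
    rw [Fintype.sum_prod_type, Finset.card_filter, Finset.mul_sum]
    refine Finset.sum_congr rfl (fun P _ => ?_)
    show _ = ∑ _y : α, (if E P then 1 else 0)
    rw [Finset.sum_const, Finset.card_univ, smul_eq_mul]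
  rw [h1, h2]
  let e : ((ι → α) × α) ≃ ((ι → α) × α) :=
    { toFun := fun x => (Function.update x.1 u x.2, x.1 u)
      invFun := fun x => (Function.update x.1 u x.2, x.1 u)
      left_inv := by intro x; simp
      right_inv := by intro x; simp }
  rw [← Equiv.sum_comp e (fun x : (ι → α) × α => if E x.1 then 1 else 0)]
  rfl

theorem card_le_of_resample {ι α : Type*} [Fintype ι] [DecidableEq ι] [Fintype α] [Nonempty α]
    (u : ι) (E : (ι → α) → Prop) (M : ℝ)
    (h : ∀ P : ι → α, ((univ.filter (fun a : α => E (Function.update P u a))).card : ℝ) ≤ M) :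
    ((univ.filter (fun P : ι → α => E P)).card : ℝ) ≤
      (Fintype.card α : ℝ) ^ (Fintype.card ι) * (M / Fintype.card α) := by
  have hα : (0 : ℝ) < Fintype.card α := by exact_mod_cast Fintype.card_pos
  have h1 : (Fintype.card α : ℝ) * ((univ.filter (fun P : ι → α => E P)).card : ℝ) ≤
      (Fintype.card α : ℝ) ^ (Fintype.card ι) * M := by
    have h2 := card_resample u E
    have h3 : ((Fintype.card α : ℝ) * ((univ.filter (fun P : ι → α => E P)).card : ℝ)) =
        ∑ P : ι → α, ((univ.filter (fun a : α => E (Function.update P u a))).card : ℝ) := by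
      exact_mod_cast h2
    rw [h3]
    calc ∑ P : ι → α, ((univ.filter (fun a : α => E (Function.update P u a))).card : ℝ)
        ≤ ∑ _P : ι → α, M := Finset.sum_le_sum (fun P _ => h P)
      _ = (Fintype.card α : ℝ) ^ (Fintype.card ι) * M := by
          rw [Finset.sum_const, nsmul_eq_mul, Finset.card_univ, Fintype.card_fun]
          push_cast
          rfl
  rw [mul_comm] at h1
  rw [← mul_div_assoc]
  rwa [le_div_iff₀ hα]

/-- The main fibre counting lemma. -/
theorem card_fiber {ι α D : Type*} [Fintype ι] [DecidableEq ι] [Fintype α] [Nonempty α]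
    [Fintype D] (bad : Finset D) (E : (ι → α) × (ι → D) → Prop) (M : ℝ) (hM : 0 ≤ M)
    (h : ∀ d : ι → D, ∀ u, d u ∉ bad → ∀ P : ι → α,
      ((univ.filter (fun a : α => E (Function.update P u a, d))).card : ℝ) ≤ M) :
    ((univ.filter (fun c : (ι → α) × (ι → D) => E c)).card : ℝ) ≤
      (Fintype.card α : ℝ) ^ (Fintype.card ι) * (bad.card : ℝ) ^ (Fintype.card ι) +
      (Fintype.card α : ℝ) ^ (Fintype.card ι) * (Fintype.card D : ℝ) ^ (Fintype.card ι) *
        (M / Fintype.card α) := by
  have hα : (0 : ℝ) < Fintype.card α := by exact_mod_cast Fintype.card_pos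
  have h1 : ((univ.filter (fun c : (ι → α) × (ι → D) => E c)).card : ℝ) =
      ∑ d : ι → D, ((univ.filter (fun P : ι → α => E (P, d))).card : ℝ) := by
    have h2 : (univ.filter (fun c : (ι → α) × (ι → D) => E c)).card =
      ∑ d : ι → D, (univ.filter (fun P : ι → α => E (P, d))).card := by
      rw [Finset.card_filter, Fintype.sum_prod_type_right]
      refine Finset.sum_congr rfl (fun d _ => ?_)
      rw [Finset.card_filter]
    exact_mod_cast h2
  rw [h1]
  have h3 : ∀ d : ι → D, ((univ.filter (fun P : ι → α => E (P, d))).card : ℝ) ≤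
      (if ∀ u, d u ∈ bad then (Fintype.card α : ℝ) ^ (Fintype.card ι) else 0) +
        (Fintype.card α : ℝ) ^ (Fintype.card ι) * (M / Fintype.card α) := by
    intro d
    by_cases hd : ∀ u, d u ∈ bad
    · rw [if_pos hd]
      have h4 : (univ.filter (fun P : ι → α => E (P, d))).card ≤
          Fintype.card α ^ Fintype.card ι := by
        calc (univ.filter (fun P : ι → α => E (P, d))).card ≤ (univ : Finset (ι → α)).card :=
              Finset.card_filter_le _ _
          _ = _ := by rw [Finset.card_univ, Fintype.card_fun]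
      have h5 : ((univ.filter (fun P : ι → α => E (P, d))).card : ℝ) ≤
          (Fintype.card α : ℝ) ^ Fintype.card ι := by exact_mod_cast h4
      have h6 : 0 ≤ (Fintype.card α : ℝ) ^ (Fintype.card ι) * (M / Fintype.card α) := by positivity
      linarith
    · rw [if_neg hd, zero_add]
      push Not at hd
      obtain ⟨u, hu⟩ := hd
      exact card_le_of_resample u (fun P => E (P, d)) M (h d u hu)
  calc ∑ d : ι → D, ((univ.filter (fun P : ι → α => E (P, d))).card : ℝ)
      ≤ ∑ d : ι → D, ((if ∀ u, d u ∈ bad then (Fintype.card α : ℝ) ^ (Fintype.card ι) else 0) +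
        (Fintype.card α : ℝ) ^ (Fintype.card ι) * (M / Fintype.card α)) :=
        Finset.sum_le_sum (fun d _ => h3 d)
    _ = _ := by
        rw [Finset.sum_add_distrib, Finset.sum_const, nsmul_eq_mul, Finset.card_univ,
          Fintype.card_fun, ← Finset.sum_filter, Finset.sum_const, nsmul_eq_mul]
        have h4 : (univ.filter (fun d : ι → D => ∀ u, d u ∈ bad)).card =
            bad.card ^ Fintype.card ι := by
          have h5 : (univ.filter (fun d : ι → D => ∀ u, d u ∈ bad)) =
              Fintype.piFinset (fun _ : ι => bad) := by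
            ext d
            simp [Fintype.mem_piFinset]
          rw [h5, Fintype.card_piFinset]
          simp
        rw [h4]
        push_cast
        ring

theorem card_le_of_diff (A : Finset ℕ) (K : ℝ) (hK : 0 ≤ K)
    (h : ∀ a ∈ A, ∀ b ∈ A, ((a : ℝ) - b) ≤ K) : (A.card : ℝ) ≤ K + 1 := by
  rcases A.eq_empty_or_nonempty with hA | hA
  · subst hA
    simp
    linarith
  · have h1 : A ⊆ Finset.Icc (A.min' hA) (A.max' hA) := fun a ha =>
      Finset.mem_Icc.mpr ⟨A.min'_le a ha, A.le_max' a ha⟩
    have h2 := Finset.card_le_card h1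
    rw [Nat.card_Icc] at h2
    have h3 := h _ (A.max'_mem hA) _ (A.min'_mem hA)
    have h4 : A.min' hA ≤ A.max' hA := A.min'_le _ (A.max'_mem hA)
    have h5 : ((A.card : ℕ) : ℝ) ≤ ((A.max' hA + 1 - A.min' hA : ℕ) : ℝ) := by exact_mod_cast h2
    rw [Nat.cast_sub (by omega)] at h5
    push_cast at h5
    linarith

theorem card_le_of_modEq (A : Finset ℕ) (N m : ℕ) (hm : 0 < m)
    (h : ∀ a ∈ A, ∀ b ∈ A, a ≤ b → b - a ≤ N) (h2 : ∀ a ∈ A, ∀ b ∈ A, (m : ℤ) ∣ (b : ℤ) - a) :
    (A.card : ℝ) ≤ (N : ℝ) / m + 1 := by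
  rcases A.eq_empty_or_nonempty with hA | hA
  · subst hA
    simp
    positivity
  · have h1 : A ⊆ (Finset.range (N / m + 1)).image (fun k => A.min' hA + m * k) := by
      intro a ha
      have h3 : A.min' hA ≤ a := A.min'_le a ha
      have h4 := h _ (A.min'_mem hA) a ha h3
      obtain ⟨k, hk⟩ := h2 _ (A.min'_mem hA) a ha
      rw [Finset.mem_image]
      have hk0 : 0 ≤ k := by
        by_contra hneg
        push Not at hneg
        have : (m : ℤ) * k < 0 := mul_neg_of_pos_of_neg (by exact_mod_cast hm) hneg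
        have h5 : (A.min' hA : ℤ) ≤ a := by exact_mod_cast h3
        omega
      obtain ⟨k', rfl⟩ := Int.eq_ofNat_of_zero_le hk0
      have hk' : a = A.min' hA + m * k' := by
        have : (a : ℤ) = A.min' hA + m * k' := by linarith
        exact_mod_cast this
      refine ⟨k', ?_, hk'.symm⟩
      rw [Finset.mem_range, Nat.lt_succ_iff, Nat.le_div_iff_mul_le hm]
      rw [mul_comm]
      omega
    have h3 := (Finset.card_le_card h1).trans Finset.card_image_le
    rw [Finset.card_range] at h3
    have h4 : ((N / m : ℕ) : ℝ) ≤ (N : ℝ) / m := Nat.cast_div_le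
    have h5 : (A.card : ℝ) ≤ ((N / m + 1 : ℕ) : ℝ) := by exact_mod_cast h3
    push_cast at h5
    linarith

/-- expansion of `ν` in one prime. -/
theorem nu_update {n : ℕ} (B : Base n) (P : Fin (TT n) → PZ n) (d : Fin (TT n) → Cube n × Cube n)
    (u : Fin (TT n)) : ∃ R : ℤ, ∀ a : PZ n, nu B (Function.update P u a, d) =
      ((a : ℕ) : ℤ) * R + (∏ v ∈ univ.erase u, ((P v : ℕ) : ℤ)) * B.dw (d u) := by
  refine ⟨∑ u' ∈ univ.erase u, (∏ v ∈ (univ.erase u').erase u, ((P v : ℕ) : ℤ)) * B.dw (d u'),
    fun a => ?_⟩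
  unfold nu
  simp only
  rw [← Finset.add_sum_erase univ _ (Finset.mem_univ u), add_comm]
  congr 1
  · rw [Finset.mul_sum]
    refine Finset.sum_congr rfl (fun u' hu' => ?_)
    have hne : u' ≠ u := Finset.ne_of_mem_erase hu'
    have h1 : ∏ v ∈ univ.erase u', ((Function.update P u a v : ℕ) : ℤ) =
        ((a : ℕ) : ℤ) * ∏ v ∈ (univ.erase u').erase u, ((P v : ℕ) : ℤ) := by
      rw [← Finset.mul_prod_erase (univ.erase u') _
        (Finset.mem_erase.mpr ⟨hne.symm, Finset.mem_univ u⟩)]
      rw [Function.update_self]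
      congr 1
      refine Finset.prod_congr rfl (fun v hv => ?_)
      rw [Function.update_of_ne (Finset.ne_of_mem_erase hv)]
    rw [h1]
    ring
  · congr 1
    refine Finset.prod_congr rfl (fun v hv => ?_)
    rw [Function.update_of_ne (Finset.ne_of_mem_erase hv)]

theorem card_pair (n : ℕ) : Fintype.card (Cube n × Cube n) = 4 ^ n := by
  rw [Fintype.card_prod]
  simp only [Cube, Fintype.card_fun, Fintype.card_bool, Fintype.card_fin]
  rw [← mul_pow]
  norm_num

end FibCount

end Crest.Agent.R19
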