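import Crest.Agent.R19.Basics

/-! Row 19, task WINC: the core of the window lemma. -/

set_option autoImplicit false

open Finset Classical

namespace Crest.Agent.R19

namespace WINC

theorem norm_ex (x : ℝ) : ‖ex x‖ = 1 := by
  unfold ex
  rw [show (2 * (Real.pi : ℂ) * x * Complex.I) = ((2 * Real.pi * x : ℝ) : ℂ) * Complex.I by
    push_cast; ring]
  exact Complex.norm_exp_ofReal_mul_I _

theorem norm_sum_ex_le {Ω : Type} [Fintype Ω] (y : Ω → ℝ) :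
    ‖∑ ω, ex (y ω)‖ ≤ (Fintype.card Ω : ℝ) := by
  calc ‖∑ ω, ex (y ω)‖ ≤ ∑ ω, ‖ex (y ω)‖ := norm_sum_le _ _
    _ = (Fintype.card Ω : ℝ) := by simp [norm_ex]

theorem card_cubes (n : ℕ) : Fintype.card (Fin (TT n) → Cube n) = 2 ^ (n * TT n) := by
  simp only [Fintype.card_fun, Fintype.card_fin, Fintype.card_bool]
  rw [← pow_mul]

theorem norm_xhat_le {n : ℕ} (B : Base n) (P : Fin (TT n) → PZ n) (θ : ℝ) :
    ‖xhat B P θ‖ ≤ 1 := by
  unfold xhat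
  rw [norm_div, norm_pow]
  have h : ‖(2 : ℂ)‖ = 2 := by simp
  rw [h]
  have h1 := norm_sum_ex_le (fun e : Fin (TT n) → Cube n => θ * xval B P e)
  rw [card_cubes] at h1
  push_cast at h1
  rw [div_le_one (by positivity)]
  exact h1

theorem card_tuples (n : ℕ) : Fintype.card (Fin (TT n) → PZ n) = (PZ n).card ^ TT n := by
  simp only [Fintype.card_fun, Fintype.card_fin, Fintype.card_coe]

/-- the mean square. -/
noncomputable def Sq {n : ℕ} (B : Base n) (X3 : ℕ) (θ : ℝ) : ℝ :=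
  (∑ P : Fin (TT n) → PZ n, ∑ D ∈ Finset.Ico X3 (2 * X3), ‖xhat B P (D * θ)‖ ^ 2) /
    (((PZ n).card : ℝ) ^ TT n * X3)

theorem Sq_nonneg {n : ℕ} (B : Base n) (X3 : ℕ) (θ : ℝ) : 0 ≤ Sq B X3 θ := by
  unfold Sq
  positivity

theorem Sq_le_one {n : ℕ} (B : Base n) (X3 : ℕ) (θ : ℝ) : Sq B X3 θ ≤ 1 := by
  unfold Sq
  apply div_le_one_of_le₀ _ (by positivity)
  calc ∑ P : Fin (TT n) → PZ n, ∑ D ∈ Finset.Ico X3 (2 * X3), ‖xhat B P (D * θ)‖ ^ 2
      ≤ ∑ _P : Fin (TT n) → PZ n, ∑ _D ∈ Finset.Ico X3 (2 * X3), (1 : ℝ) := by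
        refine Finset.sum_le_sum (fun P _ => Finset.sum_le_sum (fun D _ => ?_))
        exact pow_le_one₀ (norm_nonneg _) (norm_xhat_le B P _)
    _ = ((PZ n).card : ℝ) ^ TT n * X3 := by
        simp only [Finset.sum_const, Finset.card_univ, card_tuples, Nat.card_Ico, nsmul_eq_mul,
          mul_one]
        have : 2 * X3 - X3 = X3 := by omega
        rw [this]
        push_cast
        ring

theorem g_le {N : ℕ} (hg : GeomSum) (hN : 0 < N) (θ H : ℝ) (hH : 0 < H)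
    (h : ∀ k : ℤ, 1 / (2 * H) ≤ |θ - k|) :
    ‖(∑ z : Fin N, ex (θ * ((z : ℕ) : ℝ))) / (N : ℂ)‖ ≤ H / N := by
  have h1 := hg θ 0 N
  have h2 := h (round θ)
  have h3 : (∑ z : Fin N, ex (θ * ((z : ℕ) : ℝ))) = ∑ D ∈ Finset.Ico 0 (0 + N), ex (D * θ) := by
    rw [zero_add, ← Finset.range_eq_Ico, Finset.sum_range]
    exact Finset.sum_congr rfl (fun z _ => by rw [mul_comm])
  rw [norm_div, h3, Complex.norm_natCast]
  have hN' : (0 : ℝ) < N := by exact_mod_cast hN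
  apply div_le_div_of_nonneg_right _ hN'.le
  have h4 : 2 * (1 / (2 * H)) * ‖∑ D ∈ Finset.Ico 0 (0 + N), ex (D * θ)‖ ≤ 1 := by
    refine le_trans ?_ h1
    gcongr
  have h5 : 2 * (1 / (2 * H)) = 1 / H := by field_simp
  rw [h5, one_div, inv_mul_le_iff₀ hH, mul_one] at h4
  exact h4

theorem g_le_one {N : ℕ} (θ : ℝ) :
    ‖(∑ z : Fin N, ex (θ * ((z : ℕ) : ℝ))) / (N : ℂ)‖ ≤ 1 := by
  rw [norm_div, Complex.norm_natCast]
  apply div_le_one_of_le₀ _ (by positivity)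
  have := norm_sum_ex_le (fun z : Fin N => θ * ((z : ℕ) : ℝ))
  simpa using this

/-- main step, with abstract parameters. -/
theorem core {n : ℕ} (B : Base n) (r nzz : ℕ) (H0 : ℝ) (X l : ℕ) (hX : X = XX B) (hX2 : 2 ≤ X)
    (hr : Even r) (hr1 : 1 ≤ r) (hPZ : 1 ≤ (PZ n).card)
    (hH0 : 0 < H0) (hH0X : H0 ≤ X)
    (hlev : ∀ (R : ℕ) (f g : ℝ → ℝ), (X : ℝ) ^ 4 ≤ R → (∀ θ, 0 ≤ f θ ∧ f θ ≤ 1) →
      (∀ θ, 0 ≤ g θ ∧ g θ ≤ 1) →
      (∀ H θ, H0 ≤ H → H ≤ X → ¬ Maj ((X : ℝ) ^ 4) H θ → f θ ≤ H ^ (-8 : ℝ)) →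
      (∀ θ : ℝ, (∀ k : ℤ, 1 / (2 * H0) ≤ |θ - k|) → g θ ≤ H0 ^ (-3 : ℝ)) →
      ∑ t ∈ (Finset.range R).filter (fun t : ℕ => ¬ ∃ k : ℤ, |(t : ℝ) / R - k| ≤ H0 / (X : ℝ) ^ 4),
        g ((t : ℝ) / R) * f ((t : ℝ) / R) ≤ 10 * R / (H0 * (X : ℝ) ^ 4))
    (hmin : ∀ H θ : ℝ, H0 ≤ H → H ≤ X → ¬ Maj ((X : ℝ) ^ 4) H θ →
      (Sq B (X ^ 3) θ) ^ (r / 2) ≤ H ^ (-8 : ℝ))
    (hgeo : ∀ θ : ℝ, (∀ k : ℤ, 1 / (2 * H0) ≤ |θ - k|) →
      ‖(∑ z : Fin (2 ^ nzz), ex (θ * ((z : ℕ) : ℝ))) / 2 ^ nzz‖ ≤ H0 ^ (-3 : ℝ))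
    (hz : 2 ^ nzz ≤ X ^ 4 * r) (hH0r : 320 * r ≤ H0)
    (hl : 40 * 4 * r * H0 ^ 2 * l ≤ (X : ℝ) ^ 4) (hl2 : l < X ^ 4)
    (hPos : PosWindow) (hAvg : AvgSigma) :
    ∃ (P : Fin r → (Fin (TT n) → PZ n)) (D : Fin r → ℕ) (m₀ : ℕ),
    (∀ i, 1 ≤ D i ∧ D i < 2 * X ^ 3) ∧ m₀ < 4 * r * X ^ 4 ∧
    ∀ m, m₀ ≤ m → m ≤ m₀ + l →
      ∃ (e : Fin r → Fin (TT n) → Cube n) (z : ℕ), z < 2 ^ nzz ∧
        ∑ i, D i * xval B (P i) (e i) + z = m := by
  set R0 : ℕ := 4 * r * X ^ 4 with hR0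
  set R : ℕ := 2 * R0 with hR
  have hX0 : (0 : ℝ) < X := by exact_mod_cast (by omega : 0 < X)
  have hX1 : 1 ≤ X ^ 4 := Nat.one_le_pow _ _ (by omega)
  have hR0pos : 0 < R0 := by rw [hR0]; positivity
  have hRpos : 0 < R := by omega
  have hRr : (0 : ℝ) < R := by exact_mod_cast hRpos
  have hrr : (1 : ℝ) ≤ r := by exact_mod_cast hr1
  set κ : ℝ := H0 / (X : ℝ) ^ 4 with hκ
  have hX4 : (0 : ℝ) < (X : ℝ) ^ 4 := by positivity
  have hκ0 : 0 < κ := div_pos hH0 hX4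
  set F : Finset ℕ := (Finset.range R).filter (fun t : ℕ => ¬ ∃ k : ℤ, |(t : ℝ) / R - k| ≤ κ)
    with hF
  obtain ⟨P, D, hD, hsum⟩ := hAvg n B r nzz (X ^ 3) (F.image (fun t : ℕ => (t : ℝ) / R)) hPZ
    (Nat.one_le_pow _ _ (by omega)) hr
  have hinj : Set.InjOn (fun t : ℕ => (t : ℝ) / R) F := by
    intro a _ b _ hab
    have hab' : (a : ℝ) / R = (b : ℝ) / R := hab
    rw [div_left_inj' hRr.ne'] at hab'
    exact_mod_cast hab'
  rw [Finset.sum_image hinj, Finset.sum_image hinj] at hsum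
  have hlev1 := hlev R (fun θ => (Sq B (X ^ 3) θ) ^ (r / 2))
    (fun θ => ‖(∑ z : Fin (2 ^ nzz), ex (θ * ((z : ℕ) : ℝ))) / 2 ^ nzz‖)
    (by
      have h1 : X ^ 4 ≤ R := by
        rw [hR, hR0]
        calc X ^ 4 = 1 * X ^ 4 := by ring
          _ ≤ (8 * r) * X ^ 4 := Nat.mul_le_mul_right _ (by omega)
          _ = _ := by ring
      exact_mod_cast h1)
    (fun θ => ⟨pow_nonneg (Sq_nonneg _ _ _) _, pow_le_one₀ (Sq_nonneg _ _ _) (Sq_le_one _ _ _)⟩)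
    (fun θ => ⟨norm_nonneg _, by
      have := g_le_one (N := 2 ^ nzz) θ
      push_cast at this
      exact this⟩)
    hmin hgeo
  have hbound : ∑ t ∈ F, ‖(∑ ω : (Fin r → Fin (TT n) → Cube n) × Fin (2 ^ nzz),
        ex ((t : ℝ) / R * ((∑ i, D i * xval B (P i) (ω.1 i) + (ω.2 : ℕ) : ℕ) : ℝ))) /
          (Fintype.card ((Fin r → Fin (TT n) → Cube n) × Fin (2 ^ nzz)) : ℂ)‖ ≤
      10 * R / (H0 * (X : ℝ) ^ 4) := by
    refine le_trans hsum ?_
    refine le_trans (le_of_eq ?_) hlev1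
    rfl
  have hpos2 : 0 < 2 ^ nzz := by positivity
  have : Nonempty (Fin (2 ^ nzz)) := ⟨⟨0, hpos2⟩⟩
  obtain ⟨m₀, hm₀, hm⟩ := hPos ((Fin r → Fin (TT n) → Cube n) × Fin (2 ^ nzz))
    (fun ω => ∑ i, D i * xval B (P i) (ω.1 i) + (ω.2 : ℕ)) R0 R l κ hκ0
    (by
      rw [hκ, div_le_iff₀ hX4]
      have h2 : (2 : ℝ) ≤ X := by exact_mod_cast hX2
      have h3 : (8 : ℝ) ≤ (X : ℝ) ^ 3 := by nlinarith [mul_nonneg hX0.le hX0.le, sq_nonneg ((X : ℝ) - 2)]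
      nlinarith [mul_le_mul_of_nonneg_left h3 hX0.le])
    (by
      intro ω
      have h1 : ∀ i, D i * xval B (P i) (ω.1 i) ≤ 3 * X ^ 4 := by
        intro i
        have h2 := xval_le B (P i) (ω.1 i)
        rw [← hX] at h2
        have h3 : D i ≤ 2 * X ^ 3 := (hD i).2.le
        calc D i * xval B (P i) (ω.1 i) ≤ (2 * X ^ 3) * xval B (P i) (ω.1 i) :=
              Nat.mul_le_mul_right _ h3
          _ = X ^ 3 * (2 * xval B (P i) (ω.1 i)) := by ring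
          _ ≤ X ^ 3 * (3 * X) := Nat.mul_le_mul_left _ h2
          _ = _ := by ring
      have h4 : ∑ i, D i * xval B (P i) (ω.1 i) ≤ r * (3 * X ^ 4) := by
        calc ∑ i, D i * xval B (P i) (ω.1 i) ≤ ∑ _i : Fin r, 3 * X ^ 4 :=
              Finset.sum_le_sum (fun i _ => h1 i)
          _ = _ := by simp
      have h5 : (ω.2 : ℕ) < 2 ^ nzz := ω.2.2
      calc ∑ i, D i * xval B (P i) (ω.1 i) + (ω.2 : ℕ) < r * (3 * X ^ 4) + X ^ 4 * r := by omega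
        _ = R0 := by rw [hR0]; ring)
    (by
      have h1 : X ^ 4 ≤ R0 := by
        rw [hR0]
        calc X ^ 4 = 1 * X ^ 4 := by ring
          _ ≤ (4 * r) * X ^ 4 := Nat.mul_le_mul_right _ (by omega)
      omega)
    (by
      have h1 : κ * R = 8 * r * H0 := by
        rw [hκ, hR, hR0]; push_cast; field_simp; ring
      rw [h1]
      have h2 : (1 : ℝ) ≤ H0 := by linarith
      nlinarith)
    (by
      have h1 : 40 * κ ^ 2 * l * R0 = (40 * 4 * r * H0 ^ 2 * l) / (X : ℝ) ^ 4 := by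
        rw [hκ, hR0]; push_cast; field_simp
      rw [h1, div_le_one hX4]
      exact hl)
    (by
      have h1 : 8 * (R0 : ℝ) * (10 * R / (H0 * (X : ℝ) ^ 4)) = (320 * r / H0) * R := by
        rw [hR, hR0]; push_cast; field_simp; ring
      refine le_trans (mul_le_mul_of_nonneg_left hbound (by positivity)) ?_
      rw [h1]
      have h2 : 320 * (r : ℝ) / H0 ≤ 1 := by
        rw [div_le_one hH0]; exact hH0r
      calc 320 * (r : ℝ) / H0 * R ≤ 1 * R := mul_le_mul_of_nonneg_right h2 hRr.le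
        _ = R := one_mul _)
  refine ⟨P, D, m₀, ?_, hm₀, ?_⟩
  · intro i
    exact ⟨le_trans (Nat.one_le_pow _ _ (by omega)) (hD i).1, (hD i).2⟩
  · intro m h1 h2
    obtain ⟨ω, hω⟩ := hm m h1 h2
    exact ⟨ω.1, ω.2, ω.2.2, hω⟩

theorem rpow_aux (H a : ℝ) (hH : 0 < H) (ha : a ≤ H ^ (-(1 / 3000) : ℝ)) (ha0 : 0 ≤ a) :
    a ^ 24000 ≤ H ^ (-8 : ℝ) := by
  calc a ^ 24000 ≤ (H ^ (-(1 / 3000) : ℝ)) ^ 24000 := pow_le_pow_left₀ ha0 ha _
    _ = H ^ (-8 : ℝ) := by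
      rw [← Real.rpow_natCast, ← Real.rpow_mul hH.le]
      norm_num

end WINC

open WINC in
theorem winCore_proof : MinorArc → LevelSum → PosWindow → AvgSigma → GeomSum → PZCount →
    WinCore := by
  rintro ⟨n1, hmin⟩ ⟨H1, hlev⟩ hPos hAvg hGeom ⟨n2, hPZ⟩
  refine ⟨max (max n1 n2) (max (Nat.ceil H1) 15360000), fun n hn B => ?_⟩
  have hn1 : n1 ≤ n := le_trans (le_trans (le_max_left _ _) (le_max_left _ _)) hn
  have hn2 : n2 ≤ n := le_trans (le_trans (le_max_right _ _) (le_max_left _ _)) hn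
  have hn3 : Nat.ceil H1 ≤ n := le_trans (le_trans (le_max_left _ _) (le_max_right _ _)) hn
  have hn4 : 15360000 ≤ n := le_trans (le_trans (le_max_right _ _) (le_max_right _ _)) hn
  have hnpos : 0 < n := by omega
  have hnR : (0 : ℝ) < n := by exact_mod_cast hnpos
  have hn1R : (1 : ℝ) ≤ n := by exact_mod_cast hnpos
  have hPZ1 : 1 ≤ (PZ n).card := by
    have h := hPZ n hn2
    by_contra hcon
    have h0 : (PZ n).card = 0 := by omega
    rw [h0] at h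
    have : 0 < 2 ^ n := by positivity
    omega
  have hXge : n ^ n ≤ XX B := XX_ge B (by omega)
  have hXge2 : n ^ 6000 ≤ XX B := le_trans (Nat.pow_le_pow_right hnpos (by omega)) hXge
  have hX2 : 2 ≤ XX B := by
    calc 2 ≤ n := by omega
      _ = n ^ 1 := (pow_one n).symm
      _ ≤ n ^ n := Nat.pow_le_pow_right hnpos (by omega)
      _ ≤ _ := hXge
  have hH0n : (n : ℝ) ≤ (n : ℝ) ^ 6000 := by
    calc (n : ℝ) = (n : ℝ) ^ 1 := (pow_one _).symm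
      _ ≤ _ := pow_le_pow_right₀ hn1R (by norm_num)
  have hH0pos : (0 : ℝ) < (n : ℝ) ^ 6000 := by positivity
  have hH1 : H1 ≤ (n : ℝ) ^ 6000 := by
    refine le_trans (Nat.le_ceil H1) (le_trans ?_ hH0n)
    exact_mod_cast hn3
  have hH0X : (n : ℝ) ^ 6000 ≤ XX B := by exact_mod_cast hXge2
  have hX0 : (0 : ℝ) < XX B := lt_of_lt_of_le hH0pos hH0X
  have hclog : n ^ 24000 ≤ 2 ^ nz n := Nat.le_pow_clog (by norm_num) _
  have hclog2 : 2 ^ nz n ≤ 2 * n ^ 24000 := by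
    have h1 : 1 < n ^ 24000 := Nat.one_lt_pow (by norm_num) (by omega)
    have h2 := Nat.pow_pred_clog_lt_self (b := 2) (by norm_num) h1
    have h3 : 0 < Nat.clog 2 (n ^ 24000) := Nat.clog_pos (by norm_num) (by omega)
    have h4 : 2 ^ nz n = 2 * 2 ^ (Nat.clog 2 (n ^ 24000)).pred := by
      unfold nz
      rw [← pow_succ']
      congr 1
      exact (Nat.succ_pred_eq_of_pos h3).symm
    rw [h4]
    exact Nat.mul_le_mul_left _ h2.le
  obtain ⟨P, D, m₀, hD, hm₀, hm⟩ := core B 48000 (nz n) ((n : ℝ) ^ 6000) (XX B)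
    (XX B ^ 4 / (7680000 * n ^ 12000)) rfl hX2 (Nat.even_iff.mpr (by norm_num)) (by norm_num)
    hPZ1 hH0pos hH0X
    (fun R f g hR hf hg h1 h2 => hlev ((n : ℝ) ^ 6000) (XX B) R f g hH1 hH0X hR hf hg h1 h2)
    (by
      intro H θ h1 h2 h3
      have hH : 0 < H := lt_of_lt_of_le hH0pos h1
      have h4 := hmin n hn1 B H θ h1 h2 h3
      have h5 : Sq B (XX B ^ 3) θ ≤ H ^ (-(1 / 3000) : ℝ) := by
        unfold Sq
        have hP : (0 : ℝ) < ((PZ n).card : ℝ) ^ TT n := by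
          have : (0 : ℝ) < ((PZ n).card : ℝ) := by exact_mod_cast hPZ1
          positivity
        push_cast
        rw [div_le_iff₀ (by positivity)]
        refine le_trans h4 (le_of_eq (by ring))
      have h6 : (48000 : ℕ) / 2 = 24000 := by norm_num
      rw [h6]
      exact rpow_aux H _ hH h5 (Sq_nonneg _ _ _))
    (by
      intro θ h1
      have h2 := g_le (N := 2 ^ nz n) hGeom (by positivity) θ ((n : ℝ) ^ 6000) hH0pos h1
      push_cast at h2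
      refine le_trans h2 ?_
      have h3 : ((n : ℝ) ^ 6000) ^ (-3 : ℝ) = (n : ℝ) ^ 6000 / (n : ℝ) ^ 24000 := by
        rw [Real.rpow_neg hH0pos.le]
        have h4 : ((n : ℝ) ^ 6000) ^ (3 : ℝ) = (n : ℝ) ^ 18000 := by
          rw [show (3 : ℝ) = ((3 : ℕ) : ℝ) by norm_num, Real.rpow_natCast, ← pow_mul]
        rw [h4, show (24000 : ℕ) = 6000 + 18000 by norm_num, pow_add]
        field_simp
      rw [h3]
      apply div_le_div_of_nonneg_left hH0pos.le (by positivity)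
      exact_mod_cast hclog)
    (by
      calc 2 ^ nz n ≤ 2 * n ^ 24000 := hclog2
        _ = 2 * (n ^ 6000) ^ 4 := by rw [← pow_mul]
        _ ≤ 2 * (XX B) ^ 4 := Nat.mul_le_mul_left _ (Nat.pow_le_pow_left hXge2 4)
        _ ≤ 48000 * (XX B) ^ 4 := Nat.mul_le_mul_right _ (by norm_num)
        _ = _ := by ring)
    (by
      have h1 : (15360000 : ℝ) ≤ n := by exact_mod_cast hn4
      push_cast
      linarith)
    (by
      have h1 : XX B ^ 4 / (7680000 * n ^ 12000) * (7680000 * n ^ 12000) ≤ XX B ^ 4 :=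
        Nat.div_mul_le_self _ _
      generalize XX B ^ 4 / (7680000 * n ^ 12000) = l at h1
      have h2 : ((l * (7680000 * n ^ 12000) : ℕ) : ℝ) ≤ ((XX B ^ 4 : ℕ) : ℝ) := by
        exact_mod_cast h1
      push_cast at h2 ⊢
      refine le_trans (le_of_eq ?_) h2
      rw [show (12000 : ℕ) = 6000 * 2 by norm_num, pow_mul]
      ring)
    (by
      apply Nat.div_lt_self
      · have : 0 < XX B := by omega
        positivity
      · calc 1 < 7680000 := by norm_num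
          _ = 7680000 * 1 := by norm_num
          _ ≤ 7680000 * n ^ 12000 := Nat.mul_le_mul_left _ (Nat.one_le_pow _ _ hnpos))
    hPos hAvg
  refine ⟨P, D, m₀, hD, ?_, hm⟩
  have : 4 * 48000 * XX B ^ 4 = 192000 * XX B ^ 4 := by ring
  omega

end Crest.Agent.R19
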